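import Vale.Agent.P154.Anti.Reg4.Part00
import Vale.Agent.P154.Anti.Reg4.Part01
import Vale.Agent.P154.Anti.Reg4.Part02
import Vale.Agent.P154.Anti.Reg4.Part03
import Vale.Agent.P154.Anti.Reg4.Part04
import Vale.Agent.P154.Anti.Reg4.Part05
import Vale.Agent.P154.Anti.Reg4.Part06
import Vale.Agent.P154.Anti.Reg4.Part07
import Vale.Agent.P154.Anti.Reg4.Part08
import Vale.Agent.P154.Anti.Reg4.Part09
import Vale.Agent.P154.Anti.Reg4.Part10
import Vale.Agent.P154.Anti.Reg4.Part11
import Vale.Agent.P154.Anti.Reg4.Part12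
import Vale.Agent.P154.Anti.Reg4.Part13
import Vale.Agent.P154.Anti.Reg4.Part14
import Vale.Agent.P154.Anti.Reg4.Part15
import Vale.Agent.P154.Anti.Reg4.Part16
import Vale.Agent.P154.Anti.Reg4.Part17
import Vale.Agent.P154.Anti.Reg4.Part18
import Vale.Agent.P154.Anti.Reg4.Part19
import Vale.Agent.P154.Anti.Reg4.Part20
import Vale.Agent.P154.Anti.Reg4.Part21
import Vale.Agent.P154.Anti.Reg4.Part22
import Vale.Agent.P154.Anti.Reg4.Part23
import Vale.Agent.P154.Anti.Reg4.Part24
import Vale.Agent.P154.Anti.Reg4.Part25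
import Vale.Agent.P154.Anti.Reg4.Part26
import Vale.Agent.P154.Anti.Reg4.Part27
import Vale.Agent.P154.Anti.Reg4.Part28
import Vale.Agent.P154.Anti.Reg4.Part29
import Vale.Agent.P154.Anti.Reg4.Part30
import Vale.Agent.P154.Anti.Reg4.Part31
import Vale.Agent.P154.Anti.Reg4.Part32
import Vale.Agent.P154.Anti.Reg4.Part33
import Vale.Agent.P154.Anti.Reg4.Part34
import Vale.Agent.P154.Anti.Reg4.Part35
import Vale.Agent.P154.Anti.Reg4.Part36
import Vale.Agent.P154.Anti.Reg4.Part37
import Vale.Agent.P154.Anti.Reg4.Part38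
import Vale.Agent.P154.Anti.Reg4.Part39
import Vale.Agent.P154.Anti.Reg4.Part40
import Vale.Agent.P154.Anti.Reg4.Part41
import Vale.Agent.P154.Anti.Reg4.Part42
import Vale.Agent.P154.Anti.Reg4.Part43
import Vale.Agent.P154.Anti.Reg4.Part44
import Vale.Agent.P154.Anti.Reg4.Part45
import Vale.Agent.P154.Anti.Reg4.Part46
import Vale.Agent.P154.Anti.Reg4.Part47
import Vale.Agent.P154.Anti.Reg4.Part48
import Vale.Agent.P154.Anti.Reg4.Part49
import Vale.Agent.P154.Anti.Reg4.Part50
import Vale.Agent.P154.Anti.Reg4.Part51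
import Vale.Agent.P154.Anti.Reg4.Part52
import Vale.Agent.P154.Anti.Reg4.Part53
import Vale.Agent.P154.Anti.Reg4.Part54
import Vale.Agent.P154.Anti.Reg4.Part55
import Vale.Agent.P154.Anti.Reg4.Part56
import Vale.Agent.P154.Anti.Reg4.Part57
import Vale.Agent.P154.Anti.Reg4.Part58
import Vale.Agent.P154.Anti.Reg4.Part59
import Vale.Agent.P154.Anti.Reg4.Part60
import Vale.Agent.P154.Anti.Reg4.Part61
import Vale.Agent.P154.Anti.Reg4.Part62
import Vale.Agent.P154.Anti.Reg4.Part63
import Vale.Agent.P154.Anti.Reg4.Part64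
import Vale.Agent.P154.Anti.Reg4.Part65
import Vale.Agent.P154.Anti.Reg4.Part66
import Vale.Agent.P154.Anti.Reg4.Part67
import Vale.Agent.P154.Anti.Reg4.Part68
import Vale.Agent.P154.Anti.Reg4.Part69
import Vale.Agent.P154.Anti.Reg4.Part70
import Vale.Agent.P154.Anti.Reg4.Part71
import Vale.Agent.P154.Anti.Reg4.Part72
import Vale.Agent.P154.Anti.Reg4.Part73
import Vale.Agent.P154.Anti.Reg4.Part74
import Vale.Agent.P154.Anti.Reg4.Part75
import Vale.Agent.P154.Anti.Reg4.Part76
import Vale.Agent.P154.Anti.Reg4.Part77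
import Vale.Agent.P154.Anti.Reg4.Part78
import Vale.Agent.P154.Anti.Reg4.Part79
import Vale.Agent.P154.Anti.Reg4.Part80
import Vale.Agent.P154.Anti.Reg4.Part81
import Vale.Agent.P154.Anti.Reg4.Part82
import Vale.Agent.P154.Anti.Reg4.Part83
import Vale.Agent.P154.Anti.Reg4.Part84
import Vale.Agent.P154.Anti.Reg4.Part85
import Vale.Agent.P154.Anti.Reg4.Part86
import Vale.Agent.P154.Anti.Reg4.Part87
import Vale.Agent.P154.Anti.BoxCompose

/-!
# Box certificate: assembly

Generated data.
-/

namespace Vale.Agent.P154.Anti.Reg4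

open Box

/-- A part of the tree above the checked boxes. -/
noncomputable def shape0 : CTree :=
  (.split false (.split true (.split false (.split true (.split false (.split true (.split false (.split true (.split false (.split true (.split false (.split true (.split false (.split true (.split false (.split true (.split false (.split true (.split false (.split true (.split false (.split true (.split false (.split true (.split false (.split true (.split false (.split true (.split false (.split true (.split false (.split true (.split false (.split true (.split false (.split true (.split false (.split true (.split false (.split true (.split false (.split true (.split false (.split true (.split false (.split true (.split false (.split true (.split false (.split true (.split false (.split true (.split false (.split true (.split false (.split true (.split false (.split true (.split false (.split true (.split false (.split true (.split false (.split true (.split false (.split true (.split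 false (.split true (.split false (.split true (.split false (.split true (.split false (.split true (.split false (.split true (.split false (.split true (.split false (.split true (.split false (.split true (.split false (.split true (.split false (.split true (.split false (.split true (.split false (.split true (.split false (.split true (.split false (.split true (.split false (.split true (.split false (.split true (.split false .skip .skip) .skip) .skip) .skip) .skip) .skip) .skip) .skip) .skip) .skip) .skip) .skip) .skip) .skip) .skip) .skip) .skip) .skip) .skip) .skip) .skip) .skip) .skip) .skip) .skip) .skip) .skip) .skip) .skip) .skip) .skip) .skip) .skip) .skip) .skip) .skip) .skip) .skip) .skip) .skip) .skip) .skip) .skip) .skip) .skip) .skip) .skip) .skip) .skip) .skip) .skip) .skip) .skip) .skip) .skip) .skip) .skip) .skip) .skip) .skip) .skip) .skip) .skip) .skip) .skip) .skip) .skip) .skip) .skip) .skip) .skip) .skip) .skip) .skip) .skip) .skip) .skip) .skip) .skip)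 .skip) .skip) .skip) .skip) .skip) .skip) .skip) .skip) .skip) .skip) .skip) .skip) .skip) .skip) .skip) .skip) .skip) .skip) .skip) .skip)

/-- A part of the tree above the checked boxes. -/
noncomputable def shape1 : CTree :=
  (.split false (.split true (.split false (.split true (.split false (.split true (.split false (.split true (.split false (.split true (.split false (.split true (.split false (.split true (.split false (.split true (.split false (.split true (.split false (.split true (.split false (.split true (.split false (.split true (.split false (.split true (.split false (.split true (.split false (.split true (.split false (.split true (.split false (.split true (.split false (.split true (.split false (.split true (.split false (.split true (.split false (.split true (.split false (.split true (.split false (.split true (.split false (.split true (.split false (.split true (.split false (.split true (.split false (.split true (.split false (.split true (.split false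 (.split true (.split false (.split true (.split false (.split true (.split false (.split true (.split false (.split true (.split false (.split true (.split false (.split true (.split false (.split true (.split false (.split true (.split false (.split true (.split false (.split true (.split false (.split true (.split false (.split true (.split false (.split true (.split false (.split true (.split false (.split true (.split false (.split true (.split false (.split true shape0 .skip) .skip) .skip) .skip) .skip) .skip) .skip) .skip) .skip) .skip) .skip) .skip) .skip) .skip) .skip) .skip) .skip) .skip) .skip) .skip) .skip) .skip) .skip) .skip) .skip) .skip) .skip) .skip) .skip) .skip) .skip) .skip) .skip) .skip) .skip) .skip) .skip) .skip) .skip) .skip) .skip) .skip) .skip) .skip) .skip) .skip) .skip) .skip) .skip) .skip) .skip) .skip) .skip) .skip) .skip) .skip) .skip) .skip) .skip) .skip) .skip) .skip) .skip) .skip) .skip) .skip) .skip) .skip) .skip) .skip) .skip) (.split true (.split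 true (.split false (.split false .skip .skip) .skip) .skip) .skip)) .skip) .skip) .skip) .skip) .skip) .skip) .skip) .skip) .skip) .skip) .skip) .skip) .skip) .skip) .skip) .skip) .skip) (.split true .skip .skip)) .skip) (.split true (.split true (.split false .skip .skip) .skip) .skip))

/-- A part of the tree above the checked boxes. -/
noncomputable def shape2 : CTree :=
  (.split false (.split true (.split false (.split true (.split false (.split true (.split false (.split true shape1 .skip) (.split true (.split true (.split false (.split true (.split true (.split true (.split true (.split true (.split true (.split true (.split true (.split true (.split true (.split true (.split true (.split true (.split true (.split true (.split true (.split true (.split true (.split true (.split true (.split true .skip .skip) .skip) .skip) .skip) .skip) .skip) .skip) .skip) .skip) .skip) .skip) .skip) .skip) .skip) .skip) .skip) .skip) .skip) .skip) .skip) .skip) (.split true (.split true (.split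 true (.split true (.split true (.split true (.split true (.split true (.split true (.split true (.split true (.split true (.split true (.split true (.split true (.split true (.split true (.split true (.split true (.split true (.split true (.split true (.split true (.split true (.split true (.split true (.split true (.split true (.split true (.split true (.split true .skip .skip) .skip) .skip) .skip) .skip) .skip) .skip) .skip) .skip) .skip) .skip) .skip) .skip) .skip) .skip) .skip) .skip) .skip) .skip) .skip) .skip) .skip) .skip) .skip) .skip) .skip) .skip) .skip) .skip) .skip) .skip)) .skip) .skip)) .skip) (.split true (.split true (.split false (.split true (.split true (.split true (.split true (.split true (.split true (.split true (.split true (.split true (.split true (.split true (.split true (.split true (.split true (.split true (.split true (.split true (.split true (.split true (.split true (.split true (.split false (.split true (.split true .skip .skip) .skip) .skip)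 .skip) .skip) .skip) .skip) .skip) .skip) .skip) .skip) .skip) .skip) .skip) .skip) .skip) .skip) .skip) .skip) .skip) .skip) .skip) .skip) .skip) (.split true (.split true (.split true (.split true .skip .skip) .skip) .skip) .skip)) .skip) .skip)) .skip) (.split true (.split true (.split false .skip .skip) .skip) .skip)) .skip) (.split true (.split true (.split true (.split false .skip .skip) .skip) .skip) .skip))

/-- A part of the tree above the checked boxes. -/
noncomputable def shape3 : CTree :=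
  (.split false (.split true (.split false (.split true (.split false (.split true shape2 .skip) (.split true (.split true (.split true (.split false (.split true .skip .skip) (.split true (.split true (.split true (.split true (.split true (.split true (.split true (.split true (.split true .skip .skip) .skip) .skip) .skip) .skip) .skip) .skip) .skip) .skip)) .skip) .skip) .skip)) .skip) (.split true (.split true (.split true (.split true (.split false (.split true (.split true (.split true (.split true (.split true (.split true (.split true (.split true (.split true (.split true (.split true (.split false (.split true (.split true (.split true (.split true (.split true (.split true (.split true .skip .skip) .skip) .skip) .skip) .skip) .skip) .skip) (.split true (.split true (.split true (.split true (.split true (.split true (.split true (.split true (.split true (.split true .skip .skip) .skip) .skip) .skip) .skip) .skip) .skip) .skip) .skip) .skip)) .skip) .skip) .skip) .skip)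 .skip) .skip) .skip) .skip) .skip) .skip) .skip) (.split true (.split true (.split true (.split true (.split true (.split true (.split true (.split true (.split true (.split true (.split true (.split true (.split true (.split true (.split true (.split true (.split true (.split true (.split true (.split true (.split true .skip .skip) .skip) .skip) .skip) .skip) .skip) .skip) .skip) .skip) .skip) .skip) .skip) .skip) .skip) .skip) .skip) .skip) .skip) .skip) .skip) .skip)) .skip) .skip) .skip) .skip)) .skip) (.split true (.split true (.split true (.split true (.split true (.split false (.split true (.split true (.split true (.split true (.split true (.split true (.split true (.split true (.split true (.split true (.split true (.split true (.split true (.split true (.split true (.split true .skip .skip) .skip) .skip) .skip) .skip) .skip) .skip) .skip) .skip) .skip) .skip) .skip) .skip) .skip) .skip) .skip) (.split true (.split true (.split true (.split true (.split true (.split true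 (.split true (.split true (.split true (.split true (.split true (.split true (.split true (.split true (.split true (.split true (.split true (.split true (.split true (.split true (.split true .skip .skip) .skip) .skip) .skip) .skip) .skip) .skip) .skip) .skip) .skip) .skip) .skip) .skip) .skip) .skip) .skip) .skip) .skip) .skip) .skip) .skip)) .skip) .skip) .skip) .skip) (.split false .skip .skip)))

/-- A part of the tree above the checked boxes. -/
noncomputable def shape4 : CTree :=
  (.split false (.split true (.split true (.split true (.split true (.split true (.split true (.split true (.split true (.split true (.split true (.split true (.split true (.split true (.split true (.split true (.split true (.split true (.split true (.split true (.split true (.split true (.split true (.split true (.split true (.split true (.split true (.split false (.split true (.split true (.split true (.split true .skip .skip) .skip) .skip) .skip) (.split true (.split true (.split true (.split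 true (.split true (.split true (.split true (.split true (.split true (.split true (.split true (.split true (.split true .skip .skip) .skip) .skip) .skip) .skip) .skip) .skip) .skip) .skip) .skip) .skip) .skip) .skip)) .skip) .skip) .skip) .skip) .skip) .skip) .skip) .skip) .skip) .skip) .skip) .skip) .skip) .skip) .skip) .skip) .skip) .skip) .skip) .skip) .skip) .skip) .skip) .skip) .skip) .skip) (.split true (.split true (.split true (.split true (.split true (.split true (.split true (.split true (.split true (.split true (.split true (.split true (.split true (.split true (.split true (.split true (.split true (.split true (.split true (.split true (.split true (.split true (.split true (.split true (.split true (.split true (.split true (.split true (.split true (.split true (.split true (.split true (.split true (.split true (.split true (.split true (.split true (.split true (.split true (.split true (.split true (.split true (.split true (.split true (.split true (.split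 true (.split true (.split true (.split true (.split true (.split true (.split false .skip (.split true (.split true (.split true (.split true (.split true (.split true (.split true (.split true (.split true (.split true .skip .skip) .skip) .skip) .skip) .skip) .skip) .skip) .skip) .skip) .skip)) .skip) .skip) .skip) .skip) .skip) .skip) .skip) .skip) .skip) .skip) .skip) .skip) .skip) .skip) .skip) .skip) .skip) .skip) .skip) .skip) .skip) .skip) .skip) .skip) .skip) .skip) .skip) .skip) .skip) .skip) .skip) .skip) .skip) .skip) .skip) .skip) .skip) .skip) .skip) .skip) .skip) .skip) .skip) .skip) .skip) .skip) .skip) .skip) .skip) .skip) .skip))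

/-- A part of the tree above the checked boxes. -/
noncomputable def shape5 : CTree :=
  (.split true (.split true (.split true (.split true (.split true (.split true (.split true (.split true (.split true (.split true (.split false (.split true (.split true (.split true (.split true (.split true (.split true (.split true (.split true (.split true (.split true (.split true (.split true (.split true (.split true (.split true (.split true (.split true (.split true (.split true (.split true (.split true (.split true (.split true (.split true (.split true (.split true (.split true (.split true (.split true (.split true (.split true (.split true (.split true (.split true (.split true (.split true (.split false (.split true (.split true (.split true (.split true .skip .skip) .skip) .skip) .skip) (.split true (.split true (.split true (.split true (.split true (.split true .skip .skip) .skip) .skip) .skip) .skip) .skip)) .skip) .skip) .skip) .skip) .skip) .skip) .skip) .skip) .skip) .skip)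 .skip) .skip) .skip) .skip) .skip) .skip) .skip) .skip) .skip) .skip) .skip) .skip) .skip) .skip) .skip) .skip) .skip) .skip) .skip) .skip) .skip) .skip) .skip) .skip) .skip) .skip) (.split true (.split true (.split true (.split true (.split true (.split true (.split true (.split true (.split true (.split true (.split true (.split true (.split true (.split true (.split true (.split true (.split true (.split true (.split true (.split true (.split true (.split true (.split true (.split true (.split true (.split true (.split true (.split true (.split true (.split true (.split true (.split true (.split true (.split true (.split true (.split true (.split true (.split true (.split true (.split true (.split true .skip .skip) .skip) .skip) .skip) .skip) .skip) .skip) .skip) .skip) .skip) .skip) .skip) .skip) .skip) .skip) .skip) .skip) .skip) .skip) .skip) .skip) .skip) .skip) .skip) .skip) .skip) .skip) .skip) .skip) .skip) .skip) .skip) .skip) .skip) .skip) .skip) .skip) .skip) .skip) .skip)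 .skip)) .skip) .skip) .skip) .skip) .skip) .skip) .skip) .skip) .skip) .skip)

/-- A part of the tree above the checked boxes. -/
noncomputable def shape6 : CTree :=
  (.split false (.split true (.split false (.split true (.split false (.split true shape3 .skip) (.split true (.split true (.split true (.split true (.split true shape4 .skip) (.split false .skip .skip)) .skip) (.split false .skip .skip)) .skip)) .skip) (.split true (.split true (.split true (.split true (.split true (.split true (.split true (.split false (.split true (.split true (.split true (.split true (.split true (.split true (.split true (.split true (.split true (.split true (.split true (.split true (.split true (.split true (.split true (.split true (.split true (.split true (.split true (.split true (.split true shape5 .skip) .skip) .skip) .skip) .skip) .skip) .skip) .skip) .skip) .skip) .skip) .skip) .skip) .skip) .skip) .skip) .skip) .skip) .skip) .skip) .skip) (.split true (.split true (.split true (.split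 true (.split true (.split true (.split true (.split true (.split true (.split true (.split true (.split true (.split true (.split true (.split true (.split true (.split true (.split true (.split true (.split true (.split true (.split true (.split true (.split true (.split true (.split true (.split true (.split true (.split true (.split true (.split true (.split true (.split true (.split true (.split true (.split true (.split true (.split true (.split true (.split true (.split true (.split true (.split true (.split true (.split true (.split true (.split true (.split true (.split true (.split true (.split true (.split true (.split true (.split false (.split true .skip .skip) .skip) .skip) .skip) .skip) .skip) .skip) .skip) .skip) .skip) .skip) .skip) .skip) .skip) .skip) .skip) .skip) .skip) .skip) .skip) .skip) .skip) .skip) .skip) .skip) .skip) .skip) .skip) .skip) .skip) .skip) .skip) .skip) .skip) .skip) .skip) .skip) .skip) .skip) .skip) .skip) .skip) .skip) .skip) .skip) .skip)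 .skip) .skip) .skip) .skip) .skip) .skip) .skip) .skip) .skip)) .skip) .skip) .skip) .skip) .skip) .skip) (.split false .skip .skip))) .skip) (.split true (.split true (.split true (.split true (.split true (.split true (.split true (.split true (.split false (.split true (.split true (.split true (.split true (.split true (.split true (.split true (.split true (.split true (.split true (.split true (.split true (.split true (.split true (.split true (.split true (.split true (.split true (.split true (.split true (.split true (.split true (.split true (.split true (.split true (.split true (.split true (.split true (.split false (.split true (.split true (.split true (.split true (.split true (.split true (.split true .skip .skip) .skip) .skip) .skip) .skip) .skip) .skip) .skip) .skip) .skip) .skip) .skip) .skip) .skip) .skip) .skip) .skip) .skip) .skip) .skip) .skip) .skip) .skip) .skip) .skip) .skip) .skip) .skip) .skip) .skip) .skip) .skip) .skip) .skip) .skip) .skip) (.split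 true (.split true (.split true (.split true (.split true (.split true (.split true (.split true (.split true (.split true (.split true (.split true (.split true (.split true (.split true (.split true (.split true (.split true (.split true (.split true (.split true (.split true (.split true (.split true (.split true .skip .skip) .skip) .skip) .skip) .skip) .skip) .skip) .skip) .skip) .skip) .skip) .skip) .skip) .skip) .skip) .skip) .skip) .skip) .skip) .skip) .skip) .skip) .skip) .skip) .skip)) .skip) .skip) .skip) .skip) .skip) .skip) .skip) (.split false .skip .skip)))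

/-- A part of the tree above the checked boxes. -/
noncomputable def shape7 : CTree :=
  (.split false (.split true (.split false (.split true shape6 .skip) (.split true (.split true (.split true (.split true (.split true (.split true (.split true (.split true (.split true (.split true (.split false (.split true (.split true (.split true (.split true (.split true (.split true (.split true (.split true (.split true (.split true (.split true (.split true (.split true (.split true (.split true (.split true (.split true (.split true (.split true (.split true (.split true (.split true (.split true (.split false .skip .skip) .skip) .skip) .skip) .skip) .skip) .skip) .skip) .skip) .skip) .skip) .skip) .skip) .skip) .skip) .skip) .skip) .skip) .skip) .skip) .skip) .skip) .skip) .skip) (.split true (.split true (.split true (.split true (.split true (.split true (.split true (.split true (.split true (.split true (.split true (.split true (.split true (.split true (.split true (.split true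 (.split true (.split true (.split true .skip .skip) .skip) .skip) .skip) .skip) .skip) .skip) .skip) .skip) .skip) .skip) .skip) .skip) .skip) .skip) .skip) .skip) .skip) .skip)) .skip) .skip) .skip) .skip) .skip) .skip) .skip) .skip) .skip) (.split false .skip .skip))) .skip) (.split true (.split true (.split true (.split true (.split true (.split true (.split true (.split true (.split true (.split true (.split true (.split true (.split false (.split true (.split true (.split true (.split true (.split true (.split true (.split true (.split true (.split true (.split true (.split true (.split true (.split true (.split true (.split true .skip .skip) .skip) .skip) .skip) .skip) .skip) .skip) .skip) .skip) .skip) .skip) .skip) .skip) .skip) .skip) (.split true (.split true (.split true (.split true (.split true (.split true (.split true (.split true (.split true (.split true (.split true .skip .skip) .skip) .skip) .skip) .skip) .skip) .skip) .skip) .skip) .skip) .skip)) .skip) .skip)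 .skip) .skip) .skip) .skip) .skip) .skip) .skip) .skip) .skip) (.split false .skip .skip)))

/-- A part of the tree above the checked boxes. -/
noncomputable def shape8 : CTree :=
  (.split false (.split true (.split false (.split true (.split false (.split true shape7 .skip) (.split true (.split true (.split true (.split true (.split true (.split true (.split true (.split true (.split true (.split true (.split true (.split true (.split true (.split true (.split false (.split true (.split true (.split true (.split true (.split true (.split true (.split true (.split true .skip .skip) .skip) .skip) .skip) .skip) .skip) .skip) .skip) (.split true (.split true (.split true (.split true .skip .skip) .skip) .skip) .skip)) .skip) .skip) .skip) .skip) .skip) .skip) .skip) .skip) .skip) .skip) .skip) .skip) (.split false .skip .skip)) (.split false (.split true .skip .skip) .skip))) (.split false .skip (.split true (.split false .skip .skip) .skip))) (.split true (.split true (.split true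 (.split true (.split true (.split true (.split true (.split true (.split true (.split true (.split true (.split true (.split true (.split true (.split true (.split false (.split true (.split true (.split true (.split true (.split true (.split true .skip .skip) .skip) .skip) .skip) .skip) .skip) (.split true (.split true (.split true (.split true (.split true (.split true (.split true .skip .skip) .skip) .skip) .skip) .skip) .skip) .skip)) .skip) .skip) .skip) .skip) .skip) .skip) .skip) .skip) .skip) .skip) .skip) .skip) .skip) (.split false .skip .skip)) (.split false (.split true .skip (.split false .skip .skip)) .skip))) .skip) (.split true (.split true (.split true (.split true (.split true (.split true (.split true (.split true (.split true (.split true (.split true (.split true (.split true (.split true (.split true (.split true (.split false (.split true (.split true (.split true (.split true (.split true (.split true (.split true (.split true (.split true .skip .skip) .skip)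 .skip) .skip) .skip) .skip) .skip) .skip) .skip) (.split true (.split true (.split true (.split true (.split true (.split true (.split true (.split true (.split true .skip .skip) .skip) .skip) .skip) .skip) .skip) .skip) .skip) .skip)) .skip) .skip) .skip) .skip) .skip) .skip) .skip) .skip) .skip) .skip) .skip) .skip) .skip) (.split false .skip .skip)) (.split false (.split true .skip .skip) (.split true .skip .skip))) (.split false (.split true (.split false .skip .skip) .skip) (.split true .skip .skip))))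

/-- A part of the tree above the checked boxes. -/
noncomputable def shape9 : CTree :=
  (.split false (.split true (.split false (.split true shape8 (.split false .skip (.split true (.split false .skip .skip) .skip))) (.split true (.split true (.split true (.split true (.split true (.split true (.split true (.split true (.split true (.split true (.split true (.split true (.split true (.split true (.split true (.split true (.split true (.split false (.split true (.split true (.split true (.split true (.split true (.split true (.split true (.split true (.split true (.split true (.split true (.split true .skip .skip) .skip) .skip) .skip) .skip) .skip) .skip) .skip) .skip) .skip) .skip) .skip) (.split true (.split true (.split true (.split true (.split true (.split true (.split true (.split true (.split true (.split true (.split true (.split true (.split true .skip .skip) .skip) .skip) .skip) .skip) .skip) .skip) .skip) .skip) .skip) .skip) .skip) .skip)) .skip) .skip) .skip) .skip)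 .skip) .skip) .skip) .skip) .skip) .skip) .skip) .skip) (.split false .skip .skip)) (.split false (.split true .skip .skip) .skip)) (.split false (.split true .skip .skip) (.split true .skip .skip))) (.split false (.split true (.split false .skip .skip) .skip) (.split true .skip .skip))) (.split false (.split true (.split false .skip .skip) .skip) (.split true .skip .skip)))) (.split false .skip (.split true (.split false .skip .skip) .skip))) (.split true (.split true (.split true (.split true (.split true (.split true (.split true (.split true (.split true (.split true (.split true (.split true (.split true (.split true (.split true (.split false (.split true (.split true (.split true (.split true (.split true (.split true (.split true (.split true (.split true (.split true (.split true (.split true (.split true (.split true (.split true (.split true (.split true (.split true (.split true .skip .skip) .skip) .skip) .skip) .skip) .skip) .skip) .skip) .skip) .skip) .skip) .skip) .skip)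 .skip) .skip) .skip) .skip) .skip) .skip) (.split true (.split true (.split true (.split true (.split true (.split true (.split true (.split true (.split true (.split true (.split true (.split true (.split true (.split true (.split true (.split true (.split true (.split true (.split true (.split true .skip .skip) .skip) .skip) .skip) .skip) .skip) .skip) .skip) .skip) .skip) .skip) .skip) .skip) .skip) .skip) .skip) .skip) .skip) .skip) .skip)) .skip) .skip) .skip) .skip) .skip) .skip) .skip) .skip) .skip) (.split false .skip .skip)) (.split false (.split true .skip .skip) .skip)) (.split false (.split true .skip .skip) (.split true .skip .skip))) (.split false (.split true (.split false .skip .skip) .skip) (.split true .skip .skip))) (.split false (.split true (.split false .skip .skip) .skip) (.split true .skip .skip))) (.split false (.split true (.split false .skip .skip) (.split false .skip .skip)) (.split true (.split true .skip .skip) .skip))))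

/-- A part of the tree above the checked boxes. -/
noncomputable def shape10 : CTree :=
  (.split true (.split true (.split true (.split true (.split true (.split true (.split true (.split true (.split true (.split true (.split true (.split true (.split true (.split true (.split true (.split false (.split true (.split true (.split true (.split true (.split true (.split true (.split true (.split true (.split true (.split true (.split true (.split true (.split true (.split true (.split true (.split true (.split true (.split true (.split true (.split true (.split true (.split true (.split true (.split true (.split true (.split false (.split true (.split true (.split true (.split true .skip .skip) .skip) .skip) .skip) (.split true (.split true (.split true (.split true (.split true (.split true .skip .skip) .skip) .skip) .skip) .skip) .skip)) .skip) .skip) .skip) .skip) .skip) .skip) .skip) .skip) .skip) .skip) .skip) .skip) .skip) .skip) .skip) .skip) .skip) .skip) .skip) .skip) .skip)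 .skip) .skip) .skip) .skip) (.split true (.split true (.split true (.split true (.split true (.split true (.split true (.split true (.split true (.split true (.split true (.split true (.split true (.split true (.split true (.split true (.split true (.split true (.split true (.split true (.split true (.split true (.split true (.split true (.split true (.split true (.split true (.split true (.split true (.split true (.split true (.split true (.split true (.split true (.split true (.split true .skip .skip) .skip) .skip) .skip) .skip) .skip) .skip) .skip) .skip) .skip) .skip) .skip) .skip) .skip) .skip) .skip) .skip) .skip) .skip) .skip) .skip) .skip) .skip) .skip) .skip) .skip) .skip) .skip) .skip) .skip) .skip) .skip) .skip) .skip) .skip) .skip)) .skip) .skip) .skip) .skip) .skip) .skip) .skip) .skip) .skip) (.split false .skip .skip)) (.split false .skip .skip)) (.split false (.split true .skip .skip) .skip)) (.split false (.split true .skip .skip) .skip)) (.split false (.split true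 .skip .skip) (.split true .skip .skip))) (.split false (.split true (.split false .skip .skip) .skip) (.split true .skip .skip)))

/-- A part of the tree above the checked boxes. -/
noncomputable def shape11 : CTree :=
  (.split false (.split true (.split false (.split true shape9 (.split false .skip (.split true (.split false .skip (.split true .skip .skip)) .skip))) (.split true (.split true (.split true (.split true (.split true (.split true (.split true (.split true (.split true (.split true (.split true (.split true (.split true (.split true (.split true (.split true (.split true (.split true (.split true (.split false (.split true (.split true (.split true (.split true (.split true (.split true (.split true (.split true (.split true (.split true (.split true (.split true (.split true (.split true (.split true (.split true (.split true (.split true (.split true (.split true (.split true .skip .skip) .skip) .skip) .skip) .skip) .skip) .skip) .skip) .skip) .skip) .skip) .skip)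 .skip) .skip) .skip) .skip) .skip) .skip) .skip) .skip) .skip) (.split true (.split true (.split true (.split true (.split true (.split true (.split true (.split true (.split true (.split true (.split true (.split true (.split true (.split true (.split true (.split true (.split true (.split true (.split true (.split true (.split true (.split true (.split true .skip .skip) .skip) .skip) .skip) .skip) .skip) .skip) .skip) .skip) .skip) .skip) .skip) .skip) .skip) .skip) .skip) .skip) .skip) .skip) .skip) .skip) .skip) .skip)) .skip) .skip) .skip) .skip) .skip) .skip) .skip) .skip) .skip) .skip) .skip) .skip) (.split false .skip .skip)) (.split false (.split true .skip .skip) .skip)) (.split false (.split true .skip .skip) .skip)) (.split false (.split true (.split false .skip .skip) .skip) (.split true .skip .skip))) (.split false (.split true .skip .skip) (.split true .skip .skip))) (.split false (.split true (.split false .skip .skip) .skip) (.split true .skip .skip))) (.split false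 (.split true (.split false .skip .skip) (.split false .skip .skip)) (.split true .skip .skip)))) (.split false .skip (.split true (.split false .skip (.split true .skip .skip)) .skip))) (.split true (.split true shape10 (.split false (.split true .skip .skip) .skip)) (.split false (.split true (.split false .skip .skip) (.split false .skip .skip)) (.split true .skip .skip))))

/-- A part of the tree above the checked boxes. -/
noncomputable def shape12 : CTree :=
  (.split true (.split true (.split false (.split true (.split true (.split true (.split true (.split true (.split true (.split true (.split true (.split true (.split true (.split true (.split true (.split true (.split true (.split true (.split true (.split true (.split true (.split true (.split true (.split true (.split true (.split true (.split true (.split true (.split true (.split true (.split false (.split true (.split true (.split true (.split true (.split true (.split true (.split true (.split true (.split true (.split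 true (.split true .skip .skip) .skip) .skip) .skip) .skip) .skip) .skip) .skip) .skip) .skip) .skip) (.split true (.split true (.split true (.split true (.split true (.split true (.split true (.split true (.split true (.split true (.split true (.split true (.split true .skip .skip) .skip) .skip) .skip) .skip) .skip) .skip) .skip) .skip) .skip) .skip) .skip) .skip)) .skip) .skip) .skip) .skip) .skip) .skip) .skip) .skip) .skip) .skip) .skip) .skip) .skip) .skip) .skip) .skip) .skip) .skip) .skip) .skip) .skip) .skip) .skip) .skip) .skip) .skip) .skip) (.split true (.split true (.split true (.split true (.split true (.split true (.split true (.split true (.split true (.split true (.split true (.split true (.split true (.split true (.split true (.split true (.split true (.split true (.split true (.split true (.split true (.split true (.split true (.split true (.split true (.split true (.split true (.split true (.split true (.split true (.split true (.split true (.split true (.split true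 (.split true (.split true (.split true (.split true (.split true (.split true (.split true (.split true (.split true (.split true .skip .skip) .skip) .skip) .skip) .skip) .skip) .skip) .skip) .skip) .skip) .skip) .skip) .skip) .skip) .skip) .skip) .skip) .skip) .skip) .skip) .skip) .skip) .skip) .skip) .skip) .skip) .skip) .skip) .skip) .skip) .skip) .skip) .skip) .skip) .skip) .skip) .skip) .skip) .skip) .skip) .skip) .skip) .skip) .skip)) .skip) .skip)

/-- A part of the tree above the checked boxes. -/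
noncomputable def shape13 : CTree :=
  (.split false (.split true (.split true (.split true (.split true (.split true (.split true (.split true (.split true (.split true (.split true (.split true (.split true (.split true (.split true (.split true (.split true (.split true (.split true (.split true (.split true (.split true (.split true (.split true (.split true (.split true (.split true (.split true (.split true (.split true (.split true (.split true (.split true (.split true (.split false (.split true (.split true (.split true (.split true (.split true (.split true (.split true (.split true (.split true (.split true (.split true (.split true (.split true (.split true (.split true (.split true (.split true (.split true (.split true .skip .skip) .skip) .skip) .skip) .skip) .skip) .skip) .skip) .skip) .skip) .skip) .skip) .skip) .skip) .skip) .skip) .skip) .skip) .skip) (.split true (.split true (.split true (.split true (.split true (.split true (.split true (.split true (.split true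 (.split true (.split true (.split true (.split true (.split true (.split true (.split true (.split true (.split true (.split true (.split true (.split true (.split true .skip .skip) .skip) .skip) .skip) .skip) .skip) .skip) .skip) .skip) .skip) .skip) .skip) .skip) .skip) .skip) .skip) .skip) .skip) .skip) .skip) .skip) .skip)) .skip) .skip) .skip) .skip) .skip) .skip) .skip) .skip) .skip) .skip) .skip) .skip) .skip) .skip) .skip) .skip) .skip) .skip) .skip) .skip) .skip) .skip) .skip) .skip) .skip) .skip) .skip) .skip) .skip) .skip) .skip) .skip) .skip) (.split true (.split true (.split true (.split true (.split true (.split true (.split true (.split true (.split true (.split true (.split true (.split true (.split true (.split true (.split true (.split true (.split true (.split true (.split true (.split true (.split true (.split true (.split true (.split true (.split true (.split true (.split true (.split true (.split true (.split true (.split true (.split true (.split true (.split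 true (.split true (.split true (.split true (.split true (.split true (.split true (.split true (.split true (.split true (.split true (.split true (.split true (.split true (.split true (.split true (.split true (.split true (.split true (.split true (.split true (.split true (.split true (.split true (.split true (.split true (.split true (.split true (.split true .skip .skip) .skip) .skip) .skip) .skip) .skip) .skip) .skip) .skip) .skip) .skip) .skip) .skip) .skip) .skip) .skip) .skip) .skip) .skip) .skip) .skip) .skip) .skip) .skip) .skip) .skip) .skip) .skip) .skip) .skip) .skip) .skip) .skip) .skip) .skip) .skip) .skip) .skip) .skip) .skip) .skip) .skip) .skip) .skip) .skip) .skip) .skip) .skip) .skip) .skip) .skip) .skip) .skip) .skip) .skip) .skip) .skip) .skip) .skip) .skip) .skip) .skip))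

/-- A part of the tree above the checked boxes. -/
noncomputable def shape14 : CTree :=
  (.split true (.split true (.split true (.split true (.split true (.split true (.split true (.split true (.split true (.split true (.split true (.split true (.split true (.split true (.split true (.split true (.split true (.split true (.split true (.split true (.split true (.split true (.split true (.split true (.split true (.split true (.split true (.split true (.split true (.split true (.split true (.split true (.split true (.split true (.split true (.split true (.split false (.split true (.split true (.split true (.split true (.split true (.split true (.split true (.split true (.split true (.split true (.split true (.split true (.split true (.split true (.split true (.split true (.split true (.split true (.split true (.split true (.split true (.split true (.split true (.split true (.split true (.split true (.split true (.split true (.split true (.split true .skip .skip) .skip) .skip) .skip)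 .skip) .skip) .skip) .skip) .skip) .skip) .skip) .skip) .skip) .skip) .skip) .skip) .skip) .skip) .skip) .skip) .skip) .skip) .skip) .skip) .skip) .skip) .skip) .skip) .skip) .skip) (.split true (.split true (.split true (.split true (.split true (.split true (.split true (.split true (.split true (.split true (.split true (.split true (.split true (.split true (.split true (.split true (.split true (.split true (.split true (.split true (.split true (.split true (.split true (.split true (.split true (.split true (.split true (.split true (.split true (.split true (.split true (.split true .skip .skip) .skip) .skip) .skip) .skip) .skip) .skip) .skip) .skip) .skip) .skip) .skip) .skip) .skip) .skip) .skip) .skip) .skip) .skip) .skip) .skip) .skip) .skip) .skip) .skip) .skip) .skip) .skip) .skip) .skip) .skip) .skip)) .skip) .skip) .skip) .skip) .skip) .skip) .skip) .skip) .skip) .skip) .skip) .skip) .skip) .skip) .skip) .skip) .skip) .skip) .skip) .skip) .skip) .skip) .skip) .skip)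 .skip) .skip) .skip) .skip) .skip) .skip) .skip) .skip) .skip) .skip) .skip) .skip)

/-- A part of the tree above the checked boxes. -/
noncomputable def shape15 : CTree :=
  (.split true (.split false (.split true (.split true (.split true (.split true shape14 .skip) .skip) .skip) .skip) (.split true (.split true (.split true (.split true (.split true (.split true (.split true (.split true (.split true (.split true (.split true (.split true (.split true (.split true (.split true (.split true (.split true (.split true (.split true (.split true (.split true (.split true (.split true (.split true (.split true (.split true (.split true (.split true (.split true (.split true (.split true (.split true (.split true (.split true (.split true (.split true (.split true (.split true (.split true (.split true (.split true (.split true (.split true (.split true (.split true (.split true (.split true (.split true (.split true (.split true (.split true (.split true (.split true (.split true (.split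 true (.split true (.split true (.split true (.split true (.split true (.split true (.split true (.split true (.split true (.split true (.split true (.split true (.split true (.split true (.split true (.split true (.split true (.split true (.split false (.split true (.split true (.split true (.split true (.split true .skip .skip) .skip) .skip) .skip) .skip) (.split true (.split true (.split true (.split true (.split true (.split true (.split true (.split true (.split true (.split true (.split true (.split true (.split true .skip .skip) .skip) .skip) .skip) .skip) .skip) .skip) .skip) .skip) .skip) .skip) .skip) .skip)) .skip) .skip) .skip) .skip) .skip) .skip) .skip) .skip) .skip) .skip) .skip) .skip) .skip) .skip) .skip) .skip) .skip) .skip) .skip) .skip) .skip) .skip) .skip) .skip) .skip) .skip) .skip) .skip) .skip) .skip) .skip) .skip) .skip) .skip) .skip) .skip) .skip) .skip) .skip) .skip) .skip) .skip) .skip) .skip) .skip) .skip) .skip) .skip) .skip) .skip) .skip) .skip) .skip)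 .skip) .skip) .skip) .skip) .skip) .skip) .skip) .skip) .skip) .skip) .skip) .skip) .skip) .skip) .skip) .skip) .skip) .skip) .skip) .skip)) (.split false .skip .skip))

/-- A part of the tree above the checked boxes. -/
noncomputable def shape16 : CTree :=
  (.split false (.split true (.split false (.split true (.split false (.split true shape11 (.split false .skip (.split true (.split false .skip (.split true .skip .skip)) .skip))) (.split true (.split true (.split true (.split true (.split true (.split true (.split true (.split true (.split true (.split true (.split true (.split true (.split true (.split true (.split true (.split true (.split true shape12 .skip) .skip) .skip) .skip) .skip) .skip) .skip) .skip) (.split false .skip .skip)) (.split false .skip .skip)) (.split false (.split true .skip .skip) .skip)) (.split false (.split true .skip .skip) .skip)) (.split false (.split true .skip .skip) (.split true .skip .skip))) (.split false (.split true .skip .skip) (.split true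 .skip .skip))) (.split false (.split true .skip .skip) .skip)) (.split false (.split true .skip .skip) .skip)) (.split false (.split true (.split false .skip .skip) .skip) (.split true .skip .skip)))) .skip) (.split true (.split true (.split true (.split true (.split true (.split true (.split true (.split true (.split true (.split true (.split true (.split true (.split true (.split true (.split true (.split true (.split true shape13 .skip) .skip) .skip) .skip) .skip) .skip) (.split false .skip .skip)) (.split false .skip .skip)) (.split false .skip .skip)) (.split false (.split true .skip .skip) .skip)) (.split false (.split true .skip .skip) (.split true .skip .skip))) (.split false (.split true .skip .skip) (.split true .skip .skip))) (.split false (.split true .skip .skip) (.split true .skip .skip))) (.split false (.split true .skip .skip) .skip)) (.split false (.split true .skip .skip) .skip)) (.split false (.split true .skip .skip) .skip)) (.split false (.split true .skip .skip)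 .skip))) .skip) (.split true (.split true (.split true (.split true (.split true (.split true (.split true (.split true (.split true (.split true (.split true (.split true (.split true shape15 (.split false .skip .skip)) (.split false .skip .skip)) (.split false (.split false .skip .skip) (.split true .skip .skip))) (.split false (.split false .skip .skip) (.split true .skip .skip))) (.split false (.split true .skip .skip) (.split true .skip .skip))) (.split false (.split true .skip .skip) (.split true .skip .skip))) (.split false (.split true .skip .skip) (.split true .skip .skip))) (.split false (.split true (.split false .skip .skip) .skip) (.split true .skip .skip))) (.split false (.split true .skip .skip) (.split true .skip .skip))) (.split false (.split true .skip .skip) .skip)) (.split false (.split true .skip .skip) .skip)) (.split false (.split true .skip .skip) .skip)) (.split false (.split true .skip .skip) (.split true .skip .skip))))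

/-- A part of the tree above the checked boxes. -/
noncomputable def shape17 : CTree :=
  (.split true (.split true (.split false (.split true (.split true (.split true (.split true (.split true (.split true (.split true (.split true (.split true (.split true (.split true (.split true (.split true (.split true (.split true (.split true (.split true (.split true (.split true (.split true (.split true (.split true (.split true (.split true (.split true (.split true (.split true (.split true (.split true (.split true (.split true (.split true (.split true (.split true (.split true (.split true (.split true (.split true (.split true (.split true (.split true (.split true (.split true (.split true (.split true (.split true (.split true (.split true (.split false .skip .skip) .skip) .skip) .skip) .skip) .skip) .skip) .skip) .skip) .skip) .skip) .skip) .skip) .skip) .skip) .skip) .skip) .skip) .skip) .skip) .skip) .skip) .skip) .skip) .skip) .skip) .skip) .skip) .skip) .skip) .skip) .skip)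 .skip) .skip) .skip) .skip) .skip) .skip) .skip) .skip) .skip) .skip) .skip) .skip) .skip) .skip) .skip) .skip) .skip) (.split true (.split true (.split true (.split true (.split true (.split true (.split true (.split true (.split true (.split true (.split true (.split true (.split true (.split true (.split true (.split true (.split true (.split true (.split true (.split true (.split true (.split true (.split true (.split true (.split true (.split true (.split true (.split true (.split true (.split true (.split true (.split true (.split true (.split true (.split true (.split true (.split true (.split true (.split true (.split true (.split true (.split true (.split true (.split true (.split true (.split true (.split true .skip .skip) .skip) .skip) .skip) .skip) .skip) .skip) .skip) .skip) .skip) .skip) .skip) .skip) .skip) .skip) .skip) .skip) .skip) .skip) .skip) .skip) .skip) .skip) .skip) .skip) .skip) .skip) .skip) .skip) .skip) .skip) .skip) .skip) .skip) .skip) .skip) .skip)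 .skip) .skip) .skip) .skip) .skip) .skip) .skip) .skip) .skip) .skip)) .skip) .skip)

/-- A part of the tree above the checked boxes. -/
noncomputable def shape18 : CTree :=
  (.split false (.split true (.split true (.split true (.split true (.split true (.split true (.split true (.split true (.split true (.split true (.split true (.split true (.split true (.split true (.split true (.split true (.split true (.split true (.split true (.split true (.split true (.split true (.split true (.split true (.split true (.split true (.split true (.split true (.split true (.split true (.split true (.split true (.split true (.split true (.split true (.split true (.split true (.split true (.split true (.split true shape17 .skip) .skip) .skip) .skip) .skip) .skip) .skip) .skip) .skip) .skip) .skip) .skip) .skip) .skip) .skip) .skip) .skip) .skip) .skip) .skip) .skip) .skip) .skip) .skip) .skip) .skip) .skip) .skip) .skip) .skip) .skip) .skip) .skip) .skip) .skip) .skip) .skip) .skip) .skip) .skip)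 (.split true (.split true (.split true (.split true (.split true (.split true (.split true (.split true (.split true (.split true (.split true (.split true (.split true (.split true (.split true (.split true (.split true (.split true (.split true (.split true (.split true (.split true (.split true (.split true (.split true (.split true (.split true (.split true (.split true (.split true (.split true (.split true (.split true (.split true (.split true (.split true (.split true (.split true (.split true (.split true (.split true (.split true (.split true (.split true (.split true (.split true (.split true (.split true (.split true (.split true (.split true (.split true (.split true (.split true (.split true (.split true (.split true (.split true (.split true (.split true (.split true (.split true (.split true (.split true (.split true (.split true (.split true (.split false (.split true (.split true (.split true (.split true (.split true (.split true (.split true (.split true (.split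 true (.split true (.split true (.split true (.split true .skip .skip) .skip) .skip) .skip) .skip) .skip) .skip) .skip) .skip) .skip) .skip) .skip) .skip) (.split true (.split true (.split true (.split true (.split true .skip .skip) .skip) .skip) .skip) .skip)) .skip) .skip) .skip) .skip) .skip) .skip) .skip) .skip) .skip) .skip) .skip) .skip) .skip) .skip) .skip) .skip) .skip) .skip) .skip) .skip) .skip) .skip) .skip) .skip) .skip) .skip) .skip) .skip) .skip) .skip) .skip) .skip) .skip) .skip) .skip) .skip) .skip) .skip) .skip) .skip) .skip) .skip) .skip) .skip) .skip) .skip) .skip) .skip) .skip) .skip) .skip) .skip) .skip) .skip) .skip) .skip) .skip) .skip) .skip) .skip) .skip) .skip) .skip) .skip) (.split true .skip .skip)) (.split true .skip .skip)) .skip))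

/-- A part of the tree above the checked boxes. -/
noncomputable def shape19 : CTree :=
  (.split true (.split true (.split true (.split true (.split true (.split true (.split true (.split true (.split true (.split true (.split true (.split true (.split true (.split true (.split false (.split true (.split true (.split true (.split true (.split true (.split true (.split true (.split true (.split true (.split true (.split true (.split true (.split true (.split true (.split true (.split true (.split true (.split true (.split true (.split true (.split true (.split true (.split true (.split true (.split true (.split true (.split true (.split true (.split true (.split true (.split true (.split false (.split true (.split true (.split true .skip .skip) .skip) .skip) (.split true (.split true (.split true (.split true (.split true (.split true .skip .skip) .skip) .skip) .skip) .skip) .skip)) .skip) .skip) .skip) .skip) .skip) .skip) .skip) .skip) .skip) .skip) .skip) .skip) .skip) .skip)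 .skip) .skip) .skip) .skip) .skip) .skip) .skip) .skip) .skip) .skip) .skip) .skip) .skip) .skip) .skip) .skip) .skip) (.split true (.split true (.split true (.split true (.split true (.split true (.split true (.split true (.split true (.split true (.split true (.split true (.split true (.split true (.split true (.split true (.split true (.split true (.split true (.split true (.split true (.split true (.split true (.split true (.split true (.split true (.split true (.split true (.split true (.split true (.split true (.split true (.split true (.split true (.split true (.split true (.split true (.split true (.split true (.split true (.split true (.split false .skip (.split true .skip .skip)) .skip) .skip) .skip) .skip) .skip) .skip) .skip) .skip) .skip) .skip) .skip) .skip) .skip) .skip) .skip) .skip) .skip) .skip) .skip) .skip) .skip) .skip) .skip) .skip) .skip) .skip) .skip) .skip) .skip) .skip) .skip) .skip) .skip) .skip) .skip) .skip) .skip) .skip) .skip) .skip) .skip)) .skip) .skip)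 .skip) .skip) .skip) .skip) .skip) .skip) .skip) .skip) .skip) .skip) .skip) .skip)

/-- A part of the tree above the checked boxes. -/
noncomputable def shape20 : CTree :=
  (.split true (.split true (.split true (.split true (.split true (.split true (.split true (.split true (.split true (.split true (.split true (.split true (.split true (.split true (.split true (.split true (.split true (.split true (.split true (.split true (.split true (.split true (.split true (.split true (.split true (.split true (.split true (.split true (.split true (.split true (.split true (.split true (.split true (.split true (.split true (.split true (.split true (.split true (.split true (.split false (.split true (.split true (.split true (.split true (.split true (.split true (.split true (.split true (.split true (.split true (.split true (.split true (.split true (.split true (.split true (.split true (.split true (.split true (.split true (.split true (.split true (.split true (.split true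 (.split true (.split true (.split true .skip .skip) .skip) .skip) .skip) .skip) .skip) .skip) .skip) .skip) .skip) .skip) .skip) .skip) .skip) .skip) .skip) .skip) .skip) .skip) .skip) .skip) .skip) .skip) .skip) .skip) .skip) (.split true (.split true (.split true (.split true (.split true (.split true (.split true (.split true (.split true (.split true (.split true (.split true (.split true (.split true (.split true (.split true (.split true (.split true (.split true (.split true (.split true (.split true (.split true (.split true (.split true (.split true (.split true (.split true (.split true (.split true (.split true (.split true (.split true .skip .skip) .skip) .skip) .skip) .skip) .skip) .skip) .skip) .skip) .skip) .skip) .skip) .skip) .skip) .skip) .skip) .skip) .skip) .skip) .skip) .skip) .skip) .skip) .skip) .skip) .skip) .skip) .skip) .skip) .skip) .skip) .skip) .skip)) .skip) .skip) .skip) .skip) .skip) .skip) .skip) .skip) .skip) .skip) .skip) .skip) .skip) .skip) .skip)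 .skip) .skip) .skip) .skip) .skip) .skip) .skip) .skip) .skip) .skip) .skip) .skip) .skip) .skip) .skip) .skip) .skip) .skip) .skip) .skip) .skip) .skip) .skip) .skip)

/-- A part of the tree above the checked boxes. -/
noncomputable def shape21 : CTree :=
  (.split false (.split true (.split true (.split true (.split true (.split true (.split true (.split true (.split true (.split true (.split true (.split true (.split true (.split true (.split true (.split true (.split true (.split true (.split true (.split true (.split true (.split true (.split true (.split true (.split true (.split true (.split true (.split true (.split true (.split true (.split true (.split true (.split true (.split true (.split true (.split true (.split true (.split true (.split true (.split true (.split true (.split true shape19 .skip) .skip) .skip) .skip) .skip) .skip) .skip) .skip) .skip) .skip) .skip) .skip) .skip) .skip) .skip) .skip) .skip) .skip) .skip) .skip) .skip) .skip) .skip) (.split false .skip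 .skip)) (.split false .skip .skip)) (.split false .skip .skip)) (.split false .skip .skip)) (.split false .skip .skip)) (.split false .skip .skip)) (.split false .skip .skip)) (.split false .skip .skip)) (.split false (.split true .skip .skip) .skip)) (.split true (.split false (.split true .skip .skip) .skip) (.split false .skip .skip))) (.split true (.split false (.split true .skip .skip) .skip) (.split false .skip .skip))) (.split true (.split false (.split true .skip .skip) .skip) (.split false .skip .skip))) (.split true (.split false (.split true .skip .skip) .skip) (.split false .skip .skip))) (.split true (.split false (.split true .skip .skip) .skip) (.split false .skip .skip))) (.split true (.split false .skip .skip) (.split false .skip .skip))) (.split true (.split false .skip .skip) .skip)) (.split true (.split false .skip .skip) .skip)) (.split true (.split false .skip .skip) .skip)) (.split true (.split true (.split true (.split true (.split true (.split true (.split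 true (.split true (.split true (.split true (.split true (.split true (.split true (.split true (.split true (.split true (.split true (.split true (.split true (.split true (.split true (.split true (.split true (.split true (.split true (.split true (.split true (.split true (.split true (.split true (.split true (.split true (.split true (.split true (.split true (.split true shape20 .skip) .skip) .skip) .skip) .skip) .skip) .skip) .skip) .skip) .skip) .skip) .skip) .skip) .skip) .skip) .skip) .skip) .skip) .skip) .skip) .skip) (.split true .skip .skip)) (.split true .skip .skip)) (.split true .skip .skip)) (.split true .skip .skip)) (.split true .skip .skip)) (.split true (.split false .skip .skip) .skip)) (.split true (.split false .skip .skip) .skip)) (.split true (.split false .skip .skip) .skip)) (.split true (.split false .skip .skip) .skip)) (.split true (.split false .skip .skip) (.split false .skip .skip))) (.split true (.split false .skip .skip) .skip)) (.split true (.split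 false .skip .skip) .skip)) (.split true (.split false .skip .skip) .skip)) (.split true (.split false .skip .skip) .skip)) (.split true (.split false .skip .skip) .skip)))

/-- A part of the tree above the checked boxes. -/
noncomputable def shape22 : CTree :=
  (.split false (.split true (.split false (.split true shape16 (.split false .skip (.split true (.split false .skip (.split true .skip .skip)) .skip))) (.split true (.split true (.split true (.split true (.split true (.split true (.split true (.split true (.split true (.split true (.split true (.split true (.split true (.split true (.split true shape18 (.split false (.split false .skip .skip) .skip)) (.split false (.split false .skip .skip) .skip)) (.split false (.split false .skip .skip) (.split true .skip .skip))) (.split false (.split false .skip .skip) (.split true .skip .skip))) (.split false (.split false (.split true .skip .skip) (.split true .skip .skip)) (.split true .skip .skip))) (.split false (.split true (.split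 false .skip .skip) .skip) (.split true (.split false .skip .skip) .skip))) (.split false (.split true (.split false .skip .skip) .skip) (.split true .skip .skip))) (.split false (.split true (.split false .skip .skip) (.split false .skip .skip)) (.split true (.split false .skip .skip) .skip))) (.split false (.split true (.split false .skip .skip) .skip) (.split true (.split false .skip .skip) .skip))) (.split false (.split true (.split false .skip .skip) .skip) (.split true (.split false .skip .skip) .skip))) (.split false (.split true .skip .skip) (.split true .skip .skip))) (.split false (.split true .skip .skip) (.split true .skip .skip))) (.split false (.split true .skip .skip) (.split true .skip .skip))) (.split false (.split true .skip .skip) (.split true .skip .skip))) (.split false (.split true (.split false .skip .skip) (.split false .skip .skip)) (.split true .skip (.split false .skip .skip))))) (.split false .skip (.split true (.split false .skip (.split true (.split false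 .skip .skip) .skip)) .skip))) (.split true (.split true shape21 (.split false (.split true (.split false .skip .skip) (.split false .skip .skip)) (.split true (.split true .skip .skip) .skip))) (.split false (.split true (.split false (.split true .skip .skip) .skip) (.split false .skip (.split true .skip .skip))) (.split true (.split true .skip .skip) (.split false .skip .skip)))))

/-- A part of the tree above the checked boxes. -/
noncomputable def shape23 : CTree :=
  (.split false (.split true (.split true (.split true (.split true (.split true (.split true (.split true (.split true (.split true (.split true (.split true (.split true (.split true (.split true (.split true (.split true (.split true (.split true (.split true (.split true (.split true (.split true (.split true (.split true (.split true (.split true (.split true (.split true (.split true (.split true (.split true (.split true (.split true (.split true (.split true (.split true (.split true (.split true (.split false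 (.split true (.split true (.split true (.split true (.split true (.split true (.split true (.split true (.split true (.split true (.split true (.split true (.split true (.split true (.split true (.split true (.split true (.split true .skip .skip) .skip) .skip) .skip) .skip) .skip) .skip) .skip) .skip) .skip) .skip) .skip) .skip) .skip) .skip) .skip) .skip) .skip) (.split true (.split true (.split true (.split true (.split true (.split true (.split true (.split true (.split true (.split true (.split true (.split true (.split true (.split true (.split true (.split true .skip .skip) .skip) .skip) .skip) .skip) .skip) .skip) .skip) .skip) .skip) .skip) .skip) .skip) .skip) .skip) .skip)) .skip) .skip) .skip) .skip) .skip) .skip) .skip) .skip) .skip) .skip) .skip) .skip) .skip) .skip) .skip) .skip) .skip) .skip) .skip) .skip) .skip) .skip) .skip) .skip) .skip) .skip) .skip) .skip) .skip) .skip) .skip) .skip) .skip) .skip) .skip) .skip) .skip) .skip) (.split true (.split true (.split true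 (.split true (.split true (.split true (.split true (.split true (.split true (.split true (.split true (.split true (.split true (.split true (.split true (.split true (.split true (.split true (.split true (.split true (.split true (.split true (.split true (.split true (.split true (.split true (.split true (.split true (.split true (.split true (.split true (.split true (.split true (.split true (.split true (.split true (.split true (.split true (.split true (.split true (.split true (.split true (.split true (.split true (.split true (.split true (.split true (.split true (.split false (.split true (.split true (.split true (.split true (.split true .skip .skip) .skip) .skip) .skip) .skip) (.split true (.split true (.split true .skip .skip) .skip) .skip)) .skip) .skip) .skip) .skip) .skip) .skip) .skip) .skip) .skip) .skip) .skip) .skip) .skip) .skip) .skip) .skip) .skip) .skip) .skip) .skip) .skip) .skip) .skip) .skip) .skip) .skip) .skip) .skip) .skip) .skip) .skip) .skip)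 .skip) .skip) .skip) .skip) .skip) .skip) .skip) .skip) .skip) .skip) .skip) .skip) .skip) .skip) .skip) .skip))

/-- A part of the tree above the checked boxes. -/
noncomputable def shape24 : CTree :=
  (.split true (.split true (.split true (.split true (.split true (.split true (.split true (.split true (.split true (.split true (.split true (.split true (.split true (.split true (.split true (.split true (.split true (.split true (.split true (.split true (.split true (.split true (.split true (.split true (.split true (.split true (.split true (.split true (.split true (.split true (.split true (.split true (.split true (.split true (.split true (.split true (.split true (.split true (.split true (.split true (.split true (.split true (.split true (.split true (.split true (.split true (.split true (.split true (.split true (.split true (.split true (.split true (.split true (.split true (.split true shape23 .skip) .skip) .skip) .skip) .skip) .skip) .skip) .skip) .skip) .skip)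 .skip) .skip) .skip) .skip) .skip) .skip) .skip) .skip) .skip) .skip) .skip) .skip) .skip) .skip) .skip) .skip) .skip) .skip) .skip) .skip) .skip) .skip) .skip) .skip) .skip) .skip) .skip) .skip) .skip) .skip) .skip) (.split false .skip .skip)) (.split false .skip .skip)) (.split false .skip .skip)) (.split false .skip .skip)) (.split false (.split true .skip .skip) .skip)) (.split false (.split true .skip .skip) .skip)) (.split false (.split true .skip .skip) (.split true .skip .skip))) (.split false (.split true (.split false .skip .skip) .skip) (.split true .skip .skip))) (.split false (.split true (.split false .skip .skip) .skip) (.split true .skip .skip))) (.split false (.split true (.split true .skip .skip) .skip) (.split true (.split true .skip .skip) .skip))) (.split false (.split true (.split true .skip .skip) .skip) (.split true (.split true .skip .skip) .skip))) (.split false (.split true (.split true .skip .skip) .skip) (.split true (.split true .skip .skip) .skip)))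 (.split false (.split true (.split true .skip .skip) .skip) (.split true (.split true .skip .skip) .skip))) (.split true (.split false (.split true .skip .skip) (.split true .skip .skip)) (.split false (.split false .skip .skip) (.split false .skip .skip))))

/-- A part of the tree above the checked boxes. -/
noncomputable def shape25 : CTree :=
  (.split true (.split true (.split true (.split true (.split true (.split true (.split true (.split true (.split true (.split true (.split true (.split true (.split true (.split true (.split true (.split true (.split true (.split true (.split true (.split true (.split true (.split true (.split true (.split true (.split true (.split true (.split true (.split true (.split true (.split false (.split true (.split true (.split true (.split true (.split true (.split true (.split true (.split true (.split true (.split true (.split true (.split true (.split true (.split true (.split true (.split true (.split true (.split true (.split true (.split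 true (.split true (.split true (.split true (.split true (.split true (.split true (.split true (.split true (.split true (.split true (.split true (.split true (.split true (.split false .skip .skip) .skip) .skip) .skip) .skip) .skip) .skip) .skip) .skip) .skip) .skip) .skip) .skip) .skip) .skip) .skip) .skip) .skip) .skip) .skip) .skip) .skip) .skip) .skip) .skip) .skip) .skip) .skip) .skip) .skip) .skip) .skip) .skip) .skip) (.split true (.split true (.split true (.split true (.split true (.split true (.split true (.split true (.split true (.split true (.split true (.split true (.split true (.split true (.split true (.split true (.split true (.split true (.split true (.split true (.split true (.split true (.split true (.split true (.split true (.split true (.split true (.split true (.split true (.split true (.split true (.split true (.split true (.split true (.split false .skip .skip) .skip) .skip) .skip) .skip) .skip) .skip) .skip) .skip) .skip) .skip) .skip) .skip) .skip) .skip)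 .skip) .skip) .skip) .skip) .skip) .skip) .skip) .skip) .skip) .skip) .skip) .skip) .skip) .skip) .skip) .skip) .skip) .skip) .skip) .skip)) .skip) .skip) .skip) .skip) .skip) .skip) .skip) .skip) .skip) .skip) .skip) .skip) .skip) .skip) .skip) .skip) .skip) .skip) .skip) .skip) .skip) .skip) .skip) .skip) .skip) .skip) .skip) .skip) .skip)

/-- A part of the tree above the checked boxes. -/
noncomputable def shape26 : CTree :=
  (.split false (.split true (.split true (.split true shape24 (.split true (.split false (.split true .skip .skip) (.split true .skip .skip)) (.split false .skip .skip))) (.split true (.split false (.split true .skip .skip) (.split true .skip .skip)) (.split false .skip .skip))) (.split true (.split false (.split true .skip .skip) .skip) (.split false .skip .skip))) (.split true (.split true (.split true (.split true (.split true (.split true (.split true (.split true (.split true (.split true (.split true (.split true (.split true (.split true (.split true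 (.split true (.split true (.split true (.split true (.split true (.split true (.split true (.split true (.split true (.split true (.split true (.split true (.split true (.split true (.split true (.split true (.split true (.split true (.split true (.split true (.split true (.split true (.split true (.split true (.split true (.split true (.split true (.split true (.split true (.split true (.split true (.split true (.split true (.split true (.split true (.split true shape25 .skip) .skip) .skip) .skip) .skip) .skip) .skip) .skip) .skip) .skip) .skip) .skip) .skip) .skip) .skip) .skip) .skip) .skip) .skip) .skip) .skip) .skip) .skip) .skip) .skip) .skip) .skip) .skip) (.split true .skip .skip)) (.split true .skip .skip)) .skip) (.split true .skip .skip)) (.split true .skip .skip)) (.split true .skip .skip)) (.split true .skip .skip)) (.split true .skip .skip)) (.split true .skip .skip)) (.split true .skip .skip)) (.split true .skip .skip)) (.split true .skip .skip)) (.split true .skip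 .skip)) (.split true .skip .skip)) (.split true (.split false .skip .skip) .skip)) (.split true (.split false .skip .skip) .skip)) (.split true (.split false .skip .skip) (.split false .skip .skip))) (.split true (.split false .skip .skip) (.split false .skip .skip))) (.split true (.split false .skip .skip) (.split false .skip .skip))) (.split true (.split false (.split true .skip .skip) .skip) (.split false (.split true .skip .skip) .skip))) (.split true (.split false (.split true .skip .skip) .skip) (.split false .skip .skip))) (.split true (.split false .skip .skip) (.split false .skip .skip))) (.split true (.split false .skip .skip) .skip)))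

/-- A part of the tree above the checked boxes. -/
noncomputable def shape27 : CTree :=
  (.split false (.split true (.split true (.split true (.split true (.split true (.split true (.split true (.split true (.split true (.split true (.split true (.split true (.split true (.split true (.split true (.split true (.split true (.split true (.split true (.split true (.split true (.split true (.split true (.split true (.split true (.split true (.split true (.split true (.split true (.split true (.split true (.split true (.split true (.split true (.split true (.split true (.split true (.split true (.split true (.split true (.split true (.split true (.split false (.split true (.split true (.split true (.split true (.split true (.split true (.split true (.split true (.split true (.split true (.split true (.split true (.split true (.split true (.split true (.split true (.split true (.split true (.split true (.split true (.split true .skip .skip) .skip) .skip) .skip) .skip) .skip) .skip) .skip)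 .skip) .skip) .skip) .skip) .skip) .skip) .skip) .skip) .skip) .skip) .skip) .skip) .skip) (.split true (.split true (.split true (.split true (.split true (.split true (.split true (.split true (.split true (.split true (.split true (.split true (.split true (.split true (.split true (.split true (.split true (.split true (.split true .skip .skip) .skip) .skip) .skip) .skip) .skip) .skip) .skip) .skip) .skip) .skip) .skip) .skip) .skip) .skip) .skip) .skip) .skip) .skip)) .skip) .skip) .skip) .skip) .skip) .skip) .skip) .skip) .skip) .skip) .skip) .skip) .skip) .skip) .skip) .skip) .skip) .skip) .skip) .skip) .skip) .skip) .skip) .skip) .skip) .skip) .skip) .skip) .skip) .skip) .skip) .skip) .skip) .skip) .skip) .skip) .skip) .skip) .skip) .skip) .skip) .skip) (.split true (.split true (.split true (.split true (.split true (.split true (.split true (.split true (.split true (.split true (.split true (.split true (.split true (.split true (.split true (.split true (.split true (.split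 true (.split true (.split true (.split true (.split true (.split true (.split true (.split true (.split true (.split true (.split true (.split true (.split true (.split true (.split true (.split true (.split true (.split true (.split true (.split true (.split true (.split true (.split true (.split true (.split true (.split true (.split true (.split true (.split true (.split true (.split true (.split true (.split true (.split true (.split true (.split true (.split false (.split true (.split true (.split true (.split true (.split true (.split true (.split true .skip .skip) .skip) .skip) .skip) .skip) .skip) .skip) (.split true (.split true (.split true (.split true (.split true (.split true (.split true .skip .skip) .skip) .skip) .skip) .skip) .skip) .skip)) .skip) .skip) .skip) .skip) .skip) .skip) .skip) .skip) .skip) .skip) .skip) .skip) .skip) .skip) .skip) .skip) .skip) .skip) .skip) .skip) .skip) .skip) .skip) .skip) .skip) .skip) .skip) .skip) .skip) .skip) .skip) .skip) .skip)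 .skip) .skip) .skip) .skip) .skip) .skip) .skip) .skip) .skip) .skip) .skip) .skip) .skip) .skip) .skip) .skip) .skip) .skip) .skip) .skip))

/-- A part of the tree above the checked boxes. -/
noncomputable def shape28 : CTree :=
  (.split true (.split true (.split true (.split true (.split true (.split true (.split true (.split true (.split true (.split true (.split true (.split true (.split true (.split true (.split true (.split true (.split true (.split true (.split true (.split true (.split true (.split true (.split true (.split true (.split true (.split true (.split true (.split true (.split true (.split true (.split true (.split true (.split true (.split true (.split true (.split true (.split true (.split true (.split true (.split true (.split true (.split true (.split true (.split true (.split true (.split true shape27 .skip) .skip) .skip) .skip) .skip) .skip) .skip) .skip) .skip) .skip) .skip) .skip) .skip) .skip) .skip) .skip) .skip) .skip) .skip) .skip) .skip) .skip) .skip)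 (.split false .skip .skip)) (.split false .skip .skip)) (.split false (.split true .skip .skip) (.split true .skip .skip))) (.split false (.split true .skip .skip) (.split true .skip .skip))) (.split false (.split true .skip .skip) (.split true .skip .skip))) (.split false (.split true .skip .skip) (.split true .skip .skip))) (.split false (.split true .skip .skip) (.split true .skip .skip))) (.split false (.split true .skip .skip) (.split true .skip .skip))) (.split false (.split true .skip .skip) .skip)) (.split false (.split true .skip .skip) .skip)) (.split false (.split true .skip .skip) (.split true .skip .skip))) (.split false (.split true .skip .skip) (.split true .skip .skip))) (.split false (.split true .skip .skip) (.split true .skip .skip))) (.split false (.split true .skip .skip) (.split true .skip .skip))) (.split false (.split true .skip .skip) .skip)) (.split false .skip .skip)) (.split false .skip .skip)) (.split false .skip .skip)) (.split false .skip .skip)) (.split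 false .skip .skip)) (.split false (.split true .skip .skip) .skip)) (.split false (.split true (.split true .skip .skip) .skip) (.split true .skip .skip))) (.split false (.split true (.split true .skip .skip) .skip) (.split true .skip .skip)))

/-- A part of the tree above the checked boxes. -/
noncomputable def shape29 : CTree :=
  (.split true (.split true (.split true (.split true (.split true (.split true (.split true (.split true (.split true (.split true (.split true (.split true (.split true (.split true (.split false (.split true (.split true (.split true (.split true (.split true (.split true (.split true (.split true (.split true (.split true (.split true (.split true (.split true (.split true (.split true (.split true (.split true (.split true (.split true (.split true (.split true (.split true (.split true (.split true (.split true (.split true (.split true (.split true (.split true (.split true (.split true (.split true (.split true (.split true (.split true (.split true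 (.split true (.split true (.split true (.split true (.split true (.split true (.split false .skip .skip) .skip) .skip) .skip) .skip) .skip) .skip) .skip) .skip) .skip) .skip) .skip) .skip) .skip) .skip) .skip) .skip) .skip) .skip) .skip) .skip) .skip) .skip) .skip) .skip) .skip) .skip) .skip) .skip) .skip) .skip) .skip) .skip) .skip) .skip) .skip) .skip) .skip) .skip) .skip) .skip) .skip) .skip) (.split true (.split true (.split true (.split true (.split true (.split true (.split true (.split true (.split true (.split true (.split true (.split true (.split true (.split true (.split true (.split true (.split true (.split true (.split true (.split true (.split true (.split true (.split true (.split true (.split true (.split true (.split true (.split true (.split true (.split true (.split true (.split true (.split true (.split true (.split true (.split true (.split true (.split true (.split true (.split true (.split true .skip .skip) .skip) .skip) .skip) .skip) .skip) .skip) .skip) .skip)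 .skip) .skip) .skip) .skip) .skip) .skip) .skip) .skip) .skip) .skip) .skip) .skip) .skip) .skip) .skip) .skip) .skip) .skip) .skip) .skip) .skip) .skip) .skip) .skip) .skip) .skip) .skip) .skip) .skip) .skip) .skip) .skip)) .skip) .skip) .skip) .skip) .skip) .skip) .skip) .skip) .skip) .skip) .skip) .skip) .skip) .skip)

/-- A part of the tree above the checked boxes. -/
noncomputable def shape30 : CTree :=
  (.split true (.split true (.split true (.split true (.split true (.split true (.split true (.split true (.split true (.split true (.split true (.split true (.split true (.split true (.split true (.split true (.split true (.split true (.split true (.split true (.split true (.split true (.split true (.split true (.split true (.split true (.split true (.split true (.split true (.split true (.split true (.split true (.split true (.split true (.split true (.split true (.split true (.split true (.split true (.split true (.split true (.split true (.split true (.split true (.split true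 (.split true (.split true (.split true (.split true (.split true (.split true (.split true (.split true (.split true (.split true (.split true (.split true (.split true (.split true shape29 .skip) .skip) .skip) .skip) .skip) .skip) .skip) .skip) .skip) .skip) .skip) .skip) .skip) .skip) .skip) .skip) .skip) .skip) .skip) .skip) .skip) .skip) .skip) .skip) .skip) .skip) .skip) .skip) .skip) .skip) .skip) .skip) .skip) .skip) (.split false .skip .skip)) (.split false .skip .skip)) (.split true .skip .skip)) (.split true .skip .skip)) (.split true .skip .skip)) (.split true .skip .skip)) (.split true (.split false .skip .skip) .skip)) (.split true .skip .skip)) (.split true (.split false .skip .skip) .skip)) (.split true (.split false .skip .skip) .skip)) (.split true (.split false .skip .skip) .skip)) (.split true (.split false .skip .skip) .skip)) (.split true .skip .skip)) (.split true .skip .skip)) (.split true .skip .skip)) (.split true .skip .skip)) (.split true .skip .skip)) (.split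 true .skip .skip)) (.split true .skip .skip)) (.split true .skip .skip)) (.split true (.split false .skip .skip) .skip)) (.split true (.split false .skip .skip) .skip)) (.split true (.split false (.split true .skip .skip) .skip) (.split false (.split true .skip .skip) .skip))) (.split true (.split false (.split true .skip .skip) .skip) (.split false (.split true .skip .skip) .skip))) (.split true (.split false (.split true .skip .skip) (.split true .skip .skip)) (.split false (.split true .skip .skip) .skip)))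

/-- A part of the tree above the checked boxes. -/
noncomputable def shape31 : CTree :=
  (.split false (.split true (.split false (.split true shape22 (.split false .skip (.split true (.split false .skip (.split true (.split false .skip .skip) .skip)) .skip))) (.split true (.split true (.split true shape26 (.split false (.split true (.split false (.split true .skip .skip) .skip) (.split false .skip .skip)) (.split true (.split true .skip .skip) .skip))) (.split false (.split true (.split false (.split true .skip .skip) .skip) (.split false (.split true .skip .skip) .skip)) (.split true (.split true .skip .skip) (.split false .skip .skip)))) (.split false (.split true (.split false (.split true (.split false .skip .skip) (.split false .skip .skip)) (.split true .skip .skip)) (.split false .skip (.split true .skip .skip))) (.split true (.split true (.split false .skip .skip) .skip) (.split false .skip .skip))))) (.split false .skip (.split true (.split false .skip (.split true (.split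 false .skip .skip) .skip)) .skip))) (.split true (.split false (.split true (.split true (.split true (.split true (.split true (.split true (.split true (.split true shape28 (.split false (.split true (.split true .skip .skip) (.split false .skip .skip)) (.split true (.split true .skip .skip) (.split false .skip .skip)))) (.split false (.split true (.split true .skip .skip) (.split false .skip .skip)) (.split true (.split true .skip .skip) (.split false .skip .skip)))) (.split false (.split true (.split true .skip .skip) (.split false .skip .skip)) (.split true (.split true .skip .skip) (.split false .skip .skip)))) (.split true (.split false (.split true .skip .skip) (.split true .skip .skip)) (.split false (.split false .skip .skip) (.split true .skip .skip)))) (.split true (.split false (.split true .skip .skip) (.split true .skip .skip)) (.split false (.split false .skip .skip) .skip))) (.split true (.split false (.split true .skip .skip) .skip) (.split false .skip .skip))) (.split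 true (.split false (.split true .skip .skip) .skip) (.split false (.split true .skip .skip) .skip))) (.split true (.split false (.split true .skip .skip) .skip) (.split false (.split true .skip .skip) .skip))) (.split true (.split true (.split true (.split true (.split true shape30 (.split true (.split false (.split true .skip .skip) (.split true .skip .skip)) (.split false (.split true .skip .skip) (.split true .skip .skip)))) (.split true (.split false (.split true .skip .skip) (.split true .skip .skip)) (.split false .skip .skip))) (.split true (.split false .skip .skip) .skip)) (.split true (.split true .skip .skip) .skip)) (.split true (.split true .skip .skip) .skip))) (.split false (.split true (.split false (.split true (.split false .skip .skip) (.split false .skip .skip)) (.split true .skip .skip)) (.split false (.split true (.split false .skip .skip) .skip) (.split true .skip .skip))) (.split true (.split true .skip .skip) (.split false (.split true .skip .skip) .skip)))))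

/-- A part of the tree above the checked boxes. -/
noncomputable def shape32 : CTree :=
  (.split false (.split true (.split true (.split true (.split true (.split true (.split true (.split true (.split true (.split true (.split true (.split true (.split true (.split true (.split true (.split true (.split true (.split true (.split true (.split true (.split true (.split true (.split true (.split true (.split true (.split true (.split true (.split true (.split true (.split true (.split true (.split true (.split true (.split true (.split true (.split true (.split true (.split true (.split true (.split true (.split true (.split true (.split false (.split true (.split true (.split true (.split true (.split true (.split true (.split true (.split true (.split true (.split true (.split true (.split true (.split true (.split true (.split true (.split true (.split true (.split true (.split true (.split true (.split true (.split true (.split true .skip .skip) .skip) .skip) .skip) .skip) .skip)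 .skip) .skip) .skip) .skip) .skip) .skip) .skip) .skip) .skip) .skip) .skip) .skip) .skip) .skip) .skip) .skip) .skip) (.split true (.split true (.split true (.split true (.split true (.split true (.split true (.split true (.split true (.split true (.split true (.split true (.split true (.split true (.split true (.split true (.split true (.split true (.split true (.split true (.split true (.split true (.split true (.split true (.split true .skip .skip) .skip) .skip) .skip) .skip) .skip) .skip) .skip) .skip) .skip) .skip) .skip) .skip) .skip) .skip) .skip) .skip) .skip) .skip) .skip) .skip) .skip) .skip) .skip) .skip)) .skip) .skip) .skip) .skip) .skip) .skip) .skip) .skip) .skip) .skip) .skip) .skip) .skip) .skip) .skip) .skip) .skip) .skip) .skip) .skip) .skip) .skip) .skip) .skip) .skip) .skip) .skip) .skip) .skip) .skip) .skip) .skip) .skip) .skip) .skip) .skip) .skip) .skip) .skip) .skip) .skip) (.split true (.split true (.split true (.split true (.split true (.split true (.split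 true (.split true (.split true (.split true (.split true (.split true (.split true (.split true (.split true (.split true (.split true (.split true (.split true (.split true (.split true (.split true (.split true (.split true (.split true (.split true (.split true (.split true (.split true (.split true (.split true (.split true (.split true (.split true (.split true (.split true (.split true (.split true (.split true (.split true (.split true (.split true (.split true (.split true (.split true (.split true (.split true (.split true (.split true (.split true (.split true (.split true (.split true (.split true (.split true (.split false (.split true (.split true (.split true (.split true (.split true (.split true (.split true (.split true (.split true .skip .skip) .skip) .skip) .skip) .skip) .skip) .skip) .skip) .skip) (.split true (.split true (.split true (.split true (.split true (.split true (.split true .skip .skip) .skip) .skip) .skip) .skip) .skip) .skip)) .skip) .skip) .skip)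 .skip) .skip) .skip) .skip) .skip) .skip) .skip) .skip) .skip) .skip) .skip) .skip) .skip) .skip) .skip) .skip) .skip) .skip) .skip) .skip) .skip) .skip) .skip) .skip) .skip) .skip) .skip) .skip) .skip) .skip) .skip) .skip) .skip) .skip) .skip) .skip) .skip) .skip) .skip) .skip) .skip) .skip) .skip) .skip) .skip) .skip) .skip) .skip) .skip) .skip) .skip) .skip))

/-- A part of the tree above the checked boxes. -/
noncomputable def shape33 : CTree :=
  (.split true (.split true (.split true (.split true (.split true (.split true (.split true (.split true (.split true (.split true (.split true (.split true (.split true (.split true (.split true (.split true (.split true (.split true (.split true (.split true (.split true (.split true (.split true (.split true (.split true (.split true (.split true (.split true (.split true (.split true (.split true (.split true (.split true (.split true (.split true (.split true (.split true (.split true (.split true (.split true (.split true (.split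 true (.split true shape32 .skip) .skip) .skip) .skip) .skip) .skip) .skip) .skip) .skip) .skip) .skip) .skip) .skip) (.split false .skip .skip)) (.split false .skip .skip)) (.split false .skip .skip)) (.split false .skip .skip)) (.split false .skip .skip)) (.split false .skip .skip)) (.split false .skip .skip)) (.split false (.split true .skip .skip) (.split true .skip .skip))) (.split false (.split true .skip .skip) (.split true .skip .skip))) (.split false (.split true .skip .skip) (.split true .skip .skip))) (.split false .skip .skip)) (.split false .skip .skip)) (.split false .skip .skip)) (.split false (.split true .skip .skip) .skip)) (.split false (.split true .skip .skip) .skip)) (.split false (.split true .skip .skip) (.split true .skip .skip))) (.split false (.split true .skip .skip) (.split true .skip .skip))) (.split false (.split true .skip .skip) (.split true .skip .skip))) (.split false (.split true .skip .skip) (.split true .skip .skip))) (.split false (.split true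 (.split false .skip .skip) .skip) (.split true .skip .skip))) (.split false (.split true .skip .skip) (.split true .skip .skip))) (.split false (.split true .skip .skip) (.split true .skip .skip))) (.split false (.split true .skip .skip) (.split true .skip .skip))) (.split false (.split true .skip .skip) .skip)) (.split false .skip .skip)) (.split false .skip .skip)) (.split false .skip .skip)) (.split false .skip .skip)) (.split false .skip .skip)) (.split false .skip .skip))

/-- A part of the tree above the checked boxes. -/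
noncomputable def shape34 : CTree :=
  (.split true (.split true (.split false (.split true (.split true (.split true (.split true (.split true (.split true (.split true (.split true (.split true (.split true (.split true (.split true (.split true (.split true (.split true (.split true (.split true (.split true (.split true (.split true (.split true (.split true (.split true (.split true (.split true (.split true (.split true (.split true (.split true (.split true (.split true (.split true (.split true (.split true (.split true (.split true (.split true (.split true (.split true (.split true (.split true (.split true (.split true (.split false (.split true .skip .skip) (.split true .skip .skip)) .skip) .skip) .skip) .skip) .skip) .skip) .skip) .skip) .skip) .skip) .skip) .skip) .skip) .skip) .skip) .skip) .skip) .skip) .skip) .skip) .skip) .skip) .skip) .skip) .skip) .skip) .skip) .skip) .skip) .skip) .skip) .skip) .skip) .skip) .skip) .skip) .skip) .skip) .skip) .skip) .skip) .skip)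 .skip) (.split true (.split true (.split true (.split true (.split true (.split true (.split true (.split true (.split true (.split true (.split true (.split true (.split true (.split true (.split true (.split true (.split true (.split true (.split true (.split true (.split true (.split true (.split true (.split true (.split true (.split true (.split true (.split true (.split true (.split true (.split true (.split true (.split true (.split true (.split true (.split true (.split true (.split true (.split true (.split true (.split true (.split true (.split true (.split true (.split true (.split true (.split true (.split true (.split true (.split true .skip .skip) .skip) .skip) .skip) .skip) .skip) .skip) .skip) .skip) .skip) .skip) .skip) .skip) .skip) .skip) .skip) .skip) .skip) .skip) .skip) .skip) .skip) .skip) .skip) .skip) .skip) .skip) .skip) .skip) .skip) .skip) .skip) .skip) .skip) .skip) .skip) .skip) .skip) .skip) .skip) .skip) .skip) .skip) .skip) .skip) .skip) .skip) .skip)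 .skip) .skip)) .skip) .skip)

/-- A part of the tree above the checked boxes. -/
noncomputable def shape35 : CTree :=
  (.split true (.split true (.split true (.split true (.split true (.split true (.split true (.split true (.split true (.split true (.split true (.split true (.split true (.split true (.split true (.split true (.split true (.split true (.split true (.split true (.split true (.split true (.split true (.split true (.split true (.split true (.split true (.split true (.split true (.split true (.split true (.split true (.split true (.split true (.split true (.split true (.split true (.split true (.split true (.split true (.split true (.split true (.split true (.split true (.split true (.split true (.split true (.split true (.split true (.split true (.split true (.split true (.split true (.split true shape34 .skip) .skip) .skip) .skip) .skip) .skip) .skip) .skip) .skip) .skip) .skip) .skip) .skip) .skip) .skip) .skip) .skip) .skip) .skip) (.split false .skip .skip)) (.split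 false .skip .skip)) (.split false .skip .skip)) (.split false .skip .skip)) .skip) .skip) .skip) .skip) .skip) (.split false .skip .skip)) (.split false .skip .skip)) (.split false .skip .skip)) .skip) .skip) (.split false .skip .skip)) (.split false .skip .skip)) (.split false .skip .skip)) (.split false .skip .skip)) (.split false (.split true .skip .skip) (.split true .skip .skip))) (.split false .skip .skip)) (.split false .skip .skip)) (.split false .skip .skip)) (.split false .skip (.split true .skip .skip))) (.split false .skip .skip)) (.split false .skip .skip)) (.split false .skip (.split true .skip .skip))) (.split true (.split false .skip .skip) .skip)) (.split true (.split false .skip .skip) .skip)) (.split true (.split false .skip .skip) (.split false .skip .skip))) (.split true (.split false .skip .skip) (.split false .skip .skip))) (.split true (.split false .skip (.split true .skip .skip)) (.split false .skip .skip))) (.split true (.split false .skip .skip) (.split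 false .skip .skip))) (.split true (.split false .skip .skip) .skip)) (.split true (.split false .skip .skip) .skip)) (.split true .skip .skip))

/-- A part of the tree above the checked boxes. -/
noncomputable def shape36 : CTree :=
  (.split false (.split true (.split true (.split true (.split true (.split true (.split true (.split true (.split true (.split true (.split true (.split true shape33 (.split false (.split true .skip .skip) .skip)) (.split false (.split true (.split true .skip .skip) .skip) (.split true .skip .skip))) (.split false (.split true (.split true .skip .skip) (.split false .skip .skip)) (.split true (.split true .skip .skip) .skip))) (.split false (.split true (.split true .skip .skip) (.split false .skip .skip)) (.split true (.split true .skip .skip) .skip))) (.split false (.split true (.split true .skip .skip) (.split false .skip .skip)) (.split true (.split true .skip .skip) .skip))) (.split false (.split true (.split true .skip .skip) (.split false .skip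 .skip)) (.split true (.split true .skip .skip) (.split true .skip .skip)))) (.split false (.split true (.split true (.split false .skip .skip) .skip) (.split false .skip .skip)) (.split true (.split true .skip .skip) (.split true .skip .skip)))) (.split false (.split true (.split true .skip .skip) .skip) (.split true (.split true .skip .skip) .skip))) (.split true (.split false .skip .skip) .skip)) (.split true (.split false .skip .skip) .skip)) (.split true (.split false (.split true .skip .skip) .skip) (.split false .skip .skip))) (.split true (.split true (.split true (.split true (.split true (.split true (.split true (.split true (.split true (.split true (.split true (.split true (.split true (.split true (.split true (.split true shape35 (.split true (.split false .skip .skip) .skip)) (.split true (.split false .skip (.split true .skip .skip)) .skip)) (.split true (.split false .skip .skip) .skip)) (.split true .skip .skip)) (.split true (.split false .skip .skip) .skip)) (.split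 true (.split false .skip .skip) (.split false .skip .skip))) (.split true (.split false .skip (.split true .skip .skip)) (.split false .skip .skip))) (.split true (.split false .skip .skip) (.split false .skip .skip))) (.split true (.split false (.split true .skip .skip) (.split true .skip .skip)) (.split false .skip .skip))) (.split true (.split false (.split true .skip .skip) (.split true .skip .skip)) (.split false .skip (.split true .skip .skip)))) (.split true (.split false (.split true .skip .skip) .skip) (.split false (.split true .skip .skip) (.split true .skip .skip)))) (.split true (.split false (.split true .skip .skip) (.split true .skip .skip)) (.split false (.split true .skip .skip) (.split true .skip .skip)))) (.split true (.split false (.split true .skip .skip) (.split true .skip .skip)) (.split false .skip .skip))) (.split true (.split false .skip (.split true .skip .skip)) .skip)) (.split true (.split false .skip .skip) .skip)) (.split true .skip .skip)))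

/-- The tree above the checked boxes. -/
noncomputable def shape : CTree :=
  (.split false (.split true shape31 (.split false .skip (.split true (.split false .skip (.split true (.split false .skip .skip) .skip)) .skip))) (.split true shape36 (.split false (.split true (.split false (.split true .skip .skip) (.split true .skip (.split false .skip .skip))) (.split false (.split true (.split false .skip .skip) .skip) (.split true (.split false .skip .skip) .skip))) (.split false (.split true (.split true .skip .skip) .skip) .skip))))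

/-- Checked boxes. -/
noncomputable def checkedBoxes0 : List Bx :=
  [b0, b1, b2, b3, b4, b5, b6, b7, b8, b9, b10, b11, b12, b13, b14, b15, b16, b17, b18, b19, b20, b21, b22, b23, b24, b25, b26, b27, b28, b29, b30, b31, b32, b33, b34, b35, b36, b37, b38, b39]

theorem cert_boxes0 : ∀ x ∈ checkedBoxes0, Cert cfg x ids :=
  (List.forall_mem_cons.2 ⟨cert0, (List.forall_mem_cons.2 ⟨cert1, (List.forall_mem_cons.2 ⟨cert2, (List.forall_mem_cons.2 ⟨cert3, (List.forall_mem_cons.2 ⟨cert4, (List.forall_mem_cons.2 ⟨cert5, (List.forall_mem_cons.2 ⟨cert6, (List.forall_mem_cons.2 ⟨cert7, (List.forall_mem_cons.2 ⟨cert8, (List.forall_mem_cons.2 ⟨cert9, (List.forall_mem_cons.2 ⟨cert10, (List.forall_mem_cons.2 ⟨cert11, (List.forall_mem_cons.2 ⟨cert12, (List.forall_mem_cons.2 ⟨cert13, (List.forall_mem_cons.2 ⟨cert14, (List.forall_mem_cons.2 ⟨cert15, (List.forall_mem_cons.2 ⟨cert16, (List.forall_mem_cons.2 ⟨cert17, (List.forall_mem_cons.2 ⟨cert18, (List.forall_mem_cons.2 ⟨cert19, (List.forall_mem_cons.2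 ⟨cert20, (List.forall_mem_cons.2 ⟨cert21, (List.forall_mem_cons.2 ⟨cert22, (List.forall_mem_cons.2 ⟨cert23, (List.forall_mem_cons.2 ⟨cert24, (List.forall_mem_cons.2 ⟨cert25, (List.forall_mem_cons.2 ⟨cert26, (List.forall_mem_cons.2 ⟨cert27, (List.forall_mem_cons.2 ⟨cert28, (List.forall_mem_cons.2 ⟨cert29, (List.forall_mem_cons.2 ⟨cert30, (List.forall_mem_cons.2 ⟨cert31, (List.forall_mem_cons.2 ⟨cert32, (List.forall_mem_cons.2 ⟨cert33, (List.forall_mem_cons.2 ⟨cert34, (List.forall_mem_cons.2 ⟨cert35, (List.forall_mem_cons.2 ⟨cert36, (List.forall_mem_cons.2 ⟨cert37, (List.forall_mem_cons.2 ⟨cert38, (List.forall_mem_cons.2 ⟨cert39, (fun _ h => absurd h List.not_mem_nil)⟩)⟩)⟩)⟩)⟩)⟩)⟩)⟩)⟩)⟩)⟩)⟩)⟩)⟩)⟩)⟩)⟩)⟩)⟩)⟩)⟩)⟩)⟩)⟩)⟩)⟩)⟩)⟩)⟩)⟩)⟩)⟩)⟩)⟩)⟩)⟩)⟩)⟩)⟩)⟩)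

/-- Checked boxes. -/
noncomputable def checkedBoxes1 : List Bx :=
  [b40, b41, b42, b43, b44, b45, b46, b47, b48, b49, b50, b51, b52, b53, b54, b55, b56, b57, b58, b59, b60, b61, b62, b63, b64, b65, b66, b67, b68, b69, b70, b71, b72, b73, b74, b75, b76, b77, b78, b79]

theorem cert_boxes1 : ∀ x ∈ checkedBoxes1, Cert cfg x ids :=
  (List.forall_mem_cons.2 ⟨cert40, (List.forall_mem_cons.2 ⟨cert41, (List.forall_mem_cons.2 ⟨cert42, (List.forall_mem_cons.2 ⟨cert43, (List.forall_mem_cons.2 ⟨cert44, (List.forall_mem_cons.2 ⟨cert45, (List.forall_mem_cons.2 ⟨cert46, (List.forall_mem_cons.2 ⟨cert47, (List.forall_mem_cons.2 ⟨cert48, (List.forall_mem_cons.2 ⟨cert49, (List.forall_mem_cons.2 ⟨cert50, (List.forall_mem_cons.2 ⟨cert51, (List.forall_mem_cons.2 ⟨cert52, (List.forall_mem_cons.2 ⟨cert53, (List.forall_mem_cons.2 ⟨cert54, (List.forall_mem_cons.2 ⟨cert55, (List.forall_mem_cons.2 ⟨cert56, (List.forall_mem_cons.2 ⟨cert57, (List.forall_mem_cons.2 ⟨cert58, (List.forall_mem_cons.2 ⟨cert59,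 (List.forall_mem_cons.2 ⟨cert60, (List.forall_mem_cons.2 ⟨cert61, (List.forall_mem_cons.2 ⟨cert62, (List.forall_mem_cons.2 ⟨cert63, (List.forall_mem_cons.2 ⟨cert64, (List.forall_mem_cons.2 ⟨cert65, (List.forall_mem_cons.2 ⟨cert66, (List.forall_mem_cons.2 ⟨cert67, (List.forall_mem_cons.2 ⟨cert68, (List.forall_mem_cons.2 ⟨cert69, (List.forall_mem_cons.2 ⟨cert70, (List.forall_mem_cons.2 ⟨cert71, (List.forall_mem_cons.2 ⟨cert72, (List.forall_mem_cons.2 ⟨cert73, (List.forall_mem_cons.2 ⟨cert74, (List.forall_mem_cons.2 ⟨cert75, (List.forall_mem_cons.2 ⟨cert76, (List.forall_mem_cons.2 ⟨cert77, (List.forall_mem_cons.2 ⟨cert78, (List.forall_mem_cons.2 ⟨cert79, (fun _ h => absurd h List.not_mem_nil)⟩)⟩)⟩)⟩)⟩)⟩)⟩)⟩)⟩)⟩)⟩)⟩)⟩)⟩)⟩)⟩)⟩)⟩)⟩)⟩)⟩)⟩)⟩)⟩)⟩)⟩)⟩)⟩)⟩)⟩)⟩)⟩)⟩)⟩)⟩)⟩)⟩)⟩)⟩)⟩)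

/-- Checked boxes. -/
noncomputable def checkedBoxes2 : List Bx :=
  [b80, b81, b82, b83, b84, b85, b86, b87, b88, b89, b90, b91, b92, b93, b94, b95, b96, b97, b98, b99, b100, b101, b102, b103, b104, b105, b106, b107, b108, b109, b110, b111, b112, b113, b114, b115, b116, b117, b118, b119]

theorem cert_boxes2 : ∀ x ∈ checkedBoxes2, Cert cfg x ids :=
  (List.forall_mem_cons.2 ⟨cert80, (List.forall_mem_cons.2 ⟨cert81, (List.forall_mem_cons.2 ⟨cert82, (List.forall_mem_cons.2 ⟨cert83, (List.forall_mem_cons.2 ⟨cert84, (List.forall_mem_cons.2 ⟨cert85, (List.forall_mem_cons.2 ⟨cert86, (List.forall_mem_cons.2 ⟨cert87, (List.forall_mem_cons.2 ⟨cert88, (List.forall_mem_cons.2 ⟨cert89, (List.forall_mem_cons.2 ⟨cert90, (List.forall_mem_cons.2 ⟨cert91, (List.forall_mem_cons.2 ⟨cert92, (List.forall_mem_cons.2 ⟨cert93, (List.forall_mem_cons.2 ⟨cert94, (List.forall_mem_cons.2 ⟨cert95, (List.forall_mem_cons.2 ⟨cert96, (List.forall_mem_cons.2 ⟨cert97, (List.forall_mem_cons.2 ⟨cert98, (List.forall_mem_cons.2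 ⟨cert99, (List.forall_mem_cons.2 ⟨cert100, (List.forall_mem_cons.2 ⟨cert101, (List.forall_mem_cons.2 ⟨cert102, (List.forall_mem_cons.2 ⟨cert103, (List.forall_mem_cons.2 ⟨cert104, (List.forall_mem_cons.2 ⟨cert105, (List.forall_mem_cons.2 ⟨cert106, (List.forall_mem_cons.2 ⟨cert107, (List.forall_mem_cons.2 ⟨cert108, (List.forall_mem_cons.2 ⟨cert109, (List.forall_mem_cons.2 ⟨cert110, (List.forall_mem_cons.2 ⟨cert111, (List.forall_mem_cons.2 ⟨cert112, (List.forall_mem_cons.2 ⟨cert113, (List.forall_mem_cons.2 ⟨cert114, (List.forall_mem_cons.2 ⟨cert115, (List.forall_mem_cons.2 ⟨cert116, (List.forall_mem_cons.2 ⟨cert117, (List.forall_mem_cons.2 ⟨cert118, (List.forall_mem_cons.2 ⟨cert119, (fun _ h => absurd h List.not_mem_nil)⟩)⟩)⟩)⟩)⟩)⟩)⟩)⟩)⟩)⟩)⟩)⟩)⟩)⟩)⟩)⟩)⟩)⟩)⟩)⟩)⟩)⟩)⟩)⟩)⟩)⟩)⟩)⟩)⟩)⟩)⟩)⟩)⟩)⟩)⟩)⟩)⟩)⟩)⟩)⟩)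

/-- Checked boxes. -/
noncomputable def checkedBoxes3 : List Bx :=
  [b120, b121, b122, b123, b124, b125, b126, b127, b128, b129, b130, b131, b132, b133, b134, b135, b136, b137, b138, b139, b140, b141, b142, b143, b144, b145, b146, b147, b148, b149, b150, b151, b152, b153, b154, b155, b156, b157, b158, b159]

theorem cert_boxes3 : ∀ x ∈ checkedBoxes3, Cert cfg x ids :=
  (List.forall_mem_cons.2 ⟨cert120, (List.forall_mem_cons.2 ⟨cert121, (List.forall_mem_cons.2 ⟨cert122, (List.forall_mem_cons.2 ⟨cert123, (List.forall_mem_cons.2 ⟨cert124, (List.forall_mem_cons.2 ⟨cert125, (List.forall_mem_cons.2 ⟨cert126, (List.forall_mem_cons.2 ⟨cert127, (List.forall_mem_cons.2 ⟨cert128, (List.forall_mem_cons.2 ⟨cert129, (List.forall_mem_cons.2 ⟨cert130, (List.forall_mem_cons.2 ⟨cert131, (List.forall_mem_cons.2 ⟨cert132, (List.forall_mem_cons.2 ⟨cert133, (List.forall_mem_cons.2 ⟨cert134, (List.forall_mem_cons.2 ⟨cert135, (List.forall_mem_cons.2 ⟨cert136, (List.forall_mem_cons.2 ⟨cert137, (List.forall_mem_cons.2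 ⟨cert138, (List.forall_mem_cons.2 ⟨cert139, (List.forall_mem_cons.2 ⟨cert140, (List.forall_mem_cons.2 ⟨cert141, (List.forall_mem_cons.2 ⟨cert142, (List.forall_mem_cons.2 ⟨cert143, (List.forall_mem_cons.2 ⟨cert144, (List.forall_mem_cons.2 ⟨cert145, (List.forall_mem_cons.2 ⟨cert146, (List.forall_mem_cons.2 ⟨cert147, (List.forall_mem_cons.2 ⟨cert148, (List.forall_mem_cons.2 ⟨cert149, (List.forall_mem_cons.2 ⟨cert150, (List.forall_mem_cons.2 ⟨cert151, (List.forall_mem_cons.2 ⟨cert152, (List.forall_mem_cons.2 ⟨cert153, (List.forall_mem_cons.2 ⟨cert154, (List.forall_mem_cons.2 ⟨cert155, (List.forall_mem_cons.2 ⟨cert156, (List.forall_mem_cons.2 ⟨cert157, (List.forall_mem_cons.2 ⟨cert158, (List.forall_mem_cons.2 ⟨cert159, (fun _ h => absurd h List.not_mem_nil)⟩)⟩)⟩)⟩)⟩)⟩)⟩)⟩)⟩)⟩)⟩)⟩)⟩)⟩)⟩)⟩)⟩)⟩)⟩)⟩)⟩)⟩)⟩)⟩)⟩)⟩)⟩)⟩)⟩)⟩)⟩)⟩)⟩)⟩)⟩)⟩)⟩)⟩)⟩)⟩)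

/-- Checked boxes. -/
noncomputable def checkedBoxes4 : List Bx :=
  [b160, b161, b162, b163, b164, b165, b166, b167, b168, b169, b170, b171, b172, b173, b174, b175, b176, b177, b178, b179, b180, b181, b182, b183, b184, b185, b186, b187, b188, b189, b190, b191, b192, b193, b194, b195, b196, b197, b198, b199]

theorem cert_boxes4 : ∀ x ∈ checkedBoxes4, Cert cfg x ids :=
  (List.forall_mem_cons.2 ⟨cert160, (List.forall_mem_cons.2 ⟨cert161, (List.forall_mem_cons.2 ⟨cert162, (List.forall_mem_cons.2 ⟨cert163, (List.forall_mem_cons.2 ⟨cert164, (List.forall_mem_cons.2 ⟨cert165, (List.forall_mem_cons.2 ⟨cert166, (List.forall_mem_cons.2 ⟨cert167, (List.forall_mem_cons.2 ⟨cert168, (List.forall_mem_cons.2 ⟨cert169, (List.forall_mem_cons.2 ⟨cert170, (List.forall_mem_cons.2 ⟨cert171, (List.forall_mem_cons.2 ⟨cert172, (List.forall_mem_cons.2 ⟨cert173, (List.forall_mem_cons.2 ⟨cert174, (List.forall_mem_cons.2 ⟨cert175, (List.forall_mem_cons.2 ⟨cert176, (List.forall_mem_cons.2 ⟨cert177, (List.forall_mem_cons.2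 ⟨cert178, (List.forall_mem_cons.2 ⟨cert179, (List.forall_mem_cons.2 ⟨cert180, (List.forall_mem_cons.2 ⟨cert181, (List.forall_mem_cons.2 ⟨cert182, (List.forall_mem_cons.2 ⟨cert183, (List.forall_mem_cons.2 ⟨cert184, (List.forall_mem_cons.2 ⟨cert185, (List.forall_mem_cons.2 ⟨cert186, (List.forall_mem_cons.2 ⟨cert187, (List.forall_mem_cons.2 ⟨cert188, (List.forall_mem_cons.2 ⟨cert189, (List.forall_mem_cons.2 ⟨cert190, (List.forall_mem_cons.2 ⟨cert191, (List.forall_mem_cons.2 ⟨cert192, (List.forall_mem_cons.2 ⟨cert193, (List.forall_mem_cons.2 ⟨cert194, (List.forall_mem_cons.2 ⟨cert195, (List.forall_mem_cons.2 ⟨cert196, (List.forall_mem_cons.2 ⟨cert197, (List.forall_mem_cons.2 ⟨cert198, (List.forall_mem_cons.2 ⟨cert199, (fun _ h => absurd h List.not_mem_nil)⟩)⟩)⟩)⟩)⟩)⟩)⟩)⟩)⟩)⟩)⟩)⟩)⟩)⟩)⟩)⟩)⟩)⟩)⟩)⟩)⟩)⟩)⟩)⟩)⟩)⟩)⟩)⟩)⟩)⟩)⟩)⟩)⟩)⟩)⟩)⟩)⟩)⟩)⟩)⟩)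

/-- Checked boxes. -/
noncomputable def checkedBoxes5 : List Bx :=
  [b200, b201, b202, b203, b204, b205, b206, b207, b208, b209, b210, b211, b212, b213, b214, b215, b216, b217, b218, b219, b220, b221, b222, b223, b224, b225, b226, b227, b228, b229, b230, b231, b232, b233, b234, b235, b236, b237, b238, b239]

theorem cert_boxes5 : ∀ x ∈ checkedBoxes5, Cert cfg x ids :=
  (List.forall_mem_cons.2 ⟨cert200, (List.forall_mem_cons.2 ⟨cert201, (List.forall_mem_cons.2 ⟨cert202, (List.forall_mem_cons.2 ⟨cert203, (List.forall_mem_cons.2 ⟨cert204, (List.forall_mem_cons.2 ⟨cert205, (List.forall_mem_cons.2 ⟨cert206, (List.forall_mem_cons.2 ⟨cert207, (List.forall_mem_cons.2 ⟨cert208, (List.forall_mem_cons.2 ⟨cert209, (List.forall_mem_cons.2 ⟨cert210, (List.forall_mem_cons.2 ⟨cert211, (List.forall_mem_cons.2 ⟨cert212, (List.forall_mem_cons.2 ⟨cert213, (List.forall_mem_cons.2 ⟨cert214, (List.forall_mem_cons.2 ⟨cert215, (List.forall_mem_cons.2 ⟨cert216, (List.forall_mem_cons.2 ⟨cert217, (List.forall_mem_cons.2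 ⟨cert218, (List.forall_mem_cons.2 ⟨cert219, (List.forall_mem_cons.2 ⟨cert220, (List.forall_mem_cons.2 ⟨cert221, (List.forall_mem_cons.2 ⟨cert222, (List.forall_mem_cons.2 ⟨cert223, (List.forall_mem_cons.2 ⟨cert224, (List.forall_mem_cons.2 ⟨cert225, (List.forall_mem_cons.2 ⟨cert226, (List.forall_mem_cons.2 ⟨cert227, (List.forall_mem_cons.2 ⟨cert228, (List.forall_mem_cons.2 ⟨cert229, (List.forall_mem_cons.2 ⟨cert230, (List.forall_mem_cons.2 ⟨cert231, (List.forall_mem_cons.2 ⟨cert232, (List.forall_mem_cons.2 ⟨cert233, (List.forall_mem_cons.2 ⟨cert234, (List.forall_mem_cons.2 ⟨cert235, (List.forall_mem_cons.2 ⟨cert236, (List.forall_mem_cons.2 ⟨cert237, (List.forall_mem_cons.2 ⟨cert238, (List.forall_mem_cons.2 ⟨cert239, (fun _ h => absurd h List.not_mem_nil)⟩)⟩)⟩)⟩)⟩)⟩)⟩)⟩)⟩)⟩)⟩)⟩)⟩)⟩)⟩)⟩)⟩)⟩)⟩)⟩)⟩)⟩)⟩)⟩)⟩)⟩)⟩)⟩)⟩)⟩)⟩)⟩)⟩)⟩)⟩)⟩)⟩)⟩)⟩)⟩)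

/-- Checked boxes. -/
noncomputable def checkedBoxes6 : List Bx :=
  [b240, b241, b242, b243, b244, b245, b246, b247, b248, b249, b250, b251, b252, b253, b254, b255, b256, b257, b258, b259, b260, b261, b262, b263, b264, b265, b266, b267, b268, b269, b270, b271, b272, b273, b274, b275, b276, b277, b278, b279]

theorem cert_boxes6 : ∀ x ∈ checkedBoxes6, Cert cfg x ids :=
  (List.forall_mem_cons.2 ⟨cert240, (List.forall_mem_cons.2 ⟨cert241, (List.forall_mem_cons.2 ⟨cert242, (List.forall_mem_cons.2 ⟨cert243, (List.forall_mem_cons.2 ⟨cert244, (List.forall_mem_cons.2 ⟨cert245, (List.forall_mem_cons.2 ⟨cert246, (List.forall_mem_cons.2 ⟨cert247, (List.forall_mem_cons.2 ⟨cert248, (List.forall_mem_cons.2 ⟨cert249, (List.forall_mem_cons.2 ⟨cert250, (List.forall_mem_cons.2 ⟨cert251, (List.forall_mem_cons.2 ⟨cert252, (List.forall_mem_cons.2 ⟨cert253, (List.forall_mem_cons.2 ⟨cert254, (List.forall_mem_cons.2 ⟨cert255, (List.forall_mem_cons.2 ⟨cert256, (List.forall_mem_cons.2 ⟨cert257, (List.forall_mem_cons.2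 ⟨cert258, (List.forall_mem_cons.2 ⟨cert259, (List.forall_mem_cons.2 ⟨cert260, (List.forall_mem_cons.2 ⟨cert261, (List.forall_mem_cons.2 ⟨cert262, (List.forall_mem_cons.2 ⟨cert263, (List.forall_mem_cons.2 ⟨cert264, (List.forall_mem_cons.2 ⟨cert265, (List.forall_mem_cons.2 ⟨cert266, (List.forall_mem_cons.2 ⟨cert267, (List.forall_mem_cons.2 ⟨cert268, (List.forall_mem_cons.2 ⟨cert269, (List.forall_mem_cons.2 ⟨cert270, (List.forall_mem_cons.2 ⟨cert271, (List.forall_mem_cons.2 ⟨cert272, (List.forall_mem_cons.2 ⟨cert273, (List.forall_mem_cons.2 ⟨cert274, (List.forall_mem_cons.2 ⟨cert275, (List.forall_mem_cons.2 ⟨cert276, (List.forall_mem_cons.2 ⟨cert277, (List.forall_mem_cons.2 ⟨cert278, (List.forall_mem_cons.2 ⟨cert279, (fun _ h => absurd h List.not_mem_nil)⟩)⟩)⟩)⟩)⟩)⟩)⟩)⟩)⟩)⟩)⟩)⟩)⟩)⟩)⟩)⟩)⟩)⟩)⟩)⟩)⟩)⟩)⟩)⟩)⟩)⟩)⟩)⟩)⟩)⟩)⟩)⟩)⟩)⟩)⟩)⟩)⟩)⟩)⟩)⟩)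

/-- Checked boxes. -/
noncomputable def checkedBoxes7 : List Bx :=
  [b280, b281, b282, b283, b284, b285, b286, b287, b288, b289, b290, b291, b292, b293, b294, b295, b296, b297, b298, b299, b300, b301, b302, b303, b304, b305, b306, b307, b308, b309, b310, b311, b312, b313, b314, b315, b316, b317, b318, b319]

theorem cert_boxes7 : ∀ x ∈ checkedBoxes7, Cert cfg x ids :=
  (List.forall_mem_cons.2 ⟨cert280, (List.forall_mem_cons.2 ⟨cert281, (List.forall_mem_cons.2 ⟨cert282, (List.forall_mem_cons.2 ⟨cert283, (List.forall_mem_cons.2 ⟨cert284, (List.forall_mem_cons.2 ⟨cert285, (List.forall_mem_cons.2 ⟨cert286, (List.forall_mem_cons.2 ⟨cert287, (List.forall_mem_cons.2 ⟨cert288, (List.forall_mem_cons.2 ⟨cert289, (List.forall_mem_cons.2 ⟨cert290, (List.forall_mem_cons.2 ⟨cert291, (List.forall_mem_cons.2 ⟨cert292, (List.forall_mem_cons.2 ⟨cert293, (List.forall_mem_cons.2 ⟨cert294, (List.forall_mem_cons.2 ⟨cert295, (List.forall_mem_cons.2 ⟨cert296, (List.forall_mem_cons.2 ⟨cert297, (List.forall_mem_cons.2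 ⟨cert298, (List.forall_mem_cons.2 ⟨cert299, (List.forall_mem_cons.2 ⟨cert300, (List.forall_mem_cons.2 ⟨cert301, (List.forall_mem_cons.2 ⟨cert302, (List.forall_mem_cons.2 ⟨cert303, (List.forall_mem_cons.2 ⟨cert304, (List.forall_mem_cons.2 ⟨cert305, (List.forall_mem_cons.2 ⟨cert306, (List.forall_mem_cons.2 ⟨cert307, (List.forall_mem_cons.2 ⟨cert308, (List.forall_mem_cons.2 ⟨cert309, (List.forall_mem_cons.2 ⟨cert310, (List.forall_mem_cons.2 ⟨cert311, (List.forall_mem_cons.2 ⟨cert312, (List.forall_mem_cons.2 ⟨cert313, (List.forall_mem_cons.2 ⟨cert314, (List.forall_mem_cons.2 ⟨cert315, (List.forall_mem_cons.2 ⟨cert316, (List.forall_mem_cons.2 ⟨cert317, (List.forall_mem_cons.2 ⟨cert318, (List.forall_mem_cons.2 ⟨cert319, (fun _ h => absurd h List.not_mem_nil)⟩)⟩)⟩)⟩)⟩)⟩)⟩)⟩)⟩)⟩)⟩)⟩)⟩)⟩)⟩)⟩)⟩)⟩)⟩)⟩)⟩)⟩)⟩)⟩)⟩)⟩)⟩)⟩)⟩)⟩)⟩)⟩)⟩)⟩)⟩)⟩)⟩)⟩)⟩)⟩)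

/-- Checked boxes. -/
noncomputable def checkedBoxes8 : List Bx :=
  [b320, b321, b322, b323, b324, b325, b326, b327, b328, b329, b330, b331, b332, b333, b334, b335, b336, b337, b338, b339, b340, b341, b342, b343, b344, b345, b346, b347, b348, b349, b350, b351, b352, b353, b354, b355, b356, b357, b358, b359]

theorem cert_boxes8 : ∀ x ∈ checkedBoxes8, Cert cfg x ids :=
  (List.forall_mem_cons.2 ⟨cert320, (List.forall_mem_cons.2 ⟨cert321, (List.forall_mem_cons.2 ⟨cert322, (List.forall_mem_cons.2 ⟨cert323, (List.forall_mem_cons.2 ⟨cert324, (List.forall_mem_cons.2 ⟨cert325, (List.forall_mem_cons.2 ⟨cert326, (List.forall_mem_cons.2 ⟨cert327, (List.forall_mem_cons.2 ⟨cert328, (List.forall_mem_cons.2 ⟨cert329, (List.forall_mem_cons.2 ⟨cert330, (List.forall_mem_cons.2 ⟨cert331, (List.forall_mem_cons.2 ⟨cert332, (List.forall_mem_cons.2 ⟨cert333, (List.forall_mem_cons.2 ⟨cert334, (List.forall_mem_cons.2 ⟨cert335, (List.forall_mem_cons.2 ⟨cert336, (List.forall_mem_cons.2 ⟨cert337, (List.forall_mem_cons.2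 ⟨cert338, (List.forall_mem_cons.2 ⟨cert339, (List.forall_mem_cons.2 ⟨cert340, (List.forall_mem_cons.2 ⟨cert341, (List.forall_mem_cons.2 ⟨cert342, (List.forall_mem_cons.2 ⟨cert343, (List.forall_mem_cons.2 ⟨cert344, (List.forall_mem_cons.2 ⟨cert345, (List.forall_mem_cons.2 ⟨cert346, (List.forall_mem_cons.2 ⟨cert347, (List.forall_mem_cons.2 ⟨cert348, (List.forall_mem_cons.2 ⟨cert349, (List.forall_mem_cons.2 ⟨cert350, (List.forall_mem_cons.2 ⟨cert351, (List.forall_mem_cons.2 ⟨cert352, (List.forall_mem_cons.2 ⟨cert353, (List.forall_mem_cons.2 ⟨cert354, (List.forall_mem_cons.2 ⟨cert355, (List.forall_mem_cons.2 ⟨cert356, (List.forall_mem_cons.2 ⟨cert357, (List.forall_mem_cons.2 ⟨cert358, (List.forall_mem_cons.2 ⟨cert359, (fun _ h => absurd h List.not_mem_nil)⟩)⟩)⟩)⟩)⟩)⟩)⟩)⟩)⟩)⟩)⟩)⟩)⟩)⟩)⟩)⟩)⟩)⟩)⟩)⟩)⟩)⟩)⟩)⟩)⟩)⟩)⟩)⟩)⟩)⟩)⟩)⟩)⟩)⟩)⟩)⟩)⟩)⟩)⟩)⟩)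

/-- Checked boxes. -/
noncomputable def checkedBoxes9 : List Bx :=
  [b360, b361, b362, b363, b364, b365, b366, b367, b368, b369, b370, b371, b372, b373, b374, b375, b376, b377, b378, b379, b380, b381, b382, b383, b384, b385, b386, b387, b388, b389, b390, b391, b392, b393, b394, b395, b396, b397, b398, b399]

theorem cert_boxes9 : ∀ x ∈ checkedBoxes9, Cert cfg x ids :=
  (List.forall_mem_cons.2 ⟨cert360, (List.forall_mem_cons.2 ⟨cert361, (List.forall_mem_cons.2 ⟨cert362, (List.forall_mem_cons.2 ⟨cert363, (List.forall_mem_cons.2 ⟨cert364, (List.forall_mem_cons.2 ⟨cert365, (List.forall_mem_cons.2 ⟨cert366, (List.forall_mem_cons.2 ⟨cert367, (List.forall_mem_cons.2 ⟨cert368, (List.forall_mem_cons.2 ⟨cert369, (List.forall_mem_cons.2 ⟨cert370, (List.forall_mem_cons.2 ⟨cert371, (List.forall_mem_cons.2 ⟨cert372, (List.forall_mem_cons.2 ⟨cert373, (List.forall_mem_cons.2 ⟨cert374, (List.forall_mem_cons.2 ⟨cert375, (List.forall_mem_cons.2 ⟨cert376, (List.forall_mem_cons.2 ⟨cert377, (List.forall_mem_cons.2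 ⟨cert378, (List.forall_mem_cons.2 ⟨cert379, (List.forall_mem_cons.2 ⟨cert380, (List.forall_mem_cons.2 ⟨cert381, (List.forall_mem_cons.2 ⟨cert382, (List.forall_mem_cons.2 ⟨cert383, (List.forall_mem_cons.2 ⟨cert384, (List.forall_mem_cons.2 ⟨cert385, (List.forall_mem_cons.2 ⟨cert386, (List.forall_mem_cons.2 ⟨cert387, (List.forall_mem_cons.2 ⟨cert388, (List.forall_mem_cons.2 ⟨cert389, (List.forall_mem_cons.2 ⟨cert390, (List.forall_mem_cons.2 ⟨cert391, (List.forall_mem_cons.2 ⟨cert392, (List.forall_mem_cons.2 ⟨cert393, (List.forall_mem_cons.2 ⟨cert394, (List.forall_mem_cons.2 ⟨cert395, (List.forall_mem_cons.2 ⟨cert396, (List.forall_mem_cons.2 ⟨cert397, (List.forall_mem_cons.2 ⟨cert398, (List.forall_mem_cons.2 ⟨cert399, (fun _ h => absurd h List.not_mem_nil)⟩)⟩)⟩)⟩)⟩)⟩)⟩)⟩)⟩)⟩)⟩)⟩)⟩)⟩)⟩)⟩)⟩)⟩)⟩)⟩)⟩)⟩)⟩)⟩)⟩)⟩)⟩)⟩)⟩)⟩)⟩)⟩)⟩)⟩)⟩)⟩)⟩)⟩)⟩)⟩)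

/-- Checked boxes. -/
noncomputable def checkedBoxes10 : List Bx :=
  [b400, b401, b402, b403, b404, b405, b406, b407, b408, b409, b410, b411, b412, b413, b414, b415, b416, b417, b418, b419, b420, b421, b422, b423, b424, b425, b426, b427, b428, b429, b430, b431, b432, b433, b434, b435, b436, b437, b438, b439]

theorem cert_boxes10 : ∀ x ∈ checkedBoxes10, Cert cfg x ids :=
  (List.forall_mem_cons.2 ⟨cert400, (List.forall_mem_cons.2 ⟨cert401, (List.forall_mem_cons.2 ⟨cert402, (List.forall_mem_cons.2 ⟨cert403, (List.forall_mem_cons.2 ⟨cert404, (List.forall_mem_cons.2 ⟨cert405, (List.forall_mem_cons.2 ⟨cert406, (List.forall_mem_cons.2 ⟨cert407, (List.forall_mem_cons.2 ⟨cert408, (List.forall_mem_cons.2 ⟨cert409, (List.forall_mem_cons.2 ⟨cert410, (List.forall_mem_cons.2 ⟨cert411, (List.forall_mem_cons.2 ⟨cert412, (List.forall_mem_cons.2 ⟨cert413, (List.forall_mem_cons.2 ⟨cert414, (List.forall_mem_cons.2 ⟨cert415, (List.forall_mem_cons.2 ⟨cert416, (List.forall_mem_cons.2 ⟨cert417, (List.forall_mem_cons.2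 ⟨cert418, (List.forall_mem_cons.2 ⟨cert419, (List.forall_mem_cons.2 ⟨cert420, (List.forall_mem_cons.2 ⟨cert421, (List.forall_mem_cons.2 ⟨cert422, (List.forall_mem_cons.2 ⟨cert423, (List.forall_mem_cons.2 ⟨cert424, (List.forall_mem_cons.2 ⟨cert425, (List.forall_mem_cons.2 ⟨cert426, (List.forall_mem_cons.2 ⟨cert427, (List.forall_mem_cons.2 ⟨cert428, (List.forall_mem_cons.2 ⟨cert429, (List.forall_mem_cons.2 ⟨cert430, (List.forall_mem_cons.2 ⟨cert431, (List.forall_mem_cons.2 ⟨cert432, (List.forall_mem_cons.2 ⟨cert433, (List.forall_mem_cons.2 ⟨cert434, (List.forall_mem_cons.2 ⟨cert435, (List.forall_mem_cons.2 ⟨cert436, (List.forall_mem_cons.2 ⟨cert437, (List.forall_mem_cons.2 ⟨cert438, (List.forall_mem_cons.2 ⟨cert439, (fun _ h => absurd h List.not_mem_nil)⟩)⟩)⟩)⟩)⟩)⟩)⟩)⟩)⟩)⟩)⟩)⟩)⟩)⟩)⟩)⟩)⟩)⟩)⟩)⟩)⟩)⟩)⟩)⟩)⟩)⟩)⟩)⟩)⟩)⟩)⟩)⟩)⟩)⟩)⟩)⟩)⟩)⟩)⟩)⟩)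

/-- Checked boxes. -/
noncomputable def checkedBoxes11 : List Bx :=
  [b440, b441, b442, b443, b444, b445, b446, b447, b448, b449, b450, b451, b452, b453, b454, b455, b456, b457, b458, b459, b460, b461, b462, b463, b464, b465, b466, b467, b468, b469, b470, b471, b472, b473, b474, b475, b476, b477, b478, b479]

theorem cert_boxes11 : ∀ x ∈ checkedBoxes11, Cert cfg x ids :=
  (List.forall_mem_cons.2 ⟨cert440, (List.forall_mem_cons.2 ⟨cert441, (List.forall_mem_cons.2 ⟨cert442, (List.forall_mem_cons.2 ⟨cert443, (List.forall_mem_cons.2 ⟨cert444, (List.forall_mem_cons.2 ⟨cert445, (List.forall_mem_cons.2 ⟨cert446, (List.forall_mem_cons.2 ⟨cert447, (List.forall_mem_cons.2 ⟨cert448, (List.forall_mem_cons.2 ⟨cert449, (List.forall_mem_cons.2 ⟨cert450, (List.forall_mem_cons.2 ⟨cert451, (List.forall_mem_cons.2 ⟨cert452, (List.forall_mem_cons.2 ⟨cert453, (List.forall_mem_cons.2 ⟨cert454, (List.forall_mem_cons.2 ⟨cert455, (List.forall_mem_cons.2 ⟨cert456, (List.forall_mem_cons.2 ⟨cert457, (List.forall_mem_cons.2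 ⟨cert458, (List.forall_mem_cons.2 ⟨cert459, (List.forall_mem_cons.2 ⟨cert460, (List.forall_mem_cons.2 ⟨cert461, (List.forall_mem_cons.2 ⟨cert462, (List.forall_mem_cons.2 ⟨cert463, (List.forall_mem_cons.2 ⟨cert464, (List.forall_mem_cons.2 ⟨cert465, (List.forall_mem_cons.2 ⟨cert466, (List.forall_mem_cons.2 ⟨cert467, (List.forall_mem_cons.2 ⟨cert468, (List.forall_mem_cons.2 ⟨cert469, (List.forall_mem_cons.2 ⟨cert470, (List.forall_mem_cons.2 ⟨cert471, (List.forall_mem_cons.2 ⟨cert472, (List.forall_mem_cons.2 ⟨cert473, (List.forall_mem_cons.2 ⟨cert474, (List.forall_mem_cons.2 ⟨cert475, (List.forall_mem_cons.2 ⟨cert476, (List.forall_mem_cons.2 ⟨cert477, (List.forall_mem_cons.2 ⟨cert478, (List.forall_mem_cons.2 ⟨cert479, (fun _ h => absurd h List.not_mem_nil)⟩)⟩)⟩)⟩)⟩)⟩)⟩)⟩)⟩)⟩)⟩)⟩)⟩)⟩)⟩)⟩)⟩)⟩)⟩)⟩)⟩)⟩)⟩)⟩)⟩)⟩)⟩)⟩)⟩)⟩)⟩)⟩)⟩)⟩)⟩)⟩)⟩)⟩)⟩)⟩)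

/-- Checked boxes. -/
noncomputable def checkedBoxes12 : List Bx :=
  [b480, b481, b482, b483, b484, b485, b486, b487, b488, b489, b490, b491, b492, b493, b494, b495, b496, b497, b498, b499, b500, b501, b502, b503, b504, b505, b506, b507, b508, b509, b510, b511, b512, b513, b514, b515, b516, b517, b518, b519]

theorem cert_boxes12 : ∀ x ∈ checkedBoxes12, Cert cfg x ids :=
  (List.forall_mem_cons.2 ⟨cert480, (List.forall_mem_cons.2 ⟨cert481, (List.forall_mem_cons.2 ⟨cert482, (List.forall_mem_cons.2 ⟨cert483, (List.forall_mem_cons.2 ⟨cert484, (List.forall_mem_cons.2 ⟨cert485, (List.forall_mem_cons.2 ⟨cert486, (List.forall_mem_cons.2 ⟨cert487, (List.forall_mem_cons.2 ⟨cert488, (List.forall_mem_cons.2 ⟨cert489, (List.forall_mem_cons.2 ⟨cert490, (List.forall_mem_cons.2 ⟨cert491, (List.forall_mem_cons.2 ⟨cert492, (List.forall_mem_cons.2 ⟨cert493, (List.forall_mem_cons.2 ⟨cert494, (List.forall_mem_cons.2 ⟨cert495, (List.forall_mem_cons.2 ⟨cert496, (List.forall_mem_cons.2 ⟨cert497, (List.forall_mem_cons.2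 ⟨cert498, (List.forall_mem_cons.2 ⟨cert499, (List.forall_mem_cons.2 ⟨cert500, (List.forall_mem_cons.2 ⟨cert501, (List.forall_mem_cons.2 ⟨cert502, (List.forall_mem_cons.2 ⟨cert503, (List.forall_mem_cons.2 ⟨cert504, (List.forall_mem_cons.2 ⟨cert505, (List.forall_mem_cons.2 ⟨cert506, (List.forall_mem_cons.2 ⟨cert507, (List.forall_mem_cons.2 ⟨cert508, (List.forall_mem_cons.2 ⟨cert509, (List.forall_mem_cons.2 ⟨cert510, (List.forall_mem_cons.2 ⟨cert511, (List.forall_mem_cons.2 ⟨cert512, (List.forall_mem_cons.2 ⟨cert513, (List.forall_mem_cons.2 ⟨cert514, (List.forall_mem_cons.2 ⟨cert515, (List.forall_mem_cons.2 ⟨cert516, (List.forall_mem_cons.2 ⟨cert517, (List.forall_mem_cons.2 ⟨cert518, (List.forall_mem_cons.2 ⟨cert519, (fun _ h => absurd h List.not_mem_nil)⟩)⟩)⟩)⟩)⟩)⟩)⟩)⟩)⟩)⟩)⟩)⟩)⟩)⟩)⟩)⟩)⟩)⟩)⟩)⟩)⟩)⟩)⟩)⟩)⟩)⟩)⟩)⟩)⟩)⟩)⟩)⟩)⟩)⟩)⟩)⟩)⟩)⟩)⟩)⟩)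

/-- Checked boxes. -/
noncomputable def checkedBoxes13 : List Bx :=
  [b520, b521, b522, b523, b524, b525, b526, b527, b528, b529, b530, b531, b532, b533, b534, b535, b536, b537, b538, b539, b540, b541, b542, b543, b544, b545, b546, b547, b548, b549, b550, b551, b552, b553, b554, b555, b556, b557, b558, b559]

theorem cert_boxes13 : ∀ x ∈ checkedBoxes13, Cert cfg x ids :=
  (List.forall_mem_cons.2 ⟨cert520, (List.forall_mem_cons.2 ⟨cert521, (List.forall_mem_cons.2 ⟨cert522, (List.forall_mem_cons.2 ⟨cert523, (List.forall_mem_cons.2 ⟨cert524, (List.forall_mem_cons.2 ⟨cert525, (List.forall_mem_cons.2 ⟨cert526, (List.forall_mem_cons.2 ⟨cert527, (List.forall_mem_cons.2 ⟨cert528, (List.forall_mem_cons.2 ⟨cert529, (List.forall_mem_cons.2 ⟨cert530, (List.forall_mem_cons.2 ⟨cert531, (List.forall_mem_cons.2 ⟨cert532, (List.forall_mem_cons.2 ⟨cert533, (List.forall_mem_cons.2 ⟨cert534, (List.forall_mem_cons.2 ⟨cert535, (List.forall_mem_cons.2 ⟨cert536, (List.forall_mem_cons.2 ⟨cert537, (List.forall_mem_cons.2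 ⟨cert538, (List.forall_mem_cons.2 ⟨cert539, (List.forall_mem_cons.2 ⟨cert540, (List.forall_mem_cons.2 ⟨cert541, (List.forall_mem_cons.2 ⟨cert542, (List.forall_mem_cons.2 ⟨cert543, (List.forall_mem_cons.2 ⟨cert544, (List.forall_mem_cons.2 ⟨cert545, (List.forall_mem_cons.2 ⟨cert546, (List.forall_mem_cons.2 ⟨cert547, (List.forall_mem_cons.2 ⟨cert548, (List.forall_mem_cons.2 ⟨cert549, (List.forall_mem_cons.2 ⟨cert550, (List.forall_mem_cons.2 ⟨cert551, (List.forall_mem_cons.2 ⟨cert552, (List.forall_mem_cons.2 ⟨cert553, (List.forall_mem_cons.2 ⟨cert554, (List.forall_mem_cons.2 ⟨cert555, (List.forall_mem_cons.2 ⟨cert556, (List.forall_mem_cons.2 ⟨cert557, (List.forall_mem_cons.2 ⟨cert558, (List.forall_mem_cons.2 ⟨cert559, (fun _ h => absurd h List.not_mem_nil)⟩)⟩)⟩)⟩)⟩)⟩)⟩)⟩)⟩)⟩)⟩)⟩)⟩)⟩)⟩)⟩)⟩)⟩)⟩)⟩)⟩)⟩)⟩)⟩)⟩)⟩)⟩)⟩)⟩)⟩)⟩)⟩)⟩)⟩)⟩)⟩)⟩)⟩)⟩)⟩)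

/-- Checked boxes. -/
noncomputable def checkedBoxes14 : List Bx :=
  [b560, b561, b562, b563, b564, b565, b566, b567, b568, b569, b570, b571, b572, b573, b574, b575, b576, b577, b578, b579, b580, b581, b582, b583, b584, b585, b586, b587, b588, b589, b590, b591, b592, b593, b594, b595, b596, b597, b598, b599]

theorem cert_boxes14 : ∀ x ∈ checkedBoxes14, Cert cfg x ids :=
  (List.forall_mem_cons.2 ⟨cert560, (List.forall_mem_cons.2 ⟨cert561, (List.forall_mem_cons.2 ⟨cert562, (List.forall_mem_cons.2 ⟨cert563, (List.forall_mem_cons.2 ⟨cert564, (List.forall_mem_cons.2 ⟨cert565, (List.forall_mem_cons.2 ⟨cert566, (List.forall_mem_cons.2 ⟨cert567, (List.forall_mem_cons.2 ⟨cert568, (List.forall_mem_cons.2 ⟨cert569, (List.forall_mem_cons.2 ⟨cert570, (List.forall_mem_cons.2 ⟨cert571, (List.forall_mem_cons.2 ⟨cert572, (List.forall_mem_cons.2 ⟨cert573, (List.forall_mem_cons.2 ⟨cert574, (List.forall_mem_cons.2 ⟨cert575, (List.forall_mem_cons.2 ⟨cert576, (List.forall_mem_cons.2 ⟨cert577, (List.forall_mem_cons.2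 ⟨cert578, (List.forall_mem_cons.2 ⟨cert579, (List.forall_mem_cons.2 ⟨cert580, (List.forall_mem_cons.2 ⟨cert581, (List.forall_mem_cons.2 ⟨cert582, (List.forall_mem_cons.2 ⟨cert583, (List.forall_mem_cons.2 ⟨cert584, (List.forall_mem_cons.2 ⟨cert585, (List.forall_mem_cons.2 ⟨cert586, (List.forall_mem_cons.2 ⟨cert587, (List.forall_mem_cons.2 ⟨cert588, (List.forall_mem_cons.2 ⟨cert589, (List.forall_mem_cons.2 ⟨cert590, (List.forall_mem_cons.2 ⟨cert591, (List.forall_mem_cons.2 ⟨cert592, (List.forall_mem_cons.2 ⟨cert593, (List.forall_mem_cons.2 ⟨cert594, (List.forall_mem_cons.2 ⟨cert595, (List.forall_mem_cons.2 ⟨cert596, (List.forall_mem_cons.2 ⟨cert597, (List.forall_mem_cons.2 ⟨cert598, (List.forall_mem_cons.2 ⟨cert599, (fun _ h => absurd h List.not_mem_nil)⟩)⟩)⟩)⟩)⟩)⟩)⟩)⟩)⟩)⟩)⟩)⟩)⟩)⟩)⟩)⟩)⟩)⟩)⟩)⟩)⟩)⟩)⟩)⟩)⟩)⟩)⟩)⟩)⟩)⟩)⟩)⟩)⟩)⟩)⟩)⟩)⟩)⟩)⟩)⟩)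

/-- Checked boxes. -/
noncomputable def checkedBoxes15 : List Bx :=
  [b600, b601, b602, b603, b604, b605, b606, b607, b608, b609, b610, b611, b612, b613, b614, b615, b616, b617, b618, b619, b620, b621, b622, b623, b624, b625, b626, b627, b628, b629, b630, b631, b632, b633, b634, b635, b636, b637, b638, b639]

theorem cert_boxes15 : ∀ x ∈ checkedBoxes15, Cert cfg x ids :=
  (List.forall_mem_cons.2 ⟨cert600, (List.forall_mem_cons.2 ⟨cert601, (List.forall_mem_cons.2 ⟨cert602, (List.forall_mem_cons.2 ⟨cert603, (List.forall_mem_cons.2 ⟨cert604, (List.forall_mem_cons.2 ⟨cert605, (List.forall_mem_cons.2 ⟨cert606, (List.forall_mem_cons.2 ⟨cert607, (List.forall_mem_cons.2 ⟨cert608, (List.forall_mem_cons.2 ⟨cert609, (List.forall_mem_cons.2 ⟨cert610, (List.forall_mem_cons.2 ⟨cert611, (List.forall_mem_cons.2 ⟨cert612, (List.forall_mem_cons.2 ⟨cert613, (List.forall_mem_cons.2 ⟨cert614, (List.forall_mem_cons.2 ⟨cert615, (List.forall_mem_cons.2 ⟨cert616, (List.forall_mem_cons.2 ⟨cert617, (List.forall_mem_cons.2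 ⟨cert618, (List.forall_mem_cons.2 ⟨cert619, (List.forall_mem_cons.2 ⟨cert620, (List.forall_mem_cons.2 ⟨cert621, (List.forall_mem_cons.2 ⟨cert622, (List.forall_mem_cons.2 ⟨cert623, (List.forall_mem_cons.2 ⟨cert624, (List.forall_mem_cons.2 ⟨cert625, (List.forall_mem_cons.2 ⟨cert626, (List.forall_mem_cons.2 ⟨cert627, (List.forall_mem_cons.2 ⟨cert628, (List.forall_mem_cons.2 ⟨cert629, (List.forall_mem_cons.2 ⟨cert630, (List.forall_mem_cons.2 ⟨cert631, (List.forall_mem_cons.2 ⟨cert632, (List.forall_mem_cons.2 ⟨cert633, (List.forall_mem_cons.2 ⟨cert634, (List.forall_mem_cons.2 ⟨cert635, (List.forall_mem_cons.2 ⟨cert636, (List.forall_mem_cons.2 ⟨cert637, (List.forall_mem_cons.2 ⟨cert638, (List.forall_mem_cons.2 ⟨cert639, (fun _ h => absurd h List.not_mem_nil)⟩)⟩)⟩)⟩)⟩)⟩)⟩)⟩)⟩)⟩)⟩)⟩)⟩)⟩)⟩)⟩)⟩)⟩)⟩)⟩)⟩)⟩)⟩)⟩)⟩)⟩)⟩)⟩)⟩)⟩)⟩)⟩)⟩)⟩)⟩)⟩)⟩)⟩)⟩)⟩)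

/-- Checked boxes. -/
noncomputable def checkedBoxes16 : List Bx :=
  [b640, b641, b642, b643, b644, b645, b646, b647, b648, b649, b650, b651, b652, b653, b654, b655, b656, b657, b658, b659, b660, b661, b662, b663, b664, b665, b666, b667, b668, b669, b670, b671, b672, b673, b674, b675, b676, b677, b678, b679]

theorem cert_boxes16 : ∀ x ∈ checkedBoxes16, Cert cfg x ids :=
  (List.forall_mem_cons.2 ⟨cert640, (List.forall_mem_cons.2 ⟨cert641, (List.forall_mem_cons.2 ⟨cert642, (List.forall_mem_cons.2 ⟨cert643, (List.forall_mem_cons.2 ⟨cert644, (List.forall_mem_cons.2 ⟨cert645, (List.forall_mem_cons.2 ⟨cert646, (List.forall_mem_cons.2 ⟨cert647, (List.forall_mem_cons.2 ⟨cert648, (List.forall_mem_cons.2 ⟨cert649, (List.forall_mem_cons.2 ⟨cert650, (List.forall_mem_cons.2 ⟨cert651, (List.forall_mem_cons.2 ⟨cert652, (List.forall_mem_cons.2 ⟨cert653, (List.forall_mem_cons.2 ⟨cert654, (List.forall_mem_cons.2 ⟨cert655, (List.forall_mem_cons.2 ⟨cert656, (List.forall_mem_cons.2 ⟨cert657, (List.forall_mem_cons.2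 ⟨cert658, (List.forall_mem_cons.2 ⟨cert659, (List.forall_mem_cons.2 ⟨cert660, (List.forall_mem_cons.2 ⟨cert661, (List.forall_mem_cons.2 ⟨cert662, (List.forall_mem_cons.2 ⟨cert663, (List.forall_mem_cons.2 ⟨cert664, (List.forall_mem_cons.2 ⟨cert665, (List.forall_mem_cons.2 ⟨cert666, (List.forall_mem_cons.2 ⟨cert667, (List.forall_mem_cons.2 ⟨cert668, (List.forall_mem_cons.2 ⟨cert669, (List.forall_mem_cons.2 ⟨cert670, (List.forall_mem_cons.2 ⟨cert671, (List.forall_mem_cons.2 ⟨cert672, (List.forall_mem_cons.2 ⟨cert673, (List.forall_mem_cons.2 ⟨cert674, (List.forall_mem_cons.2 ⟨cert675, (List.forall_mem_cons.2 ⟨cert676, (List.forall_mem_cons.2 ⟨cert677, (List.forall_mem_cons.2 ⟨cert678, (List.forall_mem_cons.2 ⟨cert679, (fun _ h => absurd h List.not_mem_nil)⟩)⟩)⟩)⟩)⟩)⟩)⟩)⟩)⟩)⟩)⟩)⟩)⟩)⟩)⟩)⟩)⟩)⟩)⟩)⟩)⟩)⟩)⟩)⟩)⟩)⟩)⟩)⟩)⟩)⟩)⟩)⟩)⟩)⟩)⟩)⟩)⟩)⟩)⟩)⟩)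

/-- Checked boxes. -/
noncomputable def checkedBoxes17 : List Bx :=
  [b680, b681, b682, b683, b684, b685, b686, b687, b688, b689, b690, b691, b692, b693, b694, b695, b696, b697, b698, b699, b700, b701, b702, b703, b704, b705, b706, b707, b708, b709, b710, b711, b712, b713, b714, b715, b716, b717, b718, b719]

theorem cert_boxes17 : ∀ x ∈ checkedBoxes17, Cert cfg x ids :=
  (List.forall_mem_cons.2 ⟨cert680, (List.forall_mem_cons.2 ⟨cert681, (List.forall_mem_cons.2 ⟨cert682, (List.forall_mem_cons.2 ⟨cert683, (List.forall_mem_cons.2 ⟨cert684, (List.forall_mem_cons.2 ⟨cert685, (List.forall_mem_cons.2 ⟨cert686, (List.forall_mem_cons.2 ⟨cert687, (List.forall_mem_cons.2 ⟨cert688, (List.forall_mem_cons.2 ⟨cert689, (List.forall_mem_cons.2 ⟨cert690, (List.forall_mem_cons.2 ⟨cert691, (List.forall_mem_cons.2 ⟨cert692, (List.forall_mem_cons.2 ⟨cert693, (List.forall_mem_cons.2 ⟨cert694, (List.forall_mem_cons.2 ⟨cert695, (List.forall_mem_cons.2 ⟨cert696, (List.forall_mem_cons.2 ⟨cert697, (List.forall_mem_cons.2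 ⟨cert698, (List.forall_mem_cons.2 ⟨cert699, (List.forall_mem_cons.2 ⟨cert700, (List.forall_mem_cons.2 ⟨cert701, (List.forall_mem_cons.2 ⟨cert702, (List.forall_mem_cons.2 ⟨cert703, (List.forall_mem_cons.2 ⟨cert704, (List.forall_mem_cons.2 ⟨cert705, (List.forall_mem_cons.2 ⟨cert706, (List.forall_mem_cons.2 ⟨cert707, (List.forall_mem_cons.2 ⟨cert708, (List.forall_mem_cons.2 ⟨cert709, (List.forall_mem_cons.2 ⟨cert710, (List.forall_mem_cons.2 ⟨cert711, (List.forall_mem_cons.2 ⟨cert712, (List.forall_mem_cons.2 ⟨cert713, (List.forall_mem_cons.2 ⟨cert714, (List.forall_mem_cons.2 ⟨cert715, (List.forall_mem_cons.2 ⟨cert716, (List.forall_mem_cons.2 ⟨cert717, (List.forall_mem_cons.2 ⟨cert718, (List.forall_mem_cons.2 ⟨cert719, (fun _ h => absurd h List.not_mem_nil)⟩)⟩)⟩)⟩)⟩)⟩)⟩)⟩)⟩)⟩)⟩)⟩)⟩)⟩)⟩)⟩)⟩)⟩)⟩)⟩)⟩)⟩)⟩)⟩)⟩)⟩)⟩)⟩)⟩)⟩)⟩)⟩)⟩)⟩)⟩)⟩)⟩)⟩)⟩)⟩)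

/-- Checked boxes. -/
noncomputable def checkedBoxes18 : List Bx :=
  [b720, b721, b722, b723, b724, b725, b726, b727, b728, b729, b730, b731, b732, b733, b734, b735, b736, b737, b738, b739, b740, b741, b742, b743, b744, b745, b746, b747, b748, b749, b750, b751, b752, b753, b754, b755, b756, b757, b758, b759]

theorem cert_boxes18 : ∀ x ∈ checkedBoxes18, Cert cfg x ids :=
  (List.forall_mem_cons.2 ⟨cert720, (List.forall_mem_cons.2 ⟨cert721, (List.forall_mem_cons.2 ⟨cert722, (List.forall_mem_cons.2 ⟨cert723, (List.forall_mem_cons.2 ⟨cert724, (List.forall_mem_cons.2 ⟨cert725, (List.forall_mem_cons.2 ⟨cert726, (List.forall_mem_cons.2 ⟨cert727, (List.forall_mem_cons.2 ⟨cert728, (List.forall_mem_cons.2 ⟨cert729, (List.forall_mem_cons.2 ⟨cert730, (List.forall_mem_cons.2 ⟨cert731, (List.forall_mem_cons.2 ⟨cert732, (List.forall_mem_cons.2 ⟨cert733, (List.forall_mem_cons.2 ⟨cert734, (List.forall_mem_cons.2 ⟨cert735, (List.forall_mem_cons.2 ⟨cert736, (List.forall_mem_cons.2 ⟨cert737, (List.forall_mem_cons.2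 ⟨cert738, (List.forall_mem_cons.2 ⟨cert739, (List.forall_mem_cons.2 ⟨cert740, (List.forall_mem_cons.2 ⟨cert741, (List.forall_mem_cons.2 ⟨cert742, (List.forall_mem_cons.2 ⟨cert743, (List.forall_mem_cons.2 ⟨cert744, (List.forall_mem_cons.2 ⟨cert745, (List.forall_mem_cons.2 ⟨cert746, (List.forall_mem_cons.2 ⟨cert747, (List.forall_mem_cons.2 ⟨cert748, (List.forall_mem_cons.2 ⟨cert749, (List.forall_mem_cons.2 ⟨cert750, (List.forall_mem_cons.2 ⟨cert751, (List.forall_mem_cons.2 ⟨cert752, (List.forall_mem_cons.2 ⟨cert753, (List.forall_mem_cons.2 ⟨cert754, (List.forall_mem_cons.2 ⟨cert755, (List.forall_mem_cons.2 ⟨cert756, (List.forall_mem_cons.2 ⟨cert757, (List.forall_mem_cons.2 ⟨cert758, (List.forall_mem_cons.2 ⟨cert759, (fun _ h => absurd h List.not_mem_nil)⟩)⟩)⟩)⟩)⟩)⟩)⟩)⟩)⟩)⟩)⟩)⟩)⟩)⟩)⟩)⟩)⟩)⟩)⟩)⟩)⟩)⟩)⟩)⟩)⟩)⟩)⟩)⟩)⟩)⟩)⟩)⟩)⟩)⟩)⟩)⟩)⟩)⟩)⟩)⟩)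

/-- Checked boxes. -/
noncomputable def checkedBoxes19 : List Bx :=
  [b760, b761, b762, b763, b764, b765, b766, b767, b768, b769, b770, b771, b772, b773, b774, b775, b776, b777, b778, b779, b780, b781, b782, b783, b784, b785, b786, b787, b788, b789, b790, b791, b792, b793, b794, b795, b796, b797, b798, b799]

theorem cert_boxes19 : ∀ x ∈ checkedBoxes19, Cert cfg x ids :=
  (List.forall_mem_cons.2 ⟨cert760, (List.forall_mem_cons.2 ⟨cert761, (List.forall_mem_cons.2 ⟨cert762, (List.forall_mem_cons.2 ⟨cert763, (List.forall_mem_cons.2 ⟨cert764, (List.forall_mem_cons.2 ⟨cert765, (List.forall_mem_cons.2 ⟨cert766, (List.forall_mem_cons.2 ⟨cert767, (List.forall_mem_cons.2 ⟨cert768, (List.forall_mem_cons.2 ⟨cert769, (List.forall_mem_cons.2 ⟨cert770, (List.forall_mem_cons.2 ⟨cert771, (List.forall_mem_cons.2 ⟨cert772, (List.forall_mem_cons.2 ⟨cert773, (List.forall_mem_cons.2 ⟨cert774, (List.forall_mem_cons.2 ⟨cert775, (List.forall_mem_cons.2 ⟨cert776, (List.forall_mem_cons.2 ⟨cert777, (List.forall_mem_cons.2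 ⟨cert778, (List.forall_mem_cons.2 ⟨cert779, (List.forall_mem_cons.2 ⟨cert780, (List.forall_mem_cons.2 ⟨cert781, (List.forall_mem_cons.2 ⟨cert782, (List.forall_mem_cons.2 ⟨cert783, (List.forall_mem_cons.2 ⟨cert784, (List.forall_mem_cons.2 ⟨cert785, (List.forall_mem_cons.2 ⟨cert786, (List.forall_mem_cons.2 ⟨cert787, (List.forall_mem_cons.2 ⟨cert788, (List.forall_mem_cons.2 ⟨cert789, (List.forall_mem_cons.2 ⟨cert790, (List.forall_mem_cons.2 ⟨cert791, (List.forall_mem_cons.2 ⟨cert792, (List.forall_mem_cons.2 ⟨cert793, (List.forall_mem_cons.2 ⟨cert794, (List.forall_mem_cons.2 ⟨cert795, (List.forall_mem_cons.2 ⟨cert796, (List.forall_mem_cons.2 ⟨cert797, (List.forall_mem_cons.2 ⟨cert798, (List.forall_mem_cons.2 ⟨cert799, (fun _ h => absurd h List.not_mem_nil)⟩)⟩)⟩)⟩)⟩)⟩)⟩)⟩)⟩)⟩)⟩)⟩)⟩)⟩)⟩)⟩)⟩)⟩)⟩)⟩)⟩)⟩)⟩)⟩)⟩)⟩)⟩)⟩)⟩)⟩)⟩)⟩)⟩)⟩)⟩)⟩)⟩)⟩)⟩)⟩)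

/-- Checked boxes. -/
noncomputable def checkedBoxes20 : List Bx :=
  [b800, b801, b802, b803, b804, b805, b806, b807, b808, b809, b810, b811, b812, b813, b814, b815, b816, b817, b818, b819, b820, b821, b822, b823, b824, b825, b826, b827, b828, b829, b830, b831, b832, b833, b834, b835, b836, b837, b838, b839]

theorem cert_boxes20 : ∀ x ∈ checkedBoxes20, Cert cfg x ids :=
  (List.forall_mem_cons.2 ⟨cert800, (List.forall_mem_cons.2 ⟨cert801, (List.forall_mem_cons.2 ⟨cert802, (List.forall_mem_cons.2 ⟨cert803, (List.forall_mem_cons.2 ⟨cert804, (List.forall_mem_cons.2 ⟨cert805, (List.forall_mem_cons.2 ⟨cert806, (List.forall_mem_cons.2 ⟨cert807, (List.forall_mem_cons.2 ⟨cert808, (List.forall_mem_cons.2 ⟨cert809, (List.forall_mem_cons.2 ⟨cert810, (List.forall_mem_cons.2 ⟨cert811, (List.forall_mem_cons.2 ⟨cert812, (List.forall_mem_cons.2 ⟨cert813, (List.forall_mem_cons.2 ⟨cert814, (List.forall_mem_cons.2 ⟨cert815, (List.forall_mem_cons.2 ⟨cert816, (List.forall_mem_cons.2 ⟨cert817, (List.forall_mem_cons.2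 ⟨cert818, (List.forall_mem_cons.2 ⟨cert819, (List.forall_mem_cons.2 ⟨cert820, (List.forall_mem_cons.2 ⟨cert821, (List.forall_mem_cons.2 ⟨cert822, (List.forall_mem_cons.2 ⟨cert823, (List.forall_mem_cons.2 ⟨cert824, (List.forall_mem_cons.2 ⟨cert825, (List.forall_mem_cons.2 ⟨cert826, (List.forall_mem_cons.2 ⟨cert827, (List.forall_mem_cons.2 ⟨cert828, (List.forall_mem_cons.2 ⟨cert829, (List.forall_mem_cons.2 ⟨cert830, (List.forall_mem_cons.2 ⟨cert831, (List.forall_mem_cons.2 ⟨cert832, (List.forall_mem_cons.2 ⟨cert833, (List.forall_mem_cons.2 ⟨cert834, (List.forall_mem_cons.2 ⟨cert835, (List.forall_mem_cons.2 ⟨cert836, (List.forall_mem_cons.2 ⟨cert837, (List.forall_mem_cons.2 ⟨cert838, (List.forall_mem_cons.2 ⟨cert839, (fun _ h => absurd h List.not_mem_nil)⟩)⟩)⟩)⟩)⟩)⟩)⟩)⟩)⟩)⟩)⟩)⟩)⟩)⟩)⟩)⟩)⟩)⟩)⟩)⟩)⟩)⟩)⟩)⟩)⟩)⟩)⟩)⟩)⟩)⟩)⟩)⟩)⟩)⟩)⟩)⟩)⟩)⟩)⟩)⟩)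

/-- Checked boxes. -/
noncomputable def checkedBoxes21 : List Bx :=
  [b840, b841, b842, b843, b844, b845, b846, b847, b848, b849, b850, b851, b852, b853, b854, b855, b856, b857, b858, b859, b860, b861, b862, b863, b864, b865, b866, b867, b868, b869, b870, b871, b872, b873, b874, b875, b876, b877, b878, b879]

theorem cert_boxes21 : ∀ x ∈ checkedBoxes21, Cert cfg x ids :=
  (List.forall_mem_cons.2 ⟨cert840, (List.forall_mem_cons.2 ⟨cert841, (List.forall_mem_cons.2 ⟨cert842, (List.forall_mem_cons.2 ⟨cert843, (List.forall_mem_cons.2 ⟨cert844, (List.forall_mem_cons.2 ⟨cert845, (List.forall_mem_cons.2 ⟨cert846, (List.forall_mem_cons.2 ⟨cert847, (List.forall_mem_cons.2 ⟨cert848, (List.forall_mem_cons.2 ⟨cert849, (List.forall_mem_cons.2 ⟨cert850, (List.forall_mem_cons.2 ⟨cert851, (List.forall_mem_cons.2 ⟨cert852, (List.forall_mem_cons.2 ⟨cert853, (List.forall_mem_cons.2 ⟨cert854, (List.forall_mem_cons.2 ⟨cert855, (List.forall_mem_cons.2 ⟨cert856, (List.forall_mem_cons.2 ⟨cert857, (List.forall_mem_cons.2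 ⟨cert858, (List.forall_mem_cons.2 ⟨cert859, (List.forall_mem_cons.2 ⟨cert860, (List.forall_mem_cons.2 ⟨cert861, (List.forall_mem_cons.2 ⟨cert862, (List.forall_mem_cons.2 ⟨cert863, (List.forall_mem_cons.2 ⟨cert864, (List.forall_mem_cons.2 ⟨cert865, (List.forall_mem_cons.2 ⟨cert866, (List.forall_mem_cons.2 ⟨cert867, (List.forall_mem_cons.2 ⟨cert868, (List.forall_mem_cons.2 ⟨cert869, (List.forall_mem_cons.2 ⟨cert870, (List.forall_mem_cons.2 ⟨cert871, (List.forall_mem_cons.2 ⟨cert872, (List.forall_mem_cons.2 ⟨cert873, (List.forall_mem_cons.2 ⟨cert874, (List.forall_mem_cons.2 ⟨cert875, (List.forall_mem_cons.2 ⟨cert876, (List.forall_mem_cons.2 ⟨cert877, (List.forall_mem_cons.2 ⟨cert878, (List.forall_mem_cons.2 ⟨cert879, (fun _ h => absurd h List.not_mem_nil)⟩)⟩)⟩)⟩)⟩)⟩)⟩)⟩)⟩)⟩)⟩)⟩)⟩)⟩)⟩)⟩)⟩)⟩)⟩)⟩)⟩)⟩)⟩)⟩)⟩)⟩)⟩)⟩)⟩)⟩)⟩)⟩)⟩)⟩)⟩)⟩)⟩)⟩)⟩)⟩)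

/-- Checked boxes. -/
noncomputable def checkedBoxes22 : List Bx :=
  [b880, b881, b882, b883, b884, b885, b886, b887, b888, b889, b890, b891, b892, b893, b894, b895, b896, b897, b898, b899, b900, b901, b902, b903, b904, b905, b906, b907, b908, b909, b910, b911, b912, b913, b914, b915, b916, b917, b918, b919]

theorem cert_boxes22 : ∀ x ∈ checkedBoxes22, Cert cfg x ids :=
  (List.forall_mem_cons.2 ⟨cert880, (List.forall_mem_cons.2 ⟨cert881, (List.forall_mem_cons.2 ⟨cert882, (List.forall_mem_cons.2 ⟨cert883, (List.forall_mem_cons.2 ⟨cert884, (List.forall_mem_cons.2 ⟨cert885, (List.forall_mem_cons.2 ⟨cert886, (List.forall_mem_cons.2 ⟨cert887, (List.forall_mem_cons.2 ⟨cert888, (List.forall_mem_cons.2 ⟨cert889, (List.forall_mem_cons.2 ⟨cert890, (List.forall_mem_cons.2 ⟨cert891, (List.forall_mem_cons.2 ⟨cert892, (List.forall_mem_cons.2 ⟨cert893, (List.forall_mem_cons.2 ⟨cert894, (List.forall_mem_cons.2 ⟨cert895, (List.forall_mem_cons.2 ⟨cert896, (List.forall_mem_cons.2 ⟨cert897, (List.forall_mem_cons.2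 ⟨cert898, (List.forall_mem_cons.2 ⟨cert899, (List.forall_mem_cons.2 ⟨cert900, (List.forall_mem_cons.2 ⟨cert901, (List.forall_mem_cons.2 ⟨cert902, (List.forall_mem_cons.2 ⟨cert903, (List.forall_mem_cons.2 ⟨cert904, (List.forall_mem_cons.2 ⟨cert905, (List.forall_mem_cons.2 ⟨cert906, (List.forall_mem_cons.2 ⟨cert907, (List.forall_mem_cons.2 ⟨cert908, (List.forall_mem_cons.2 ⟨cert909, (List.forall_mem_cons.2 ⟨cert910, (List.forall_mem_cons.2 ⟨cert911, (List.forall_mem_cons.2 ⟨cert912, (List.forall_mem_cons.2 ⟨cert913, (List.forall_mem_cons.2 ⟨cert914, (List.forall_mem_cons.2 ⟨cert915, (List.forall_mem_cons.2 ⟨cert916, (List.forall_mem_cons.2 ⟨cert917, (List.forall_mem_cons.2 ⟨cert918, (List.forall_mem_cons.2 ⟨cert919, (fun _ h => absurd h List.not_mem_nil)⟩)⟩)⟩)⟩)⟩)⟩)⟩)⟩)⟩)⟩)⟩)⟩)⟩)⟩)⟩)⟩)⟩)⟩)⟩)⟩)⟩)⟩)⟩)⟩)⟩)⟩)⟩)⟩)⟩)⟩)⟩)⟩)⟩)⟩)⟩)⟩)⟩)⟩)⟩)⟩)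

/-- Checked boxes. -/
noncomputable def checkedBoxes23 : List Bx :=
  [b920, b921, b922, b923, b924, b925, b926, b927, b928, b929, b930, b931, b932, b933, b934, b935, b936, b937, b938, b939, b940, b941, b942, b943, b944, b945, b946, b947, b948, b949, b950, b951, b952, b953, b954, b955, b956, b957, b958, b959]

theorem cert_boxes23 : ∀ x ∈ checkedBoxes23, Cert cfg x ids :=
  (List.forall_mem_cons.2 ⟨cert920, (List.forall_mem_cons.2 ⟨cert921, (List.forall_mem_cons.2 ⟨cert922, (List.forall_mem_cons.2 ⟨cert923, (List.forall_mem_cons.2 ⟨cert924, (List.forall_mem_cons.2 ⟨cert925, (List.forall_mem_cons.2 ⟨cert926, (List.forall_mem_cons.2 ⟨cert927, (List.forall_mem_cons.2 ⟨cert928, (List.forall_mem_cons.2 ⟨cert929, (List.forall_mem_cons.2 ⟨cert930, (List.forall_mem_cons.2 ⟨cert931, (List.forall_mem_cons.2 ⟨cert932, (List.forall_mem_cons.2 ⟨cert933, (List.forall_mem_cons.2 ⟨cert934, (List.forall_mem_cons.2 ⟨cert935, (List.forall_mem_cons.2 ⟨cert936, (List.forall_mem_cons.2 ⟨cert937, (List.forall_mem_cons.2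 ⟨cert938, (List.forall_mem_cons.2 ⟨cert939, (List.forall_mem_cons.2 ⟨cert940, (List.forall_mem_cons.2 ⟨cert941, (List.forall_mem_cons.2 ⟨cert942, (List.forall_mem_cons.2 ⟨cert943, (List.forall_mem_cons.2 ⟨cert944, (List.forall_mem_cons.2 ⟨cert945, (List.forall_mem_cons.2 ⟨cert946, (List.forall_mem_cons.2 ⟨cert947, (List.forall_mem_cons.2 ⟨cert948, (List.forall_mem_cons.2 ⟨cert949, (List.forall_mem_cons.2 ⟨cert950, (List.forall_mem_cons.2 ⟨cert951, (List.forall_mem_cons.2 ⟨cert952, (List.forall_mem_cons.2 ⟨cert953, (List.forall_mem_cons.2 ⟨cert954, (List.forall_mem_cons.2 ⟨cert955, (List.forall_mem_cons.2 ⟨cert956, (List.forall_mem_cons.2 ⟨cert957, (List.forall_mem_cons.2 ⟨cert958, (List.forall_mem_cons.2 ⟨cert959, (fun _ h => absurd h List.not_mem_nil)⟩)⟩)⟩)⟩)⟩)⟩)⟩)⟩)⟩)⟩)⟩)⟩)⟩)⟩)⟩)⟩)⟩)⟩)⟩)⟩)⟩)⟩)⟩)⟩)⟩)⟩)⟩)⟩)⟩)⟩)⟩)⟩)⟩)⟩)⟩)⟩)⟩)⟩)⟩)⟩)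

/-- Checked boxes. -/
noncomputable def checkedBoxes24 : List Bx :=
  [b960, b961, b962, b963, b964, b965, b966, b967, b968, b969, b970, b971, b972, b973, b974, b975, b976, b977, b978, b979, b980, b981, b982, b983, b984, b985, b986, b987, b988, b989, b990, b991, b992, b993, b994, b995, b996, b997, b998, b999]

theorem cert_boxes24 : ∀ x ∈ checkedBoxes24, Cert cfg x ids :=
  (List.forall_mem_cons.2 ⟨cert960, (List.forall_mem_cons.2 ⟨cert961, (List.forall_mem_cons.2 ⟨cert962, (List.forall_mem_cons.2 ⟨cert963, (List.forall_mem_cons.2 ⟨cert964, (List.forall_mem_cons.2 ⟨cert965, (List.forall_mem_cons.2 ⟨cert966, (List.forall_mem_cons.2 ⟨cert967, (List.forall_mem_cons.2 ⟨cert968, (List.forall_mem_cons.2 ⟨cert969, (List.forall_mem_cons.2 ⟨cert970, (List.forall_mem_cons.2 ⟨cert971, (List.forall_mem_cons.2 ⟨cert972, (List.forall_mem_cons.2 ⟨cert973, (List.forall_mem_cons.2 ⟨cert974, (List.forall_mem_cons.2 ⟨cert975, (List.forall_mem_cons.2 ⟨cert976, (List.forall_mem_cons.2 ⟨cert977, (List.forall_mem_cons.2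 ⟨cert978, (List.forall_mem_cons.2 ⟨cert979, (List.forall_mem_cons.2 ⟨cert980, (List.forall_mem_cons.2 ⟨cert981, (List.forall_mem_cons.2 ⟨cert982, (List.forall_mem_cons.2 ⟨cert983, (List.forall_mem_cons.2 ⟨cert984, (List.forall_mem_cons.2 ⟨cert985, (List.forall_mem_cons.2 ⟨cert986, (List.forall_mem_cons.2 ⟨cert987, (List.forall_mem_cons.2 ⟨cert988, (List.forall_mem_cons.2 ⟨cert989, (List.forall_mem_cons.2 ⟨cert990, (List.forall_mem_cons.2 ⟨cert991, (List.forall_mem_cons.2 ⟨cert992, (List.forall_mem_cons.2 ⟨cert993, (List.forall_mem_cons.2 ⟨cert994, (List.forall_mem_cons.2 ⟨cert995, (List.forall_mem_cons.2 ⟨cert996, (List.forall_mem_cons.2 ⟨cert997, (List.forall_mem_cons.2 ⟨cert998, (List.forall_mem_cons.2 ⟨cert999, (fun _ h => absurd h List.not_mem_nil)⟩)⟩)⟩)⟩)⟩)⟩)⟩)⟩)⟩)⟩)⟩)⟩)⟩)⟩)⟩)⟩)⟩)⟩)⟩)⟩)⟩)⟩)⟩)⟩)⟩)⟩)⟩)⟩)⟩)⟩)⟩)⟩)⟩)⟩)⟩)⟩)⟩)⟩)⟩)⟩)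

/-- Checked boxes. -/
noncomputable def checkedBoxes25 : List Bx :=
  [b1000, b1001, b1002, b1003, b1004, b1005, b1006, b1007, b1008, b1009, b1010, b1011, b1012, b1013, b1014, b1015, b1016, b1017, b1018, b1019, b1020, b1021, b1022, b1023, b1024, b1025, b1026, b1027, b1028, b1029, b1030, b1031, b1032, b1033, b1034, b1035, b1036, b1037, b1038, b1039]

theorem cert_boxes25 : ∀ x ∈ checkedBoxes25, Cert cfg x ids :=
  (List.forall_mem_cons.2 ⟨cert1000, (List.forall_mem_cons.2 ⟨cert1001, (List.forall_mem_cons.2 ⟨cert1002, (List.forall_mem_cons.2 ⟨cert1003, (List.forall_mem_cons.2 ⟨cert1004, (List.forall_mem_cons.2 ⟨cert1005, (List.forall_mem_cons.2 ⟨cert1006, (List.forall_mem_cons.2 ⟨cert1007, (List.forall_mem_cons.2 ⟨cert1008, (List.forall_mem_cons.2 ⟨cert1009, (List.forall_mem_cons.2 ⟨cert1010, (List.forall_mem_cons.2 ⟨cert1011, (List.forall_mem_cons.2 ⟨cert1012, (List.forall_mem_cons.2 ⟨cert1013, (List.forall_mem_cons.2 ⟨cert1014, (List.forall_mem_cons.2 ⟨cert1015, (List.forall_mem_cons.2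 ⟨cert1016, (List.forall_mem_cons.2 ⟨cert1017, (List.forall_mem_cons.2 ⟨cert1018, (List.forall_mem_cons.2 ⟨cert1019, (List.forall_mem_cons.2 ⟨cert1020, (List.forall_mem_cons.2 ⟨cert1021, (List.forall_mem_cons.2 ⟨cert1022, (List.forall_mem_cons.2 ⟨cert1023, (List.forall_mem_cons.2 ⟨cert1024, (List.forall_mem_cons.2 ⟨cert1025, (List.forall_mem_cons.2 ⟨cert1026, (List.forall_mem_cons.2 ⟨cert1027, (List.forall_mem_cons.2 ⟨cert1028, (List.forall_mem_cons.2 ⟨cert1029, (List.forall_mem_cons.2 ⟨cert1030, (List.forall_mem_cons.2 ⟨cert1031, (List.forall_mem_cons.2 ⟨cert1032, (List.forall_mem_cons.2 ⟨cert1033, (List.forall_mem_cons.2 ⟨cert1034, (List.forall_mem_cons.2 ⟨cert1035, (List.forall_mem_cons.2 ⟨cert1036, (List.forall_mem_cons.2 ⟨cert1037, (List.forall_mem_cons.2 ⟨cert1038, (List.forall_mem_cons.2 ⟨cert1039, (fun _ h => absurd h List.not_mem_nil)⟩)⟩)⟩)⟩)⟩)⟩)⟩)⟩)⟩)⟩)⟩)⟩)⟩)⟩)⟩)⟩)⟩)⟩)⟩)⟩)⟩)⟩)⟩)⟩)⟩)⟩)⟩)⟩)⟩)⟩)⟩)⟩)⟩)⟩)⟩)⟩)⟩)⟩)⟩)⟩)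

/-- Checked boxes. -/
noncomputable def checkedBoxes26 : List Bx :=
  [b1040, b1041, b1042, b1043, b1044, b1045, b1046, b1047, b1048, b1049, b1050, b1051, b1052, b1053, b1054, b1055, b1056, b1057, b1058, b1059, b1060, b1061, b1062, b1063, b1064, b1065, b1066, b1067, b1068, b1069, b1070, b1071, b1072, b1073, b1074, b1075, b1076, b1077, b1078, b1079]

theorem cert_boxes26 : ∀ x ∈ checkedBoxes26, Cert cfg x ids :=
  (List.forall_mem_cons.2 ⟨cert1040, (List.forall_mem_cons.2 ⟨cert1041, (List.forall_mem_cons.2 ⟨cert1042, (List.forall_mem_cons.2 ⟨cert1043, (List.forall_mem_cons.2 ⟨cert1044, (List.forall_mem_cons.2 ⟨cert1045, (List.forall_mem_cons.2 ⟨cert1046, (List.forall_mem_cons.2 ⟨cert1047, (List.forall_mem_cons.2 ⟨cert1048, (List.forall_mem_cons.2 ⟨cert1049, (List.forall_mem_cons.2 ⟨cert1050, (List.forall_mem_cons.2 ⟨cert1051, (List.forall_mem_cons.2 ⟨cert1052, (List.forall_mem_cons.2 ⟨cert1053, (List.forall_mem_cons.2 ⟨cert1054, (List.forall_mem_cons.2 ⟨cert1055, (List.forall_mem_cons.2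 ⟨cert1056, (List.forall_mem_cons.2 ⟨cert1057, (List.forall_mem_cons.2 ⟨cert1058, (List.forall_mem_cons.2 ⟨cert1059, (List.forall_mem_cons.2 ⟨cert1060, (List.forall_mem_cons.2 ⟨cert1061, (List.forall_mem_cons.2 ⟨cert1062, (List.forall_mem_cons.2 ⟨cert1063, (List.forall_mem_cons.2 ⟨cert1064, (List.forall_mem_cons.2 ⟨cert1065, (List.forall_mem_cons.2 ⟨cert1066, (List.forall_mem_cons.2 ⟨cert1067, (List.forall_mem_cons.2 ⟨cert1068, (List.forall_mem_cons.2 ⟨cert1069, (List.forall_mem_cons.2 ⟨cert1070, (List.forall_mem_cons.2 ⟨cert1071, (List.forall_mem_cons.2 ⟨cert1072, (List.forall_mem_cons.2 ⟨cert1073, (List.forall_mem_cons.2 ⟨cert1074, (List.forall_mem_cons.2 ⟨cert1075, (List.forall_mem_cons.2 ⟨cert1076, (List.forall_mem_cons.2 ⟨cert1077, (List.forall_mem_cons.2 ⟨cert1078, (List.forall_mem_cons.2 ⟨cert1079, (fun _ h => absurd h List.not_mem_nil)⟩)⟩)⟩)⟩)⟩)⟩)⟩)⟩)⟩)⟩)⟩)⟩)⟩)⟩)⟩)⟩)⟩)⟩)⟩)⟩)⟩)⟩)⟩)⟩)⟩)⟩)⟩)⟩)⟩)⟩)⟩)⟩)⟩)⟩)⟩)⟩)⟩)⟩)⟩)⟩)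

/-- Checked boxes. -/
noncomputable def checkedBoxes27 : List Bx :=
  [b1080, b1081, b1082, b1083, b1084, b1085, b1086, b1087, b1088, b1089, b1090, b1091, b1092, b1093, b1094, b1095, b1096, b1097, b1098, b1099, b1100, b1101, b1102, b1103, b1104, b1105, b1106, b1107, b1108, b1109, b1110, b1111, b1112, b1113, b1114, b1115, b1116, b1117, b1118, b1119]

theorem cert_boxes27 : ∀ x ∈ checkedBoxes27, Cert cfg x ids :=
  (List.forall_mem_cons.2 ⟨cert1080, (List.forall_mem_cons.2 ⟨cert1081, (List.forall_mem_cons.2 ⟨cert1082, (List.forall_mem_cons.2 ⟨cert1083, (List.forall_mem_cons.2 ⟨cert1084, (List.forall_mem_cons.2 ⟨cert1085, (List.forall_mem_cons.2 ⟨cert1086, (List.forall_mem_cons.2 ⟨cert1087, (List.forall_mem_cons.2 ⟨cert1088, (List.forall_mem_cons.2 ⟨cert1089, (List.forall_mem_cons.2 ⟨cert1090, (List.forall_mem_cons.2 ⟨cert1091, (List.forall_mem_cons.2 ⟨cert1092, (List.forall_mem_cons.2 ⟨cert1093, (List.forall_mem_cons.2 ⟨cert1094, (List.forall_mem_cons.2 ⟨cert1095, (List.forall_mem_cons.2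 ⟨cert1096, (List.forall_mem_cons.2 ⟨cert1097, (List.forall_mem_cons.2 ⟨cert1098, (List.forall_mem_cons.2 ⟨cert1099, (List.forall_mem_cons.2 ⟨cert1100, (List.forall_mem_cons.2 ⟨cert1101, (List.forall_mem_cons.2 ⟨cert1102, (List.forall_mem_cons.2 ⟨cert1103, (List.forall_mem_cons.2 ⟨cert1104, (List.forall_mem_cons.2 ⟨cert1105, (List.forall_mem_cons.2 ⟨cert1106, (List.forall_mem_cons.2 ⟨cert1107, (List.forall_mem_cons.2 ⟨cert1108, (List.forall_mem_cons.2 ⟨cert1109, (List.forall_mem_cons.2 ⟨cert1110, (List.forall_mem_cons.2 ⟨cert1111, (List.forall_mem_cons.2 ⟨cert1112, (List.forall_mem_cons.2 ⟨cert1113, (List.forall_mem_cons.2 ⟨cert1114, (List.forall_mem_cons.2 ⟨cert1115, (List.forall_mem_cons.2 ⟨cert1116, (List.forall_mem_cons.2 ⟨cert1117, (List.forall_mem_cons.2 ⟨cert1118, (List.forall_mem_cons.2 ⟨cert1119, (fun _ h => absurd h List.not_mem_nil)⟩)⟩)⟩)⟩)⟩)⟩)⟩)⟩)⟩)⟩)⟩)⟩)⟩)⟩)⟩)⟩)⟩)⟩)⟩)⟩)⟩)⟩)⟩)⟩)⟩)⟩)⟩)⟩)⟩)⟩)⟩)⟩)⟩)⟩)⟩)⟩)⟩)⟩)⟩)⟩)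

/-- Checked boxes. -/
noncomputable def checkedBoxes28 : List Bx :=
  [b1120, b1121, b1122, b1123, b1124, b1125, b1126, b1127, b1128, b1129, b1130, b1131, b1132, b1133, b1134, b1135, b1136, b1137, b1138, b1139, b1140, b1141, b1142, b1143, b1144, b1145, b1146, b1147, b1148, b1149, b1150, b1151, b1152, b1153, b1154, b1155, b1156, b1157, b1158, b1159]

theorem cert_boxes28 : ∀ x ∈ checkedBoxes28, Cert cfg x ids :=
  (List.forall_mem_cons.2 ⟨cert1120, (List.forall_mem_cons.2 ⟨cert1121, (List.forall_mem_cons.2 ⟨cert1122, (List.forall_mem_cons.2 ⟨cert1123, (List.forall_mem_cons.2 ⟨cert1124, (List.forall_mem_cons.2 ⟨cert1125, (List.forall_mem_cons.2 ⟨cert1126, (List.forall_mem_cons.2 ⟨cert1127, (List.forall_mem_cons.2 ⟨cert1128, (List.forall_mem_cons.2 ⟨cert1129, (List.forall_mem_cons.2 ⟨cert1130, (List.forall_mem_cons.2 ⟨cert1131, (List.forall_mem_cons.2 ⟨cert1132, (List.forall_mem_cons.2 ⟨cert1133, (List.forall_mem_cons.2 ⟨cert1134, (List.forall_mem_cons.2 ⟨cert1135, (List.forall_mem_cons.2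 ⟨cert1136, (List.forall_mem_cons.2 ⟨cert1137, (List.forall_mem_cons.2 ⟨cert1138, (List.forall_mem_cons.2 ⟨cert1139, (List.forall_mem_cons.2 ⟨cert1140, (List.forall_mem_cons.2 ⟨cert1141, (List.forall_mem_cons.2 ⟨cert1142, (List.forall_mem_cons.2 ⟨cert1143, (List.forall_mem_cons.2 ⟨cert1144, (List.forall_mem_cons.2 ⟨cert1145, (List.forall_mem_cons.2 ⟨cert1146, (List.forall_mem_cons.2 ⟨cert1147, (List.forall_mem_cons.2 ⟨cert1148, (List.forall_mem_cons.2 ⟨cert1149, (List.forall_mem_cons.2 ⟨cert1150, (List.forall_mem_cons.2 ⟨cert1151, (List.forall_mem_cons.2 ⟨cert1152, (List.forall_mem_cons.2 ⟨cert1153, (List.forall_mem_cons.2 ⟨cert1154, (List.forall_mem_cons.2 ⟨cert1155, (List.forall_mem_cons.2 ⟨cert1156, (List.forall_mem_cons.2 ⟨cert1157, (List.forall_mem_cons.2 ⟨cert1158, (List.forall_mem_cons.2 ⟨cert1159, (fun _ h => absurd h List.not_mem_nil)⟩)⟩)⟩)⟩)⟩)⟩)⟩)⟩)⟩)⟩)⟩)⟩)⟩)⟩)⟩)⟩)⟩)⟩)⟩)⟩)⟩)⟩)⟩)⟩)⟩)⟩)⟩)⟩)⟩)⟩)⟩)⟩)⟩)⟩)⟩)⟩)⟩)⟩)⟩)⟩)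

/-- Checked boxes. -/
noncomputable def checkedBoxes29 : List Bx :=
  [b1160, b1161, b1162, b1163, b1164, b1165, b1166, b1167, b1168, b1169, b1170, b1171, b1172, b1173, b1174, b1175, b1176, b1177, b1178, b1179, b1180, b1181, b1182, b1183, b1184, b1185, b1186, b1187, b1188, b1189, b1190, b1191, b1192, b1193, b1194, b1195, b1196, b1197, b1198, b1199]

theorem cert_boxes29 : ∀ x ∈ checkedBoxes29, Cert cfg x ids :=
  (List.forall_mem_cons.2 ⟨cert1160, (List.forall_mem_cons.2 ⟨cert1161, (List.forall_mem_cons.2 ⟨cert1162, (List.forall_mem_cons.2 ⟨cert1163, (List.forall_mem_cons.2 ⟨cert1164, (List.forall_mem_cons.2 ⟨cert1165, (List.forall_mem_cons.2 ⟨cert1166, (List.forall_mem_cons.2 ⟨cert1167, (List.forall_mem_cons.2 ⟨cert1168, (List.forall_mem_cons.2 ⟨cert1169, (List.forall_mem_cons.2 ⟨cert1170, (List.forall_mem_cons.2 ⟨cert1171, (List.forall_mem_cons.2 ⟨cert1172, (List.forall_mem_cons.2 ⟨cert1173, (List.forall_mem_cons.2 ⟨cert1174, (List.forall_mem_cons.2 ⟨cert1175, (List.forall_mem_cons.2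 ⟨cert1176, (List.forall_mem_cons.2 ⟨cert1177, (List.forall_mem_cons.2 ⟨cert1178, (List.forall_mem_cons.2 ⟨cert1179, (List.forall_mem_cons.2 ⟨cert1180, (List.forall_mem_cons.2 ⟨cert1181, (List.forall_mem_cons.2 ⟨cert1182, (List.forall_mem_cons.2 ⟨cert1183, (List.forall_mem_cons.2 ⟨cert1184, (List.forall_mem_cons.2 ⟨cert1185, (List.forall_mem_cons.2 ⟨cert1186, (List.forall_mem_cons.2 ⟨cert1187, (List.forall_mem_cons.2 ⟨cert1188, (List.forall_mem_cons.2 ⟨cert1189, (List.forall_mem_cons.2 ⟨cert1190, (List.forall_mem_cons.2 ⟨cert1191, (List.forall_mem_cons.2 ⟨cert1192, (List.forall_mem_cons.2 ⟨cert1193, (List.forall_mem_cons.2 ⟨cert1194, (List.forall_mem_cons.2 ⟨cert1195, (List.forall_mem_cons.2 ⟨cert1196, (List.forall_mem_cons.2 ⟨cert1197, (List.forall_mem_cons.2 ⟨cert1198, (List.forall_mem_cons.2 ⟨cert1199, (fun _ h => absurd h List.not_mem_nil)⟩)⟩)⟩)⟩)⟩)⟩)⟩)⟩)⟩)⟩)⟩)⟩)⟩)⟩)⟩)⟩)⟩)⟩)⟩)⟩)⟩)⟩)⟩)⟩)⟩)⟩)⟩)⟩)⟩)⟩)⟩)⟩)⟩)⟩)⟩)⟩)⟩)⟩)⟩)⟩)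

/-- Checked boxes. -/
noncomputable def checkedBoxes30 : List Bx :=
  [b1200, b1201, b1202, b1203, b1204, b1205, b1206, b1207, b1208, b1209, b1210, b1211, b1212, b1213, b1214, b1215, b1216, b1217, b1218, b1219, b1220, b1221, b1222, b1223, b1224, b1225, b1226, b1227, b1228, b1229, b1230, b1231, b1232, b1233, b1234, b1235, b1236, b1237, b1238, b1239]

theorem cert_boxes30 : ∀ x ∈ checkedBoxes30, Cert cfg x ids :=
  (List.forall_mem_cons.2 ⟨cert1200, (List.forall_mem_cons.2 ⟨cert1201, (List.forall_mem_cons.2 ⟨cert1202, (List.forall_mem_cons.2 ⟨cert1203, (List.forall_mem_cons.2 ⟨cert1204, (List.forall_mem_cons.2 ⟨cert1205, (List.forall_mem_cons.2 ⟨cert1206, (List.forall_mem_cons.2 ⟨cert1207, (List.forall_mem_cons.2 ⟨cert1208, (List.forall_mem_cons.2 ⟨cert1209, (List.forall_mem_cons.2 ⟨cert1210, (List.forall_mem_cons.2 ⟨cert1211, (List.forall_mem_cons.2 ⟨cert1212, (List.forall_mem_cons.2 ⟨cert1213, (List.forall_mem_cons.2 ⟨cert1214, (List.forall_mem_cons.2 ⟨cert1215, (List.forall_mem_cons.2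 ⟨cert1216, (List.forall_mem_cons.2 ⟨cert1217, (List.forall_mem_cons.2 ⟨cert1218, (List.forall_mem_cons.2 ⟨cert1219, (List.forall_mem_cons.2 ⟨cert1220, (List.forall_mem_cons.2 ⟨cert1221, (List.forall_mem_cons.2 ⟨cert1222, (List.forall_mem_cons.2 ⟨cert1223, (List.forall_mem_cons.2 ⟨cert1224, (List.forall_mem_cons.2 ⟨cert1225, (List.forall_mem_cons.2 ⟨cert1226, (List.forall_mem_cons.2 ⟨cert1227, (List.forall_mem_cons.2 ⟨cert1228, (List.forall_mem_cons.2 ⟨cert1229, (List.forall_mem_cons.2 ⟨cert1230, (List.forall_mem_cons.2 ⟨cert1231, (List.forall_mem_cons.2 ⟨cert1232, (List.forall_mem_cons.2 ⟨cert1233, (List.forall_mem_cons.2 ⟨cert1234, (List.forall_mem_cons.2 ⟨cert1235, (List.forall_mem_cons.2 ⟨cert1236, (List.forall_mem_cons.2 ⟨cert1237, (List.forall_mem_cons.2 ⟨cert1238, (List.forall_mem_cons.2 ⟨cert1239, (fun _ h => absurd h List.not_mem_nil)⟩)⟩)⟩)⟩)⟩)⟩)⟩)⟩)⟩)⟩)⟩)⟩)⟩)⟩)⟩)⟩)⟩)⟩)⟩)⟩)⟩)⟩)⟩)⟩)⟩)⟩)⟩)⟩)⟩)⟩)⟩)⟩)⟩)⟩)⟩)⟩)⟩)⟩)⟩)⟩)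

/-- Checked boxes. -/
noncomputable def checkedBoxes31 : List Bx :=
  [b1240, b1241, b1242, b1243, b1244, b1245, b1246, b1247, b1248, b1249, b1250, b1251, b1252, b1253, b1254, b1255, b1256, b1257, b1258, b1259, b1260, b1261, b1262, b1263, b1264, b1265, b1266, b1267, b1268, b1269, b1270, b1271, b1272, b1273, b1274, b1275, b1276, b1277, b1278, b1279]

theorem cert_boxes31 : ∀ x ∈ checkedBoxes31, Cert cfg x ids :=
  (List.forall_mem_cons.2 ⟨cert1240, (List.forall_mem_cons.2 ⟨cert1241, (List.forall_mem_cons.2 ⟨cert1242, (List.forall_mem_cons.2 ⟨cert1243, (List.forall_mem_cons.2 ⟨cert1244, (List.forall_mem_cons.2 ⟨cert1245, (List.forall_mem_cons.2 ⟨cert1246, (List.forall_mem_cons.2 ⟨cert1247, (List.forall_mem_cons.2 ⟨cert1248, (List.forall_mem_cons.2 ⟨cert1249, (List.forall_mem_cons.2 ⟨cert1250, (List.forall_mem_cons.2 ⟨cert1251, (List.forall_mem_cons.2 ⟨cert1252, (List.forall_mem_cons.2 ⟨cert1253, (List.forall_mem_cons.2 ⟨cert1254, (List.forall_mem_cons.2 ⟨cert1255, (List.forall_mem_cons.2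 ⟨cert1256, (List.forall_mem_cons.2 ⟨cert1257, (List.forall_mem_cons.2 ⟨cert1258, (List.forall_mem_cons.2 ⟨cert1259, (List.forall_mem_cons.2 ⟨cert1260, (List.forall_mem_cons.2 ⟨cert1261, (List.forall_mem_cons.2 ⟨cert1262, (List.forall_mem_cons.2 ⟨cert1263, (List.forall_mem_cons.2 ⟨cert1264, (List.forall_mem_cons.2 ⟨cert1265, (List.forall_mem_cons.2 ⟨cert1266, (List.forall_mem_cons.2 ⟨cert1267, (List.forall_mem_cons.2 ⟨cert1268, (List.forall_mem_cons.2 ⟨cert1269, (List.forall_mem_cons.2 ⟨cert1270, (List.forall_mem_cons.2 ⟨cert1271, (List.forall_mem_cons.2 ⟨cert1272, (List.forall_mem_cons.2 ⟨cert1273, (List.forall_mem_cons.2 ⟨cert1274, (List.forall_mem_cons.2 ⟨cert1275, (List.forall_mem_cons.2 ⟨cert1276, (List.forall_mem_cons.2 ⟨cert1277, (List.forall_mem_cons.2 ⟨cert1278, (List.forall_mem_cons.2 ⟨cert1279, (fun _ h => absurd h List.not_mem_nil)⟩)⟩)⟩)⟩)⟩)⟩)⟩)⟩)⟩)⟩)⟩)⟩)⟩)⟩)⟩)⟩)⟩)⟩)⟩)⟩)⟩)⟩)⟩)⟩)⟩)⟩)⟩)⟩)⟩)⟩)⟩)⟩)⟩)⟩)⟩)⟩)⟩)⟩)⟩)⟩)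

/-- Checked boxes. -/
noncomputable def checkedBoxes32 : List Bx :=
  [b1280, b1281, b1282, b1283, b1284, b1285, b1286, b1287, b1288, b1289, b1290, b1291, b1292, b1293, b1294, b1295, b1296, b1297, b1298, b1299, b1300, b1301, b1302, b1303, b1304, b1305, b1306, b1307, b1308, b1309, b1310, b1311, b1312, b1313, b1314, b1315, b1316, b1317, b1318, b1319]

theorem cert_boxes32 : ∀ x ∈ checkedBoxes32, Cert cfg x ids :=
  (List.forall_mem_cons.2 ⟨cert1280, (List.forall_mem_cons.2 ⟨cert1281, (List.forall_mem_cons.2 ⟨cert1282, (List.forall_mem_cons.2 ⟨cert1283, (List.forall_mem_cons.2 ⟨cert1284, (List.forall_mem_cons.2 ⟨cert1285, (List.forall_mem_cons.2 ⟨cert1286, (List.forall_mem_cons.2 ⟨cert1287, (List.forall_mem_cons.2 ⟨cert1288, (List.forall_mem_cons.2 ⟨cert1289, (List.forall_mem_cons.2 ⟨cert1290, (List.forall_mem_cons.2 ⟨cert1291, (List.forall_mem_cons.2 ⟨cert1292, (List.forall_mem_cons.2 ⟨cert1293, (List.forall_mem_cons.2 ⟨cert1294, (List.forall_mem_cons.2 ⟨cert1295, (List.forall_mem_cons.2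 ⟨cert1296, (List.forall_mem_cons.2 ⟨cert1297, (List.forall_mem_cons.2 ⟨cert1298, (List.forall_mem_cons.2 ⟨cert1299, (List.forall_mem_cons.2 ⟨cert1300, (List.forall_mem_cons.2 ⟨cert1301, (List.forall_mem_cons.2 ⟨cert1302, (List.forall_mem_cons.2 ⟨cert1303, (List.forall_mem_cons.2 ⟨cert1304, (List.forall_mem_cons.2 ⟨cert1305, (List.forall_mem_cons.2 ⟨cert1306, (List.forall_mem_cons.2 ⟨cert1307, (List.forall_mem_cons.2 ⟨cert1308, (List.forall_mem_cons.2 ⟨cert1309, (List.forall_mem_cons.2 ⟨cert1310, (List.forall_mem_cons.2 ⟨cert1311, (List.forall_mem_cons.2 ⟨cert1312, (List.forall_mem_cons.2 ⟨cert1313, (List.forall_mem_cons.2 ⟨cert1314, (List.forall_mem_cons.2 ⟨cert1315, (List.forall_mem_cons.2 ⟨cert1316, (List.forall_mem_cons.2 ⟨cert1317, (List.forall_mem_cons.2 ⟨cert1318, (List.forall_mem_cons.2 ⟨cert1319, (fun _ h => absurd h List.not_mem_nil)⟩)⟩)⟩)⟩)⟩)⟩)⟩)⟩)⟩)⟩)⟩)⟩)⟩)⟩)⟩)⟩)⟩)⟩)⟩)⟩)⟩)⟩)⟩)⟩)⟩)⟩)⟩)⟩)⟩)⟩)⟩)⟩)⟩)⟩)⟩)⟩)⟩)⟩)⟩)⟩)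

/-- Checked boxes. -/
noncomputable def checkedBoxes33 : List Bx :=
  [b1320, b1321, b1322, b1323, b1324, b1325, b1326, b1327, b1328, b1329, b1330, b1331, b1332, b1333, b1334, b1335, b1336, b1337, b1338, b1339, b1340, b1341, b1342, b1343, b1344, b1345, b1346, b1347, b1348, b1349, b1350, b1351, b1352, b1353, b1354, b1355, b1356, b1357, b1358, b1359]

theorem cert_boxes33 : ∀ x ∈ checkedBoxes33, Cert cfg x ids :=
  (List.forall_mem_cons.2 ⟨cert1320, (List.forall_mem_cons.2 ⟨cert1321, (List.forall_mem_cons.2 ⟨cert1322, (List.forall_mem_cons.2 ⟨cert1323, (List.forall_mem_cons.2 ⟨cert1324, (List.forall_mem_cons.2 ⟨cert1325, (List.forall_mem_cons.2 ⟨cert1326, (List.forall_mem_cons.2 ⟨cert1327, (List.forall_mem_cons.2 ⟨cert1328, (List.forall_mem_cons.2 ⟨cert1329, (List.forall_mem_cons.2 ⟨cert1330, (List.forall_mem_cons.2 ⟨cert1331, (List.forall_mem_cons.2 ⟨cert1332, (List.forall_mem_cons.2 ⟨cert1333, (List.forall_mem_cons.2 ⟨cert1334, (List.forall_mem_cons.2 ⟨cert1335, (List.forall_mem_cons.2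 ⟨cert1336, (List.forall_mem_cons.2 ⟨cert1337, (List.forall_mem_cons.2 ⟨cert1338, (List.forall_mem_cons.2 ⟨cert1339, (List.forall_mem_cons.2 ⟨cert1340, (List.forall_mem_cons.2 ⟨cert1341, (List.forall_mem_cons.2 ⟨cert1342, (List.forall_mem_cons.2 ⟨cert1343, (List.forall_mem_cons.2 ⟨cert1344, (List.forall_mem_cons.2 ⟨cert1345, (List.forall_mem_cons.2 ⟨cert1346, (List.forall_mem_cons.2 ⟨cert1347, (List.forall_mem_cons.2 ⟨cert1348, (List.forall_mem_cons.2 ⟨cert1349, (List.forall_mem_cons.2 ⟨cert1350, (List.forall_mem_cons.2 ⟨cert1351, (List.forall_mem_cons.2 ⟨cert1352, (List.forall_mem_cons.2 ⟨cert1353, (List.forall_mem_cons.2 ⟨cert1354, (List.forall_mem_cons.2 ⟨cert1355, (List.forall_mem_cons.2 ⟨cert1356, (List.forall_mem_cons.2 ⟨cert1357, (List.forall_mem_cons.2 ⟨cert1358, (List.forall_mem_cons.2 ⟨cert1359, (fun _ h => absurd h List.not_mem_nil)⟩)⟩)⟩)⟩)⟩)⟩)⟩)⟩)⟩)⟩)⟩)⟩)⟩)⟩)⟩)⟩)⟩)⟩)⟩)⟩)⟩)⟩)⟩)⟩)⟩)⟩)⟩)⟩)⟩)⟩)⟩)⟩)⟩)⟩)⟩)⟩)⟩)⟩)⟩)⟩)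

/-- Checked boxes. -/
noncomputable def checkedBoxes34 : List Bx :=
  [b1360, b1361, b1362, b1363, b1364, b1365, b1366, b1367, b1368, b1369, b1370, b1371, b1372, b1373, b1374, b1375, b1376, b1377, b1378, b1379, b1380, b1381, b1382, b1383, b1384, b1385, b1386, b1387, b1388, b1389, b1390, b1391, b1392, b1393, b1394, b1395, b1396, b1397, b1398, b1399]

theorem cert_boxes34 : ∀ x ∈ checkedBoxes34, Cert cfg x ids :=
  (List.forall_mem_cons.2 ⟨cert1360, (List.forall_mem_cons.2 ⟨cert1361, (List.forall_mem_cons.2 ⟨cert1362, (List.forall_mem_cons.2 ⟨cert1363, (List.forall_mem_cons.2 ⟨cert1364, (List.forall_mem_cons.2 ⟨cert1365, (List.forall_mem_cons.2 ⟨cert1366, (List.forall_mem_cons.2 ⟨cert1367, (List.forall_mem_cons.2 ⟨cert1368, (List.forall_mem_cons.2 ⟨cert1369, (List.forall_mem_cons.2 ⟨cert1370, (List.forall_mem_cons.2 ⟨cert1371, (List.forall_mem_cons.2 ⟨cert1372, (List.forall_mem_cons.2 ⟨cert1373, (List.forall_mem_cons.2 ⟨cert1374, (List.forall_mem_cons.2 ⟨cert1375, (List.forall_mem_cons.2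 ⟨cert1376, (List.forall_mem_cons.2 ⟨cert1377, (List.forall_mem_cons.2 ⟨cert1378, (List.forall_mem_cons.2 ⟨cert1379, (List.forall_mem_cons.2 ⟨cert1380, (List.forall_mem_cons.2 ⟨cert1381, (List.forall_mem_cons.2 ⟨cert1382, (List.forall_mem_cons.2 ⟨cert1383, (List.forall_mem_cons.2 ⟨cert1384, (List.forall_mem_cons.2 ⟨cert1385, (List.forall_mem_cons.2 ⟨cert1386, (List.forall_mem_cons.2 ⟨cert1387, (List.forall_mem_cons.2 ⟨cert1388, (List.forall_mem_cons.2 ⟨cert1389, (List.forall_mem_cons.2 ⟨cert1390, (List.forall_mem_cons.2 ⟨cert1391, (List.forall_mem_cons.2 ⟨cert1392, (List.forall_mem_cons.2 ⟨cert1393, (List.forall_mem_cons.2 ⟨cert1394, (List.forall_mem_cons.2 ⟨cert1395, (List.forall_mem_cons.2 ⟨cert1396, (List.forall_mem_cons.2 ⟨cert1397, (List.forall_mem_cons.2 ⟨cert1398, (List.forall_mem_cons.2 ⟨cert1399, (fun _ h => absurd h List.not_mem_nil)⟩)⟩)⟩)⟩)⟩)⟩)⟩)⟩)⟩)⟩)⟩)⟩)⟩)⟩)⟩)⟩)⟩)⟩)⟩)⟩)⟩)⟩)⟩)⟩)⟩)⟩)⟩)⟩)⟩)⟩)⟩)⟩)⟩)⟩)⟩)⟩)⟩)⟩)⟩)⟩)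

/-- Checked boxes. -/
noncomputable def checkedBoxes35 : List Bx :=
  [b1400, b1401, b1402, b1403, b1404, b1405, b1406, b1407, b1408, b1409, b1410, b1411, b1412, b1413, b1414, b1415, b1416, b1417, b1418, b1419, b1420, b1421, b1422, b1423, b1424, b1425, b1426, b1427, b1428, b1429, b1430, b1431, b1432, b1433, b1434, b1435, b1436, b1437, b1438, b1439]

theorem cert_boxes35 : ∀ x ∈ checkedBoxes35, Cert cfg x ids :=
  (List.forall_mem_cons.2 ⟨cert1400, (List.forall_mem_cons.2 ⟨cert1401, (List.forall_mem_cons.2 ⟨cert1402, (List.forall_mem_cons.2 ⟨cert1403, (List.forall_mem_cons.2 ⟨cert1404, (List.forall_mem_cons.2 ⟨cert1405, (List.forall_mem_cons.2 ⟨cert1406, (List.forall_mem_cons.2 ⟨cert1407, (List.forall_mem_cons.2 ⟨cert1408, (List.forall_mem_cons.2 ⟨cert1409, (List.forall_mem_cons.2 ⟨cert1410, (List.forall_mem_cons.2 ⟨cert1411, (List.forall_mem_cons.2 ⟨cert1412, (List.forall_mem_cons.2 ⟨cert1413, (List.forall_mem_cons.2 ⟨cert1414, (List.forall_mem_cons.2 ⟨cert1415, (List.forall_mem_cons.2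 ⟨cert1416, (List.forall_mem_cons.2 ⟨cert1417, (List.forall_mem_cons.2 ⟨cert1418, (List.forall_mem_cons.2 ⟨cert1419, (List.forall_mem_cons.2 ⟨cert1420, (List.forall_mem_cons.2 ⟨cert1421, (List.forall_mem_cons.2 ⟨cert1422, (List.forall_mem_cons.2 ⟨cert1423, (List.forall_mem_cons.2 ⟨cert1424, (List.forall_mem_cons.2 ⟨cert1425, (List.forall_mem_cons.2 ⟨cert1426, (List.forall_mem_cons.2 ⟨cert1427, (List.forall_mem_cons.2 ⟨cert1428, (List.forall_mem_cons.2 ⟨cert1429, (List.forall_mem_cons.2 ⟨cert1430, (List.forall_mem_cons.2 ⟨cert1431, (List.forall_mem_cons.2 ⟨cert1432, (List.forall_mem_cons.2 ⟨cert1433, (List.forall_mem_cons.2 ⟨cert1434, (List.forall_mem_cons.2 ⟨cert1435, (List.forall_mem_cons.2 ⟨cert1436, (List.forall_mem_cons.2 ⟨cert1437, (List.forall_mem_cons.2 ⟨cert1438, (List.forall_mem_cons.2 ⟨cert1439, (fun _ h => absurd h List.not_mem_nil)⟩)⟩)⟩)⟩)⟩)⟩)⟩)⟩)⟩)⟩)⟩)⟩)⟩)⟩)⟩)⟩)⟩)⟩)⟩)⟩)⟩)⟩)⟩)⟩)⟩)⟩)⟩)⟩)⟩)⟩)⟩)⟩)⟩)⟩)⟩)⟩)⟩)⟩)⟩)⟩)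

/-- Checked boxes. -/
noncomputable def checkedBoxes36 : List Bx :=
  [b1440, b1441, b1442, b1443, b1444, b1445, b1446, b1447, b1448, b1449, b1450, b1451, b1452, b1453, b1454, b1455, b1456, b1457, b1458, b1459, b1460, b1461, b1462, b1463, b1464, b1465, b1466, b1467, b1468, b1469, b1470, b1471, b1472, b1473, b1474, b1475, b1476, b1477, b1478, b1479]

theorem cert_boxes36 : ∀ x ∈ checkedBoxes36, Cert cfg x ids :=
  (List.forall_mem_cons.2 ⟨cert1440, (List.forall_mem_cons.2 ⟨cert1441, (List.forall_mem_cons.2 ⟨cert1442, (List.forall_mem_cons.2 ⟨cert1443, (List.forall_mem_cons.2 ⟨cert1444, (List.forall_mem_cons.2 ⟨cert1445, (List.forall_mem_cons.2 ⟨cert1446, (List.forall_mem_cons.2 ⟨cert1447, (List.forall_mem_cons.2 ⟨cert1448, (List.forall_mem_cons.2 ⟨cert1449, (List.forall_mem_cons.2 ⟨cert1450, (List.forall_mem_cons.2 ⟨cert1451, (List.forall_mem_cons.2 ⟨cert1452, (List.forall_mem_cons.2 ⟨cert1453, (List.forall_mem_cons.2 ⟨cert1454, (List.forall_mem_cons.2 ⟨cert1455, (List.forall_mem_cons.2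 ⟨cert1456, (List.forall_mem_cons.2 ⟨cert1457, (List.forall_mem_cons.2 ⟨cert1458, (List.forall_mem_cons.2 ⟨cert1459, (List.forall_mem_cons.2 ⟨cert1460, (List.forall_mem_cons.2 ⟨cert1461, (List.forall_mem_cons.2 ⟨cert1462, (List.forall_mem_cons.2 ⟨cert1463, (List.forall_mem_cons.2 ⟨cert1464, (List.forall_mem_cons.2 ⟨cert1465, (List.forall_mem_cons.2 ⟨cert1466, (List.forall_mem_cons.2 ⟨cert1467, (List.forall_mem_cons.2 ⟨cert1468, (List.forall_mem_cons.2 ⟨cert1469, (List.forall_mem_cons.2 ⟨cert1470, (List.forall_mem_cons.2 ⟨cert1471, (List.forall_mem_cons.2 ⟨cert1472, (List.forall_mem_cons.2 ⟨cert1473, (List.forall_mem_cons.2 ⟨cert1474, (List.forall_mem_cons.2 ⟨cert1475, (List.forall_mem_cons.2 ⟨cert1476, (List.forall_mem_cons.2 ⟨cert1477, (List.forall_mem_cons.2 ⟨cert1478, (List.forall_mem_cons.2 ⟨cert1479, (fun _ h => absurd h List.not_mem_nil)⟩)⟩)⟩)⟩)⟩)⟩)⟩)⟩)⟩)⟩)⟩)⟩)⟩)⟩)⟩)⟩)⟩)⟩)⟩)⟩)⟩)⟩)⟩)⟩)⟩)⟩)⟩)⟩)⟩)⟩)⟩)⟩)⟩)⟩)⟩)⟩)⟩)⟩)⟩)⟩)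

/-- Checked boxes. -/
noncomputable def checkedBoxes37 : List Bx :=
  [b1480, b1481, b1482, b1483, b1484, b1485, b1486, b1487, b1488, b1489, b1490, b1491, b1492, b1493, b1494, b1495, b1496, b1497, b1498, b1499, b1500, b1501, b1502, b1503, b1504, b1505, b1506, b1507, b1508, b1509, b1510, b1511, b1512, b1513, b1514, b1515, b1516, b1517, b1518, b1519]

theorem cert_boxes37 : ∀ x ∈ checkedBoxes37, Cert cfg x ids :=
  (List.forall_mem_cons.2 ⟨cert1480, (List.forall_mem_cons.2 ⟨cert1481, (List.forall_mem_cons.2 ⟨cert1482, (List.forall_mem_cons.2 ⟨cert1483, (List.forall_mem_cons.2 ⟨cert1484, (List.forall_mem_cons.2 ⟨cert1485, (List.forall_mem_cons.2 ⟨cert1486, (List.forall_mem_cons.2 ⟨cert1487, (List.forall_mem_cons.2 ⟨cert1488, (List.forall_mem_cons.2 ⟨cert1489, (List.forall_mem_cons.2 ⟨cert1490, (List.forall_mem_cons.2 ⟨cert1491, (List.forall_mem_cons.2 ⟨cert1492, (List.forall_mem_cons.2 ⟨cert1493, (List.forall_mem_cons.2 ⟨cert1494, (List.forall_mem_cons.2 ⟨cert1495, (List.forall_mem_cons.2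 ⟨cert1496, (List.forall_mem_cons.2 ⟨cert1497, (List.forall_mem_cons.2 ⟨cert1498, (List.forall_mem_cons.2 ⟨cert1499, (List.forall_mem_cons.2 ⟨cert1500, (List.forall_mem_cons.2 ⟨cert1501, (List.forall_mem_cons.2 ⟨cert1502, (List.forall_mem_cons.2 ⟨cert1503, (List.forall_mem_cons.2 ⟨cert1504, (List.forall_mem_cons.2 ⟨cert1505, (List.forall_mem_cons.2 ⟨cert1506, (List.forall_mem_cons.2 ⟨cert1507, (List.forall_mem_cons.2 ⟨cert1508, (List.forall_mem_cons.2 ⟨cert1509, (List.forall_mem_cons.2 ⟨cert1510, (List.forall_mem_cons.2 ⟨cert1511, (List.forall_mem_cons.2 ⟨cert1512, (List.forall_mem_cons.2 ⟨cert1513, (List.forall_mem_cons.2 ⟨cert1514, (List.forall_mem_cons.2 ⟨cert1515, (List.forall_mem_cons.2 ⟨cert1516, (List.forall_mem_cons.2 ⟨cert1517, (List.forall_mem_cons.2 ⟨cert1518, (List.forall_mem_cons.2 ⟨cert1519, (fun _ h => absurd h List.not_mem_nil)⟩)⟩)⟩)⟩)⟩)⟩)⟩)⟩)⟩)⟩)⟩)⟩)⟩)⟩)⟩)⟩)⟩)⟩)⟩)⟩)⟩)⟩)⟩)⟩)⟩)⟩)⟩)⟩)⟩)⟩)⟩)⟩)⟩)⟩)⟩)⟩)⟩)⟩)⟩)⟩)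

/-- Checked boxes. -/
noncomputable def checkedBoxes38 : List Bx :=
  [b1520, b1521, b1522, b1523, b1524, b1525, b1526, b1527, b1528, b1529, b1530, b1531, b1532, b1533, b1534, b1535, b1536, b1537, b1538, b1539, b1540, b1541, b1542, b1543, b1544, b1545, b1546, b1547, b1548, b1549, b1550, b1551, b1552, b1553, b1554, b1555, b1556, b1557, b1558, b1559]

theorem cert_boxes38 : ∀ x ∈ checkedBoxes38, Cert cfg x ids :=
  (List.forall_mem_cons.2 ⟨cert1520, (List.forall_mem_cons.2 ⟨cert1521, (List.forall_mem_cons.2 ⟨cert1522, (List.forall_mem_cons.2 ⟨cert1523, (List.forall_mem_cons.2 ⟨cert1524, (List.forall_mem_cons.2 ⟨cert1525, (List.forall_mem_cons.2 ⟨cert1526, (List.forall_mem_cons.2 ⟨cert1527, (List.forall_mem_cons.2 ⟨cert1528, (List.forall_mem_cons.2 ⟨cert1529, (List.forall_mem_cons.2 ⟨cert1530, (List.forall_mem_cons.2 ⟨cert1531, (List.forall_mem_cons.2 ⟨cert1532, (List.forall_mem_cons.2 ⟨cert1533, (List.forall_mem_cons.2 ⟨cert1534, (List.forall_mem_cons.2 ⟨cert1535, (List.forall_mem_cons.2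 ⟨cert1536, (List.forall_mem_cons.2 ⟨cert1537, (List.forall_mem_cons.2 ⟨cert1538, (List.forall_mem_cons.2 ⟨cert1539, (List.forall_mem_cons.2 ⟨cert1540, (List.forall_mem_cons.2 ⟨cert1541, (List.forall_mem_cons.2 ⟨cert1542, (List.forall_mem_cons.2 ⟨cert1543, (List.forall_mem_cons.2 ⟨cert1544, (List.forall_mem_cons.2 ⟨cert1545, (List.forall_mem_cons.2 ⟨cert1546, (List.forall_mem_cons.2 ⟨cert1547, (List.forall_mem_cons.2 ⟨cert1548, (List.forall_mem_cons.2 ⟨cert1549, (List.forall_mem_cons.2 ⟨cert1550, (List.forall_mem_cons.2 ⟨cert1551, (List.forall_mem_cons.2 ⟨cert1552, (List.forall_mem_cons.2 ⟨cert1553, (List.forall_mem_cons.2 ⟨cert1554, (List.forall_mem_cons.2 ⟨cert1555, (List.forall_mem_cons.2 ⟨cert1556, (List.forall_mem_cons.2 ⟨cert1557, (List.forall_mem_cons.2 ⟨cert1558, (List.forall_mem_cons.2 ⟨cert1559, (fun _ h => absurd h List.not_mem_nil)⟩)⟩)⟩)⟩)⟩)⟩)⟩)⟩)⟩)⟩)⟩)⟩)⟩)⟩)⟩)⟩)⟩)⟩)⟩)⟩)⟩)⟩)⟩)⟩)⟩)⟩)⟩)⟩)⟩)⟩)⟩)⟩)⟩)⟩)⟩)⟩)⟩)⟩)⟩)⟩)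

/-- Checked boxes. -/
noncomputable def checkedBoxes39 : List Bx :=
  [b1560, b1561, b1562, b1563, b1564, b1565, b1566, b1567, b1568, b1569, b1570, b1571, b1572, b1573, b1574, b1575, b1576, b1577, b1578, b1579, b1580, b1581, b1582, b1583, b1584, b1585, b1586, b1587, b1588, b1589, b1590, b1591, b1592, b1593, b1594, b1595, b1596, b1597, b1598, b1599]

theorem cert_boxes39 : ∀ x ∈ checkedBoxes39, Cert cfg x ids :=
  (List.forall_mem_cons.2 ⟨cert1560, (List.forall_mem_cons.2 ⟨cert1561, (List.forall_mem_cons.2 ⟨cert1562, (List.forall_mem_cons.2 ⟨cert1563, (List.forall_mem_cons.2 ⟨cert1564, (List.forall_mem_cons.2 ⟨cert1565, (List.forall_mem_cons.2 ⟨cert1566, (List.forall_mem_cons.2 ⟨cert1567, (List.forall_mem_cons.2 ⟨cert1568, (List.forall_mem_cons.2 ⟨cert1569, (List.forall_mem_cons.2 ⟨cert1570, (List.forall_mem_cons.2 ⟨cert1571, (List.forall_mem_cons.2 ⟨cert1572, (List.forall_mem_cons.2 ⟨cert1573, (List.forall_mem_cons.2 ⟨cert1574, (List.forall_mem_cons.2 ⟨cert1575, (List.forall_mem_cons.2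 ⟨cert1576, (List.forall_mem_cons.2 ⟨cert1577, (List.forall_mem_cons.2 ⟨cert1578, (List.forall_mem_cons.2 ⟨cert1579, (List.forall_mem_cons.2 ⟨cert1580, (List.forall_mem_cons.2 ⟨cert1581, (List.forall_mem_cons.2 ⟨cert1582, (List.forall_mem_cons.2 ⟨cert1583, (List.forall_mem_cons.2 ⟨cert1584, (List.forall_mem_cons.2 ⟨cert1585, (List.forall_mem_cons.2 ⟨cert1586, (List.forall_mem_cons.2 ⟨cert1587, (List.forall_mem_cons.2 ⟨cert1588, (List.forall_mem_cons.2 ⟨cert1589, (List.forall_mem_cons.2 ⟨cert1590, (List.forall_mem_cons.2 ⟨cert1591, (List.forall_mem_cons.2 ⟨cert1592, (List.forall_mem_cons.2 ⟨cert1593, (List.forall_mem_cons.2 ⟨cert1594, (List.forall_mem_cons.2 ⟨cert1595, (List.forall_mem_cons.2 ⟨cert1596, (List.forall_mem_cons.2 ⟨cert1597, (List.forall_mem_cons.2 ⟨cert1598, (List.forall_mem_cons.2 ⟨cert1599, (fun _ h => absurd h List.not_mem_nil)⟩)⟩)⟩)⟩)⟩)⟩)⟩)⟩)⟩)⟩)⟩)⟩)⟩)⟩)⟩)⟩)⟩)⟩)⟩)⟩)⟩)⟩)⟩)⟩)⟩)⟩)⟩)⟩)⟩)⟩)⟩)⟩)⟩)⟩)⟩)⟩)⟩)⟩)⟩)⟩)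

/-- Checked boxes. -/
noncomputable def checkedBoxes40 : List Bx :=
  [b1600, b1601, b1602, b1603, b1604, b1605, b1606, b1607, b1608, b1609, b1610, b1611, b1612, b1613, b1614, b1615, b1616, b1617, b1618, b1619, b1620, b1621, b1622, b1623, b1624, b1625, b1626, b1627, b1628, b1629, b1630, b1631, b1632, b1633, b1634, b1635, b1636, b1637, b1638, b1639]

theorem cert_boxes40 : ∀ x ∈ checkedBoxes40, Cert cfg x ids :=
  (List.forall_mem_cons.2 ⟨cert1600, (List.forall_mem_cons.2 ⟨cert1601, (List.forall_mem_cons.2 ⟨cert1602, (List.forall_mem_cons.2 ⟨cert1603, (List.forall_mem_cons.2 ⟨cert1604, (List.forall_mem_cons.2 ⟨cert1605, (List.forall_mem_cons.2 ⟨cert1606, (List.forall_mem_cons.2 ⟨cert1607, (List.forall_mem_cons.2 ⟨cert1608, (List.forall_mem_cons.2 ⟨cert1609, (List.forall_mem_cons.2 ⟨cert1610, (List.forall_mem_cons.2 ⟨cert1611, (List.forall_mem_cons.2 ⟨cert1612, (List.forall_mem_cons.2 ⟨cert1613, (List.forall_mem_cons.2 ⟨cert1614, (List.forall_mem_cons.2 ⟨cert1615, (List.forall_mem_cons.2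 ⟨cert1616, (List.forall_mem_cons.2 ⟨cert1617, (List.forall_mem_cons.2 ⟨cert1618, (List.forall_mem_cons.2 ⟨cert1619, (List.forall_mem_cons.2 ⟨cert1620, (List.forall_mem_cons.2 ⟨cert1621, (List.forall_mem_cons.2 ⟨cert1622, (List.forall_mem_cons.2 ⟨cert1623, (List.forall_mem_cons.2 ⟨cert1624, (List.forall_mem_cons.2 ⟨cert1625, (List.forall_mem_cons.2 ⟨cert1626, (List.forall_mem_cons.2 ⟨cert1627, (List.forall_mem_cons.2 ⟨cert1628, (List.forall_mem_cons.2 ⟨cert1629, (List.forall_mem_cons.2 ⟨cert1630, (List.forall_mem_cons.2 ⟨cert1631, (List.forall_mem_cons.2 ⟨cert1632, (List.forall_mem_cons.2 ⟨cert1633, (List.forall_mem_cons.2 ⟨cert1634, (List.forall_mem_cons.2 ⟨cert1635, (List.forall_mem_cons.2 ⟨cert1636, (List.forall_mem_cons.2 ⟨cert1637, (List.forall_mem_cons.2 ⟨cert1638, (List.forall_mem_cons.2 ⟨cert1639, (fun _ h => absurd h List.not_mem_nil)⟩)⟩)⟩)⟩)⟩)⟩)⟩)⟩)⟩)⟩)⟩)⟩)⟩)⟩)⟩)⟩)⟩)⟩)⟩)⟩)⟩)⟩)⟩)⟩)⟩)⟩)⟩)⟩)⟩)⟩)⟩)⟩)⟩)⟩)⟩)⟩)⟩)⟩)⟩)⟩)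

/-- Checked boxes. -/
noncomputable def checkedBoxes41 : List Bx :=
  [b1640, b1641, b1642, b1643, b1644, b1645, b1646, b1647, b1648, b1649, b1650, b1651, b1652, b1653, b1654, b1655, b1656, b1657, b1658, b1659, b1660, b1661, b1662, b1663, b1664, b1665, b1666, b1667, b1668, b1669, b1670, b1671, b1672, b1673, b1674, b1675, b1676, b1677, b1678, b1679]

theorem cert_boxes41 : ∀ x ∈ checkedBoxes41, Cert cfg x ids :=
  (List.forall_mem_cons.2 ⟨cert1640, (List.forall_mem_cons.2 ⟨cert1641, (List.forall_mem_cons.2 ⟨cert1642, (List.forall_mem_cons.2 ⟨cert1643, (List.forall_mem_cons.2 ⟨cert1644, (List.forall_mem_cons.2 ⟨cert1645, (List.forall_mem_cons.2 ⟨cert1646, (List.forall_mem_cons.2 ⟨cert1647, (List.forall_mem_cons.2 ⟨cert1648, (List.forall_mem_cons.2 ⟨cert1649, (List.forall_mem_cons.2 ⟨cert1650, (List.forall_mem_cons.2 ⟨cert1651, (List.forall_mem_cons.2 ⟨cert1652, (List.forall_mem_cons.2 ⟨cert1653, (List.forall_mem_cons.2 ⟨cert1654, (List.forall_mem_cons.2 ⟨cert1655, (List.forall_mem_cons.2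 ⟨cert1656, (List.forall_mem_cons.2 ⟨cert1657, (List.forall_mem_cons.2 ⟨cert1658, (List.forall_mem_cons.2 ⟨cert1659, (List.forall_mem_cons.2 ⟨cert1660, (List.forall_mem_cons.2 ⟨cert1661, (List.forall_mem_cons.2 ⟨cert1662, (List.forall_mem_cons.2 ⟨cert1663, (List.forall_mem_cons.2 ⟨cert1664, (List.forall_mem_cons.2 ⟨cert1665, (List.forall_mem_cons.2 ⟨cert1666, (List.forall_mem_cons.2 ⟨cert1667, (List.forall_mem_cons.2 ⟨cert1668, (List.forall_mem_cons.2 ⟨cert1669, (List.forall_mem_cons.2 ⟨cert1670, (List.forall_mem_cons.2 ⟨cert1671, (List.forall_mem_cons.2 ⟨cert1672, (List.forall_mem_cons.2 ⟨cert1673, (List.forall_mem_cons.2 ⟨cert1674, (List.forall_mem_cons.2 ⟨cert1675, (List.forall_mem_cons.2 ⟨cert1676, (List.forall_mem_cons.2 ⟨cert1677, (List.forall_mem_cons.2 ⟨cert1678, (List.forall_mem_cons.2 ⟨cert1679, (fun _ h => absurd h List.not_mem_nil)⟩)⟩)⟩)⟩)⟩)⟩)⟩)⟩)⟩)⟩)⟩)⟩)⟩)⟩)⟩)⟩)⟩)⟩)⟩)⟩)⟩)⟩)⟩)⟩)⟩)⟩)⟩)⟩)⟩)⟩)⟩)⟩)⟩)⟩)⟩)⟩)⟩)⟩)⟩)⟩)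

/-- Checked boxes. -/
noncomputable def checkedBoxes42 : List Bx :=
  [b1680, b1681, b1682, b1683, b1684, b1685, b1686, b1687, b1688, b1689, b1690, b1691, b1692, b1693, b1694, b1695, b1696, b1697, b1698, b1699, b1700, b1701, b1702, b1703, b1704, b1705, b1706, b1707, b1708, b1709, b1710, b1711, b1712, b1713, b1714, b1715, b1716, b1717, b1718, b1719]

theorem cert_boxes42 : ∀ x ∈ checkedBoxes42, Cert cfg x ids :=
  (List.forall_mem_cons.2 ⟨cert1680, (List.forall_mem_cons.2 ⟨cert1681, (List.forall_mem_cons.2 ⟨cert1682, (List.forall_mem_cons.2 ⟨cert1683, (List.forall_mem_cons.2 ⟨cert1684, (List.forall_mem_cons.2 ⟨cert1685, (List.forall_mem_cons.2 ⟨cert1686, (List.forall_mem_cons.2 ⟨cert1687, (List.forall_mem_cons.2 ⟨cert1688, (List.forall_mem_cons.2 ⟨cert1689, (List.forall_mem_cons.2 ⟨cert1690, (List.forall_mem_cons.2 ⟨cert1691, (List.forall_mem_cons.2 ⟨cert1692, (List.forall_mem_cons.2 ⟨cert1693, (List.forall_mem_cons.2 ⟨cert1694, (List.forall_mem_cons.2 ⟨cert1695, (List.forall_mem_cons.2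 ⟨cert1696, (List.forall_mem_cons.2 ⟨cert1697, (List.forall_mem_cons.2 ⟨cert1698, (List.forall_mem_cons.2 ⟨cert1699, (List.forall_mem_cons.2 ⟨cert1700, (List.forall_mem_cons.2 ⟨cert1701, (List.forall_mem_cons.2 ⟨cert1702, (List.forall_mem_cons.2 ⟨cert1703, (List.forall_mem_cons.2 ⟨cert1704, (List.forall_mem_cons.2 ⟨cert1705, (List.forall_mem_cons.2 ⟨cert1706, (List.forall_mem_cons.2 ⟨cert1707, (List.forall_mem_cons.2 ⟨cert1708, (List.forall_mem_cons.2 ⟨cert1709, (List.forall_mem_cons.2 ⟨cert1710, (List.forall_mem_cons.2 ⟨cert1711, (List.forall_mem_cons.2 ⟨cert1712, (List.forall_mem_cons.2 ⟨cert1713, (List.forall_mem_cons.2 ⟨cert1714, (List.forall_mem_cons.2 ⟨cert1715, (List.forall_mem_cons.2 ⟨cert1716, (List.forall_mem_cons.2 ⟨cert1717, (List.forall_mem_cons.2 ⟨cert1718, (List.forall_mem_cons.2 ⟨cert1719, (fun _ h => absurd h List.not_mem_nil)⟩)⟩)⟩)⟩)⟩)⟩)⟩)⟩)⟩)⟩)⟩)⟩)⟩)⟩)⟩)⟩)⟩)⟩)⟩)⟩)⟩)⟩)⟩)⟩)⟩)⟩)⟩)⟩)⟩)⟩)⟩)⟩)⟩)⟩)⟩)⟩)⟩)⟩)⟩)⟩)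

/-- Checked boxes. -/
noncomputable def checkedBoxes43 : List Bx :=
  [b1720, b1721, b1722, b1723, b1724, b1725, b1726, b1727, b1728, b1729, b1730, b1731, b1732, b1733, b1734, b1735, b1736, b1737, b1738, b1739, b1740, b1741, b1742, b1743, b1744, b1745, b1746, b1747, b1748, b1749, b1750, b1751, b1752, b1753, b1754, b1755, b1756, b1757, b1758, b1759]

theorem cert_boxes43 : ∀ x ∈ checkedBoxes43, Cert cfg x ids :=
  (List.forall_mem_cons.2 ⟨cert1720, (List.forall_mem_cons.2 ⟨cert1721, (List.forall_mem_cons.2 ⟨cert1722, (List.forall_mem_cons.2 ⟨cert1723, (List.forall_mem_cons.2 ⟨cert1724, (List.forall_mem_cons.2 ⟨cert1725, (List.forall_mem_cons.2 ⟨cert1726, (List.forall_mem_cons.2 ⟨cert1727, (List.forall_mem_cons.2 ⟨cert1728, (List.forall_mem_cons.2 ⟨cert1729, (List.forall_mem_cons.2 ⟨cert1730, (List.forall_mem_cons.2 ⟨cert1731, (List.forall_mem_cons.2 ⟨cert1732, (List.forall_mem_cons.2 ⟨cert1733, (List.forall_mem_cons.2 ⟨cert1734, (List.forall_mem_cons.2 ⟨cert1735, (List.forall_mem_cons.2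 ⟨cert1736, (List.forall_mem_cons.2 ⟨cert1737, (List.forall_mem_cons.2 ⟨cert1738, (List.forall_mem_cons.2 ⟨cert1739, (List.forall_mem_cons.2 ⟨cert1740, (List.forall_mem_cons.2 ⟨cert1741, (List.forall_mem_cons.2 ⟨cert1742, (List.forall_mem_cons.2 ⟨cert1743, (List.forall_mem_cons.2 ⟨cert1744, (List.forall_mem_cons.2 ⟨cert1745, (List.forall_mem_cons.2 ⟨cert1746, (List.forall_mem_cons.2 ⟨cert1747, (List.forall_mem_cons.2 ⟨cert1748, (List.forall_mem_cons.2 ⟨cert1749, (List.forall_mem_cons.2 ⟨cert1750, (List.forall_mem_cons.2 ⟨cert1751, (List.forall_mem_cons.2 ⟨cert1752, (List.forall_mem_cons.2 ⟨cert1753, (List.forall_mem_cons.2 ⟨cert1754, (List.forall_mem_cons.2 ⟨cert1755, (List.forall_mem_cons.2 ⟨cert1756, (List.forall_mem_cons.2 ⟨cert1757, (List.forall_mem_cons.2 ⟨cert1758, (List.forall_mem_cons.2 ⟨cert1759, (fun _ h => absurd h List.not_mem_nil)⟩)⟩)⟩)⟩)⟩)⟩)⟩)⟩)⟩)⟩)⟩)⟩)⟩)⟩)⟩)⟩)⟩)⟩)⟩)⟩)⟩)⟩)⟩)⟩)⟩)⟩)⟩)⟩)⟩)⟩)⟩)⟩)⟩)⟩)⟩)⟩)⟩)⟩)⟩)⟩)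

/-- Checked boxes. -/
noncomputable def checkedBoxes44 : List Bx :=
  [b1760, b1761, b1762, b1763, b1764, b1765, b1766, b1767, b1768, b1769, b1770, b1771, b1772, b1773, b1774, b1775, b1776, b1777, b1778, b1779, b1780, b1781, b1782, b1783, b1784, b1785, b1786, b1787, b1788, b1789, b1790, b1791, b1792, b1793, b1794, b1795, b1796, b1797, b1798, b1799]

theorem cert_boxes44 : ∀ x ∈ checkedBoxes44, Cert cfg x ids :=
  (List.forall_mem_cons.2 ⟨cert1760, (List.forall_mem_cons.2 ⟨cert1761, (List.forall_mem_cons.2 ⟨cert1762, (List.forall_mem_cons.2 ⟨cert1763, (List.forall_mem_cons.2 ⟨cert1764, (List.forall_mem_cons.2 ⟨cert1765, (List.forall_mem_cons.2 ⟨cert1766, (List.forall_mem_cons.2 ⟨cert1767, (List.forall_mem_cons.2 ⟨cert1768, (List.forall_mem_cons.2 ⟨cert1769, (List.forall_mem_cons.2 ⟨cert1770, (List.forall_mem_cons.2 ⟨cert1771, (List.forall_mem_cons.2 ⟨cert1772, (List.forall_mem_cons.2 ⟨cert1773, (List.forall_mem_cons.2 ⟨cert1774, (List.forall_mem_cons.2 ⟨cert1775, (List.forall_mem_cons.2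 ⟨cert1776, (List.forall_mem_cons.2 ⟨cert1777, (List.forall_mem_cons.2 ⟨cert1778, (List.forall_mem_cons.2 ⟨cert1779, (List.forall_mem_cons.2 ⟨cert1780, (List.forall_mem_cons.2 ⟨cert1781, (List.forall_mem_cons.2 ⟨cert1782, (List.forall_mem_cons.2 ⟨cert1783, (List.forall_mem_cons.2 ⟨cert1784, (List.forall_mem_cons.2 ⟨cert1785, (List.forall_mem_cons.2 ⟨cert1786, (List.forall_mem_cons.2 ⟨cert1787, (List.forall_mem_cons.2 ⟨cert1788, (List.forall_mem_cons.2 ⟨cert1789, (List.forall_mem_cons.2 ⟨cert1790, (List.forall_mem_cons.2 ⟨cert1791, (List.forall_mem_cons.2 ⟨cert1792, (List.forall_mem_cons.2 ⟨cert1793, (List.forall_mem_cons.2 ⟨cert1794, (List.forall_mem_cons.2 ⟨cert1795, (List.forall_mem_cons.2 ⟨cert1796, (List.forall_mem_cons.2 ⟨cert1797, (List.forall_mem_cons.2 ⟨cert1798, (List.forall_mem_cons.2 ⟨cert1799, (fun _ h => absurd h List.not_mem_nil)⟩)⟩)⟩)⟩)⟩)⟩)⟩)⟩)⟩)⟩)⟩)⟩)⟩)⟩)⟩)⟩)⟩)⟩)⟩)⟩)⟩)⟩)⟩)⟩)⟩)⟩)⟩)⟩)⟩)⟩)⟩)⟩)⟩)⟩)⟩)⟩)⟩)⟩)⟩)⟩)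

/-- Checked boxes. -/
noncomputable def checkedBoxes45 : List Bx :=
  [b1800, b1801, b1802, b1803, b1804, b1805, b1806, b1807, b1808, b1809, b1810, b1811, b1812, b1813, b1814, b1815, b1816, b1817, b1818, b1819, b1820, b1821, b1822, b1823, b1824, b1825, b1826, b1827, b1828, b1829, b1830, b1831, b1832, b1833, b1834, b1835, b1836, b1837, b1838, b1839]

theorem cert_boxes45 : ∀ x ∈ checkedBoxes45, Cert cfg x ids :=
  (List.forall_mem_cons.2 ⟨cert1800, (List.forall_mem_cons.2 ⟨cert1801, (List.forall_mem_cons.2 ⟨cert1802, (List.forall_mem_cons.2 ⟨cert1803, (List.forall_mem_cons.2 ⟨cert1804, (List.forall_mem_cons.2 ⟨cert1805, (List.forall_mem_cons.2 ⟨cert1806, (List.forall_mem_cons.2 ⟨cert1807, (List.forall_mem_cons.2 ⟨cert1808, (List.forall_mem_cons.2 ⟨cert1809, (List.forall_mem_cons.2 ⟨cert1810, (List.forall_mem_cons.2 ⟨cert1811, (List.forall_mem_cons.2 ⟨cert1812, (List.forall_mem_cons.2 ⟨cert1813, (List.forall_mem_cons.2 ⟨cert1814, (List.forall_mem_cons.2 ⟨cert1815, (List.forall_mem_cons.2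 ⟨cert1816, (List.forall_mem_cons.2 ⟨cert1817, (List.forall_mem_cons.2 ⟨cert1818, (List.forall_mem_cons.2 ⟨cert1819, (List.forall_mem_cons.2 ⟨cert1820, (List.forall_mem_cons.2 ⟨cert1821, (List.forall_mem_cons.2 ⟨cert1822, (List.forall_mem_cons.2 ⟨cert1823, (List.forall_mem_cons.2 ⟨cert1824, (List.forall_mem_cons.2 ⟨cert1825, (List.forall_mem_cons.2 ⟨cert1826, (List.forall_mem_cons.2 ⟨cert1827, (List.forall_mem_cons.2 ⟨cert1828, (List.forall_mem_cons.2 ⟨cert1829, (List.forall_mem_cons.2 ⟨cert1830, (List.forall_mem_cons.2 ⟨cert1831, (List.forall_mem_cons.2 ⟨cert1832, (List.forall_mem_cons.2 ⟨cert1833, (List.forall_mem_cons.2 ⟨cert1834, (List.forall_mem_cons.2 ⟨cert1835, (List.forall_mem_cons.2 ⟨cert1836, (List.forall_mem_cons.2 ⟨cert1837, (List.forall_mem_cons.2 ⟨cert1838, (List.forall_mem_cons.2 ⟨cert1839, (fun _ h => absurd h List.not_mem_nil)⟩)⟩)⟩)⟩)⟩)⟩)⟩)⟩)⟩)⟩)⟩)⟩)⟩)⟩)⟩)⟩)⟩)⟩)⟩)⟩)⟩)⟩)⟩)⟩)⟩)⟩)⟩)⟩)⟩)⟩)⟩)⟩)⟩)⟩)⟩)⟩)⟩)⟩)⟩)⟩)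

/-- Checked boxes. -/
noncomputable def checkedBoxes46 : List Bx :=
  [b1840, b1841, b1842, b1843, b1844, b1845, b1846, b1847, b1848, b1849, b1850, b1851, b1852, b1853, b1854, b1855, b1856, b1857, b1858, b1859, b1860, b1861, b1862, b1863, b1864, b1865, b1866, b1867, b1868, b1869, b1870, b1871, b1872, b1873, b1874, b1875, b1876, b1877, b1878, b1879]

theorem cert_boxes46 : ∀ x ∈ checkedBoxes46, Cert cfg x ids :=
  (List.forall_mem_cons.2 ⟨cert1840, (List.forall_mem_cons.2 ⟨cert1841, (List.forall_mem_cons.2 ⟨cert1842, (List.forall_mem_cons.2 ⟨cert1843, (List.forall_mem_cons.2 ⟨cert1844, (List.forall_mem_cons.2 ⟨cert1845, (List.forall_mem_cons.2 ⟨cert1846, (List.forall_mem_cons.2 ⟨cert1847, (List.forall_mem_cons.2 ⟨cert1848, (List.forall_mem_cons.2 ⟨cert1849, (List.forall_mem_cons.2 ⟨cert1850, (List.forall_mem_cons.2 ⟨cert1851, (List.forall_mem_cons.2 ⟨cert1852, (List.forall_mem_cons.2 ⟨cert1853, (List.forall_mem_cons.2 ⟨cert1854, (List.forall_mem_cons.2 ⟨cert1855, (List.forall_mem_cons.2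 ⟨cert1856, (List.forall_mem_cons.2 ⟨cert1857, (List.forall_mem_cons.2 ⟨cert1858, (List.forall_mem_cons.2 ⟨cert1859, (List.forall_mem_cons.2 ⟨cert1860, (List.forall_mem_cons.2 ⟨cert1861, (List.forall_mem_cons.2 ⟨cert1862, (List.forall_mem_cons.2 ⟨cert1863, (List.forall_mem_cons.2 ⟨cert1864, (List.forall_mem_cons.2 ⟨cert1865, (List.forall_mem_cons.2 ⟨cert1866, (List.forall_mem_cons.2 ⟨cert1867, (List.forall_mem_cons.2 ⟨cert1868, (List.forall_mem_cons.2 ⟨cert1869, (List.forall_mem_cons.2 ⟨cert1870, (List.forall_mem_cons.2 ⟨cert1871, (List.forall_mem_cons.2 ⟨cert1872, (List.forall_mem_cons.2 ⟨cert1873, (List.forall_mem_cons.2 ⟨cert1874, (List.forall_mem_cons.2 ⟨cert1875, (List.forall_mem_cons.2 ⟨cert1876, (List.forall_mem_cons.2 ⟨cert1877, (List.forall_mem_cons.2 ⟨cert1878, (List.forall_mem_cons.2 ⟨cert1879, (fun _ h => absurd h List.not_mem_nil)⟩)⟩)⟩)⟩)⟩)⟩)⟩)⟩)⟩)⟩)⟩)⟩)⟩)⟩)⟩)⟩)⟩)⟩)⟩)⟩)⟩)⟩)⟩)⟩)⟩)⟩)⟩)⟩)⟩)⟩)⟩)⟩)⟩)⟩)⟩)⟩)⟩)⟩)⟩)⟩)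

/-- Checked boxes. -/
noncomputable def checkedBoxes47 : List Bx :=
  [b1880, b1881, b1882, b1883, b1884, b1885, b1886, b1887, b1888, b1889, b1890, b1891, b1892, b1893, b1894, b1895, b1896, b1897, b1898, b1899, b1900, b1901, b1902, b1903, b1904, b1905, b1906, b1907, b1908, b1909, b1910, b1911, b1912, b1913, b1914, b1915, b1916, b1917, b1918, b1919]

theorem cert_boxes47 : ∀ x ∈ checkedBoxes47, Cert cfg x ids :=
  (List.forall_mem_cons.2 ⟨cert1880, (List.forall_mem_cons.2 ⟨cert1881, (List.forall_mem_cons.2 ⟨cert1882, (List.forall_mem_cons.2 ⟨cert1883, (List.forall_mem_cons.2 ⟨cert1884, (List.forall_mem_cons.2 ⟨cert1885, (List.forall_mem_cons.2 ⟨cert1886, (List.forall_mem_cons.2 ⟨cert1887, (List.forall_mem_cons.2 ⟨cert1888, (List.forall_mem_cons.2 ⟨cert1889, (List.forall_mem_cons.2 ⟨cert1890, (List.forall_mem_cons.2 ⟨cert1891, (List.forall_mem_cons.2 ⟨cert1892, (List.forall_mem_cons.2 ⟨cert1893, (List.forall_mem_cons.2 ⟨cert1894, (List.forall_mem_cons.2 ⟨cert1895, (List.forall_mem_cons.2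 ⟨cert1896, (List.forall_mem_cons.2 ⟨cert1897, (List.forall_mem_cons.2 ⟨cert1898, (List.forall_mem_cons.2 ⟨cert1899, (List.forall_mem_cons.2 ⟨cert1900, (List.forall_mem_cons.2 ⟨cert1901, (List.forall_mem_cons.2 ⟨cert1902, (List.forall_mem_cons.2 ⟨cert1903, (List.forall_mem_cons.2 ⟨cert1904, (List.forall_mem_cons.2 ⟨cert1905, (List.forall_mem_cons.2 ⟨cert1906, (List.forall_mem_cons.2 ⟨cert1907, (List.forall_mem_cons.2 ⟨cert1908, (List.forall_mem_cons.2 ⟨cert1909, (List.forall_mem_cons.2 ⟨cert1910, (List.forall_mem_cons.2 ⟨cert1911, (List.forall_mem_cons.2 ⟨cert1912, (List.forall_mem_cons.2 ⟨cert1913, (List.forall_mem_cons.2 ⟨cert1914, (List.forall_mem_cons.2 ⟨cert1915, (List.forall_mem_cons.2 ⟨cert1916, (List.forall_mem_cons.2 ⟨cert1917, (List.forall_mem_cons.2 ⟨cert1918, (List.forall_mem_cons.2 ⟨cert1919, (fun _ h => absurd h List.not_mem_nil)⟩)⟩)⟩)⟩)⟩)⟩)⟩)⟩)⟩)⟩)⟩)⟩)⟩)⟩)⟩)⟩)⟩)⟩)⟩)⟩)⟩)⟩)⟩)⟩)⟩)⟩)⟩)⟩)⟩)⟩)⟩)⟩)⟩)⟩)⟩)⟩)⟩)⟩)⟩)⟩)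

/-- Checked boxes. -/
noncomputable def checkedBoxes48 : List Bx :=
  [b1920, b1921, b1922, b1923, b1924, b1925, b1926, b1927, b1928, b1929, b1930, b1931, b1932, b1933, b1934, b1935, b1936, b1937, b1938, b1939, b1940, b1941, b1942, b1943, b1944, b1945, b1946, b1947, b1948, b1949, b1950, b1951, b1952, b1953, b1954, b1955, b1956, b1957, b1958, b1959]

theorem cert_boxes48 : ∀ x ∈ checkedBoxes48, Cert cfg x ids :=
  (List.forall_mem_cons.2 ⟨cert1920, (List.forall_mem_cons.2 ⟨cert1921, (List.forall_mem_cons.2 ⟨cert1922, (List.forall_mem_cons.2 ⟨cert1923, (List.forall_mem_cons.2 ⟨cert1924, (List.forall_mem_cons.2 ⟨cert1925, (List.forall_mem_cons.2 ⟨cert1926, (List.forall_mem_cons.2 ⟨cert1927, (List.forall_mem_cons.2 ⟨cert1928, (List.forall_mem_cons.2 ⟨cert1929, (List.forall_mem_cons.2 ⟨cert1930, (List.forall_mem_cons.2 ⟨cert1931, (List.forall_mem_cons.2 ⟨cert1932, (List.forall_mem_cons.2 ⟨cert1933, (List.forall_mem_cons.2 ⟨cert1934, (List.forall_mem_cons.2 ⟨cert1935, (List.forall_mem_cons.2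 ⟨cert1936, (List.forall_mem_cons.2 ⟨cert1937, (List.forall_mem_cons.2 ⟨cert1938, (List.forall_mem_cons.2 ⟨cert1939, (List.forall_mem_cons.2 ⟨cert1940, (List.forall_mem_cons.2 ⟨cert1941, (List.forall_mem_cons.2 ⟨cert1942, (List.forall_mem_cons.2 ⟨cert1943, (List.forall_mem_cons.2 ⟨cert1944, (List.forall_mem_cons.2 ⟨cert1945, (List.forall_mem_cons.2 ⟨cert1946, (List.forall_mem_cons.2 ⟨cert1947, (List.forall_mem_cons.2 ⟨cert1948, (List.forall_mem_cons.2 ⟨cert1949, (List.forall_mem_cons.2 ⟨cert1950, (List.forall_mem_cons.2 ⟨cert1951, (List.forall_mem_cons.2 ⟨cert1952, (List.forall_mem_cons.2 ⟨cert1953, (List.forall_mem_cons.2 ⟨cert1954, (List.forall_mem_cons.2 ⟨cert1955, (List.forall_mem_cons.2 ⟨cert1956, (List.forall_mem_cons.2 ⟨cert1957, (List.forall_mem_cons.2 ⟨cert1958, (List.forall_mem_cons.2 ⟨cert1959, (fun _ h => absurd h List.not_mem_nil)⟩)⟩)⟩)⟩)⟩)⟩)⟩)⟩)⟩)⟩)⟩)⟩)⟩)⟩)⟩)⟩)⟩)⟩)⟩)⟩)⟩)⟩)⟩)⟩)⟩)⟩)⟩)⟩)⟩)⟩)⟩)⟩)⟩)⟩)⟩)⟩)⟩)⟩)⟩)⟩)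

/-- Checked boxes. -/
noncomputable def checkedBoxes49 : List Bx :=
  [b1960, b1961, b1962, b1963, b1964, b1965, b1966, b1967, b1968, b1969, b1970, b1971, b1972, b1973, b1974, b1975, b1976, b1977, b1978, b1979, b1980, b1981, b1982, b1983, b1984, b1985, b1986, b1987, b1988, b1989, b1990, b1991, b1992, b1993, b1994, b1995, b1996, b1997, b1998, b1999]

theorem cert_boxes49 : ∀ x ∈ checkedBoxes49, Cert cfg x ids :=
  (List.forall_mem_cons.2 ⟨cert1960, (List.forall_mem_cons.2 ⟨cert1961, (List.forall_mem_cons.2 ⟨cert1962, (List.forall_mem_cons.2 ⟨cert1963, (List.forall_mem_cons.2 ⟨cert1964, (List.forall_mem_cons.2 ⟨cert1965, (List.forall_mem_cons.2 ⟨cert1966, (List.forall_mem_cons.2 ⟨cert1967, (List.forall_mem_cons.2 ⟨cert1968, (List.forall_mem_cons.2 ⟨cert1969, (List.forall_mem_cons.2 ⟨cert1970, (List.forall_mem_cons.2 ⟨cert1971, (List.forall_mem_cons.2 ⟨cert1972, (List.forall_mem_cons.2 ⟨cert1973, (List.forall_mem_cons.2 ⟨cert1974, (List.forall_mem_cons.2 ⟨cert1975, (List.forall_mem_cons.2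 ⟨cert1976, (List.forall_mem_cons.2 ⟨cert1977, (List.forall_mem_cons.2 ⟨cert1978, (List.forall_mem_cons.2 ⟨cert1979, (List.forall_mem_cons.2 ⟨cert1980, (List.forall_mem_cons.2 ⟨cert1981, (List.forall_mem_cons.2 ⟨cert1982, (List.forall_mem_cons.2 ⟨cert1983, (List.forall_mem_cons.2 ⟨cert1984, (List.forall_mem_cons.2 ⟨cert1985, (List.forall_mem_cons.2 ⟨cert1986, (List.forall_mem_cons.2 ⟨cert1987, (List.forall_mem_cons.2 ⟨cert1988, (List.forall_mem_cons.2 ⟨cert1989, (List.forall_mem_cons.2 ⟨cert1990, (List.forall_mem_cons.2 ⟨cert1991, (List.forall_mem_cons.2 ⟨cert1992, (List.forall_mem_cons.2 ⟨cert1993, (List.forall_mem_cons.2 ⟨cert1994, (List.forall_mem_cons.2 ⟨cert1995, (List.forall_mem_cons.2 ⟨cert1996, (List.forall_mem_cons.2 ⟨cert1997, (List.forall_mem_cons.2 ⟨cert1998, (List.forall_mem_cons.2 ⟨cert1999, (fun _ h => absurd h List.not_mem_nil)⟩)⟩)⟩)⟩)⟩)⟩)⟩)⟩)⟩)⟩)⟩)⟩)⟩)⟩)⟩)⟩)⟩)⟩)⟩)⟩)⟩)⟩)⟩)⟩)⟩)⟩)⟩)⟩)⟩)⟩)⟩)⟩)⟩)⟩)⟩)⟩)⟩)⟩)⟩)⟩)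

/-- Checked boxes. -/
noncomputable def checkedBoxes50 : List Bx :=
  [b2000, b2001, b2002, b2003, b2004, b2005, b2006, b2007, b2008, b2009, b2010, b2011, b2012, b2013, b2014, b2015, b2016, b2017, b2018, b2019, b2020, b2021, b2022, b2023, b2024, b2025, b2026, b2027, b2028, b2029, b2030, b2031, b2032, b2033, b2034, b2035, b2036, b2037, b2038, b2039]

theorem cert_boxes50 : ∀ x ∈ checkedBoxes50, Cert cfg x ids :=
  (List.forall_mem_cons.2 ⟨cert2000, (List.forall_mem_cons.2 ⟨cert2001, (List.forall_mem_cons.2 ⟨cert2002, (List.forall_mem_cons.2 ⟨cert2003, (List.forall_mem_cons.2 ⟨cert2004, (List.forall_mem_cons.2 ⟨cert2005, (List.forall_mem_cons.2 ⟨cert2006, (List.forall_mem_cons.2 ⟨cert2007, (List.forall_mem_cons.2 ⟨cert2008, (List.forall_mem_cons.2 ⟨cert2009, (List.forall_mem_cons.2 ⟨cert2010, (List.forall_mem_cons.2 ⟨cert2011, (List.forall_mem_cons.2 ⟨cert2012, (List.forall_mem_cons.2 ⟨cert2013, (List.forall_mem_cons.2 ⟨cert2014, (List.forall_mem_cons.2 ⟨cert2015, (List.forall_mem_cons.2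 ⟨cert2016, (List.forall_mem_cons.2 ⟨cert2017, (List.forall_mem_cons.2 ⟨cert2018, (List.forall_mem_cons.2 ⟨cert2019, (List.forall_mem_cons.2 ⟨cert2020, (List.forall_mem_cons.2 ⟨cert2021, (List.forall_mem_cons.2 ⟨cert2022, (List.forall_mem_cons.2 ⟨cert2023, (List.forall_mem_cons.2 ⟨cert2024, (List.forall_mem_cons.2 ⟨cert2025, (List.forall_mem_cons.2 ⟨cert2026, (List.forall_mem_cons.2 ⟨cert2027, (List.forall_mem_cons.2 ⟨cert2028, (List.forall_mem_cons.2 ⟨cert2029, (List.forall_mem_cons.2 ⟨cert2030, (List.forall_mem_cons.2 ⟨cert2031, (List.forall_mem_cons.2 ⟨cert2032, (List.forall_mem_cons.2 ⟨cert2033, (List.forall_mem_cons.2 ⟨cert2034, (List.forall_mem_cons.2 ⟨cert2035, (List.forall_mem_cons.2 ⟨cert2036, (List.forall_mem_cons.2 ⟨cert2037, (List.forall_mem_cons.2 ⟨cert2038, (List.forall_mem_cons.2 ⟨cert2039, (fun _ h => absurd h List.not_mem_nil)⟩)⟩)⟩)⟩)⟩)⟩)⟩)⟩)⟩)⟩)⟩)⟩)⟩)⟩)⟩)⟩)⟩)⟩)⟩)⟩)⟩)⟩)⟩)⟩)⟩)⟩)⟩)⟩)⟩)⟩)⟩)⟩)⟩)⟩)⟩)⟩)⟩)⟩)⟩)⟩)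

/-- Checked boxes. -/
noncomputable def checkedBoxes51 : List Bx :=
  [b2040, b2041, b2042, b2043, b2044, b2045, b2046, b2047, b2048, b2049, b2050, b2051, b2052, b2053, b2054, b2055, b2056, b2057, b2058, b2059, b2060, b2061, b2062, b2063, b2064, b2065, b2066, b2067, b2068, b2069, b2070, b2071, b2072, b2073, b2074, b2075, b2076, b2077, b2078, b2079]

theorem cert_boxes51 : ∀ x ∈ checkedBoxes51, Cert cfg x ids :=
  (List.forall_mem_cons.2 ⟨cert2040, (List.forall_mem_cons.2 ⟨cert2041, (List.forall_mem_cons.2 ⟨cert2042, (List.forall_mem_cons.2 ⟨cert2043, (List.forall_mem_cons.2 ⟨cert2044, (List.forall_mem_cons.2 ⟨cert2045, (List.forall_mem_cons.2 ⟨cert2046, (List.forall_mem_cons.2 ⟨cert2047, (List.forall_mem_cons.2 ⟨cert2048, (List.forall_mem_cons.2 ⟨cert2049, (List.forall_mem_cons.2 ⟨cert2050, (List.forall_mem_cons.2 ⟨cert2051, (List.forall_mem_cons.2 ⟨cert2052, (List.forall_mem_cons.2 ⟨cert2053, (List.forall_mem_cons.2 ⟨cert2054, (List.forall_mem_cons.2 ⟨cert2055, (List.forall_mem_cons.2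 ⟨cert2056, (List.forall_mem_cons.2 ⟨cert2057, (List.forall_mem_cons.2 ⟨cert2058, (List.forall_mem_cons.2 ⟨cert2059, (List.forall_mem_cons.2 ⟨cert2060, (List.forall_mem_cons.2 ⟨cert2061, (List.forall_mem_cons.2 ⟨cert2062, (List.forall_mem_cons.2 ⟨cert2063, (List.forall_mem_cons.2 ⟨cert2064, (List.forall_mem_cons.2 ⟨cert2065, (List.forall_mem_cons.2 ⟨cert2066, (List.forall_mem_cons.2 ⟨cert2067, (List.forall_mem_cons.2 ⟨cert2068, (List.forall_mem_cons.2 ⟨cert2069, (List.forall_mem_cons.2 ⟨cert2070, (List.forall_mem_cons.2 ⟨cert2071, (List.forall_mem_cons.2 ⟨cert2072, (List.forall_mem_cons.2 ⟨cert2073, (List.forall_mem_cons.2 ⟨cert2074, (List.forall_mem_cons.2 ⟨cert2075, (List.forall_mem_cons.2 ⟨cert2076, (List.forall_mem_cons.2 ⟨cert2077, (List.forall_mem_cons.2 ⟨cert2078, (List.forall_mem_cons.2 ⟨cert2079, (fun _ h => absurd h List.not_mem_nil)⟩)⟩)⟩)⟩)⟩)⟩)⟩)⟩)⟩)⟩)⟩)⟩)⟩)⟩)⟩)⟩)⟩)⟩)⟩)⟩)⟩)⟩)⟩)⟩)⟩)⟩)⟩)⟩)⟩)⟩)⟩)⟩)⟩)⟩)⟩)⟩)⟩)⟩)⟩)⟩)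

/-- Checked boxes. -/
noncomputable def checkedBoxes52 : List Bx :=
  [b2080, b2081, b2082, b2083, b2084, b2085, b2086, b2087, b2088, b2089, b2090, b2091, b2092, b2093, b2094, b2095, b2096, b2097, b2098, b2099, b2100, b2101, b2102, b2103, b2104, b2105, b2106, b2107, b2108, b2109, b2110, b2111, b2112, b2113, b2114, b2115, b2116, b2117, b2118, b2119]

theorem cert_boxes52 : ∀ x ∈ checkedBoxes52, Cert cfg x ids :=
  (List.forall_mem_cons.2 ⟨cert2080, (List.forall_mem_cons.2 ⟨cert2081, (List.forall_mem_cons.2 ⟨cert2082, (List.forall_mem_cons.2 ⟨cert2083, (List.forall_mem_cons.2 ⟨cert2084, (List.forall_mem_cons.2 ⟨cert2085, (List.forall_mem_cons.2 ⟨cert2086, (List.forall_mem_cons.2 ⟨cert2087, (List.forall_mem_cons.2 ⟨cert2088, (List.forall_mem_cons.2 ⟨cert2089, (List.forall_mem_cons.2 ⟨cert2090, (List.forall_mem_cons.2 ⟨cert2091, (List.forall_mem_cons.2 ⟨cert2092, (List.forall_mem_cons.2 ⟨cert2093, (List.forall_mem_cons.2 ⟨cert2094, (List.forall_mem_cons.2 ⟨cert2095, (List.forall_mem_cons.2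 ⟨cert2096, (List.forall_mem_cons.2 ⟨cert2097, (List.forall_mem_cons.2 ⟨cert2098, (List.forall_mem_cons.2 ⟨cert2099, (List.forall_mem_cons.2 ⟨cert2100, (List.forall_mem_cons.2 ⟨cert2101, (List.forall_mem_cons.2 ⟨cert2102, (List.forall_mem_cons.2 ⟨cert2103, (List.forall_mem_cons.2 ⟨cert2104, (List.forall_mem_cons.2 ⟨cert2105, (List.forall_mem_cons.2 ⟨cert2106, (List.forall_mem_cons.2 ⟨cert2107, (List.forall_mem_cons.2 ⟨cert2108, (List.forall_mem_cons.2 ⟨cert2109, (List.forall_mem_cons.2 ⟨cert2110, (List.forall_mem_cons.2 ⟨cert2111, (List.forall_mem_cons.2 ⟨cert2112, (List.forall_mem_cons.2 ⟨cert2113, (List.forall_mem_cons.2 ⟨cert2114, (List.forall_mem_cons.2 ⟨cert2115, (List.forall_mem_cons.2 ⟨cert2116, (List.forall_mem_cons.2 ⟨cert2117, (List.forall_mem_cons.2 ⟨cert2118, (List.forall_mem_cons.2 ⟨cert2119, (fun _ h => absurd h List.not_mem_nil)⟩)⟩)⟩)⟩)⟩)⟩)⟩)⟩)⟩)⟩)⟩)⟩)⟩)⟩)⟩)⟩)⟩)⟩)⟩)⟩)⟩)⟩)⟩)⟩)⟩)⟩)⟩)⟩)⟩)⟩)⟩)⟩)⟩)⟩)⟩)⟩)⟩)⟩)⟩)⟩)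

/-- Checked boxes. -/
noncomputable def checkedBoxes53 : List Bx :=
  [b2120, b2121, b2122, b2123, b2124, b2125, b2126, b2127, b2128, b2129, b2130, b2131, b2132, b2133, b2134, b2135, b2136, b2137, b2138, b2139, b2140, b2141, b2142, b2143, b2144, b2145, b2146, b2147, b2148, b2149, b2150, b2151, b2152, b2153, b2154, b2155, b2156, b2157, b2158, b2159]

theorem cert_boxes53 : ∀ x ∈ checkedBoxes53, Cert cfg x ids :=
  (List.forall_mem_cons.2 ⟨cert2120, (List.forall_mem_cons.2 ⟨cert2121, (List.forall_mem_cons.2 ⟨cert2122, (List.forall_mem_cons.2 ⟨cert2123, (List.forall_mem_cons.2 ⟨cert2124, (List.forall_mem_cons.2 ⟨cert2125, (List.forall_mem_cons.2 ⟨cert2126, (List.forall_mem_cons.2 ⟨cert2127, (List.forall_mem_cons.2 ⟨cert2128, (List.forall_mem_cons.2 ⟨cert2129, (List.forall_mem_cons.2 ⟨cert2130, (List.forall_mem_cons.2 ⟨cert2131, (List.forall_mem_cons.2 ⟨cert2132, (List.forall_mem_cons.2 ⟨cert2133, (List.forall_mem_cons.2 ⟨cert2134, (List.forall_mem_cons.2 ⟨cert2135, (List.forall_mem_cons.2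 ⟨cert2136, (List.forall_mem_cons.2 ⟨cert2137, (List.forall_mem_cons.2 ⟨cert2138, (List.forall_mem_cons.2 ⟨cert2139, (List.forall_mem_cons.2 ⟨cert2140, (List.forall_mem_cons.2 ⟨cert2141, (List.forall_mem_cons.2 ⟨cert2142, (List.forall_mem_cons.2 ⟨cert2143, (List.forall_mem_cons.2 ⟨cert2144, (List.forall_mem_cons.2 ⟨cert2145, (List.forall_mem_cons.2 ⟨cert2146, (List.forall_mem_cons.2 ⟨cert2147, (List.forall_mem_cons.2 ⟨cert2148, (List.forall_mem_cons.2 ⟨cert2149, (List.forall_mem_cons.2 ⟨cert2150, (List.forall_mem_cons.2 ⟨cert2151, (List.forall_mem_cons.2 ⟨cert2152, (List.forall_mem_cons.2 ⟨cert2153, (List.forall_mem_cons.2 ⟨cert2154, (List.forall_mem_cons.2 ⟨cert2155, (List.forall_mem_cons.2 ⟨cert2156, (List.forall_mem_cons.2 ⟨cert2157, (List.forall_mem_cons.2 ⟨cert2158, (List.forall_mem_cons.2 ⟨cert2159, (fun _ h => absurd h List.not_mem_nil)⟩)⟩)⟩)⟩)⟩)⟩)⟩)⟩)⟩)⟩)⟩)⟩)⟩)⟩)⟩)⟩)⟩)⟩)⟩)⟩)⟩)⟩)⟩)⟩)⟩)⟩)⟩)⟩)⟩)⟩)⟩)⟩)⟩)⟩)⟩)⟩)⟩)⟩)⟩)⟩)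

/-- Checked boxes. -/
noncomputable def checkedBoxes54 : List Bx :=
  [b2160, b2161, b2162, b2163, b2164, b2165, b2166, b2167, b2168, b2169, b2170, b2171, b2172, b2173, b2174, b2175, b2176, b2177, b2178, b2179, b2180, b2181, b2182, b2183, b2184, b2185, b2186, b2187, b2188, b2189, b2190, b2191, b2192, b2193, b2194, b2195, b2196, b2197, b2198, b2199]

theorem cert_boxes54 : ∀ x ∈ checkedBoxes54, Cert cfg x ids :=
  (List.forall_mem_cons.2 ⟨cert2160, (List.forall_mem_cons.2 ⟨cert2161, (List.forall_mem_cons.2 ⟨cert2162, (List.forall_mem_cons.2 ⟨cert2163, (List.forall_mem_cons.2 ⟨cert2164, (List.forall_mem_cons.2 ⟨cert2165, (List.forall_mem_cons.2 ⟨cert2166, (List.forall_mem_cons.2 ⟨cert2167, (List.forall_mem_cons.2 ⟨cert2168, (List.forall_mem_cons.2 ⟨cert2169, (List.forall_mem_cons.2 ⟨cert2170, (List.forall_mem_cons.2 ⟨cert2171, (List.forall_mem_cons.2 ⟨cert2172, (List.forall_mem_cons.2 ⟨cert2173, (List.forall_mem_cons.2 ⟨cert2174, (List.forall_mem_cons.2 ⟨cert2175, (List.forall_mem_cons.2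 ⟨cert2176, (List.forall_mem_cons.2 ⟨cert2177, (List.forall_mem_cons.2 ⟨cert2178, (List.forall_mem_cons.2 ⟨cert2179, (List.forall_mem_cons.2 ⟨cert2180, (List.forall_mem_cons.2 ⟨cert2181, (List.forall_mem_cons.2 ⟨cert2182, (List.forall_mem_cons.2 ⟨cert2183, (List.forall_mem_cons.2 ⟨cert2184, (List.forall_mem_cons.2 ⟨cert2185, (List.forall_mem_cons.2 ⟨cert2186, (List.forall_mem_cons.2 ⟨cert2187, (List.forall_mem_cons.2 ⟨cert2188, (List.forall_mem_cons.2 ⟨cert2189, (List.forall_mem_cons.2 ⟨cert2190, (List.forall_mem_cons.2 ⟨cert2191, (List.forall_mem_cons.2 ⟨cert2192, (List.forall_mem_cons.2 ⟨cert2193, (List.forall_mem_cons.2 ⟨cert2194, (List.forall_mem_cons.2 ⟨cert2195, (List.forall_mem_cons.2 ⟨cert2196, (List.forall_mem_cons.2 ⟨cert2197, (List.forall_mem_cons.2 ⟨cert2198, (List.forall_mem_cons.2 ⟨cert2199, (fun _ h => absurd h List.not_mem_nil)⟩)⟩)⟩)⟩)⟩)⟩)⟩)⟩)⟩)⟩)⟩)⟩)⟩)⟩)⟩)⟩)⟩)⟩)⟩)⟩)⟩)⟩)⟩)⟩)⟩)⟩)⟩)⟩)⟩)⟩)⟩)⟩)⟩)⟩)⟩)⟩)⟩)⟩)⟩)⟩)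

/-- Checked boxes. -/
noncomputable def checkedBoxes55 : List Bx :=
  [b2200, b2201, b2202, b2203, b2204, b2205, b2206, b2207, b2208, b2209, b2210, b2211, b2212, b2213, b2214, b2215, b2216, b2217, b2218, b2219, b2220, b2221, b2222, b2223, b2224, b2225, b2226, b2227, b2228, b2229, b2230, b2231, b2232, b2233, b2234, b2235, b2236, b2237, b2238, b2239]

theorem cert_boxes55 : ∀ x ∈ checkedBoxes55, Cert cfg x ids :=
  (List.forall_mem_cons.2 ⟨cert2200, (List.forall_mem_cons.2 ⟨cert2201, (List.forall_mem_cons.2 ⟨cert2202, (List.forall_mem_cons.2 ⟨cert2203, (List.forall_mem_cons.2 ⟨cert2204, (List.forall_mem_cons.2 ⟨cert2205, (List.forall_mem_cons.2 ⟨cert2206, (List.forall_mem_cons.2 ⟨cert2207, (List.forall_mem_cons.2 ⟨cert2208, (List.forall_mem_cons.2 ⟨cert2209, (List.forall_mem_cons.2 ⟨cert2210, (List.forall_mem_cons.2 ⟨cert2211, (List.forall_mem_cons.2 ⟨cert2212, (List.forall_mem_cons.2 ⟨cert2213, (List.forall_mem_cons.2 ⟨cert2214, (List.forall_mem_cons.2 ⟨cert2215, (List.forall_mem_cons.2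 ⟨cert2216, (List.forall_mem_cons.2 ⟨cert2217, (List.forall_mem_cons.2 ⟨cert2218, (List.forall_mem_cons.2 ⟨cert2219, (List.forall_mem_cons.2 ⟨cert2220, (List.forall_mem_cons.2 ⟨cert2221, (List.forall_mem_cons.2 ⟨cert2222, (List.forall_mem_cons.2 ⟨cert2223, (List.forall_mem_cons.2 ⟨cert2224, (List.forall_mem_cons.2 ⟨cert2225, (List.forall_mem_cons.2 ⟨cert2226, (List.forall_mem_cons.2 ⟨cert2227, (List.forall_mem_cons.2 ⟨cert2228, (List.forall_mem_cons.2 ⟨cert2229, (List.forall_mem_cons.2 ⟨cert2230, (List.forall_mem_cons.2 ⟨cert2231, (List.forall_mem_cons.2 ⟨cert2232, (List.forall_mem_cons.2 ⟨cert2233, (List.forall_mem_cons.2 ⟨cert2234, (List.forall_mem_cons.2 ⟨cert2235, (List.forall_mem_cons.2 ⟨cert2236, (List.forall_mem_cons.2 ⟨cert2237, (List.forall_mem_cons.2 ⟨cert2238, (List.forall_mem_cons.2 ⟨cert2239, (fun _ h => absurd h List.not_mem_nil)⟩)⟩)⟩)⟩)⟩)⟩)⟩)⟩)⟩)⟩)⟩)⟩)⟩)⟩)⟩)⟩)⟩)⟩)⟩)⟩)⟩)⟩)⟩)⟩)⟩)⟩)⟩)⟩)⟩)⟩)⟩)⟩)⟩)⟩)⟩)⟩)⟩)⟩)⟩)⟩)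

/-- Checked boxes. -/
noncomputable def checkedBoxes56 : List Bx :=
  [b2240, b2241, b2242, b2243, b2244, b2245, b2246, b2247, b2248, b2249, b2250, b2251, b2252, b2253, b2254, b2255, b2256, b2257, b2258, b2259, b2260, b2261, b2262, b2263, b2264, b2265, b2266, b2267, b2268, b2269, b2270, b2271, b2272, b2273, b2274, b2275, b2276, b2277, b2278, b2279]

theorem cert_boxes56 : ∀ x ∈ checkedBoxes56, Cert cfg x ids :=
  (List.forall_mem_cons.2 ⟨cert2240, (List.forall_mem_cons.2 ⟨cert2241, (List.forall_mem_cons.2 ⟨cert2242, (List.forall_mem_cons.2 ⟨cert2243, (List.forall_mem_cons.2 ⟨cert2244, (List.forall_mem_cons.2 ⟨cert2245, (List.forall_mem_cons.2 ⟨cert2246, (List.forall_mem_cons.2 ⟨cert2247, (List.forall_mem_cons.2 ⟨cert2248, (List.forall_mem_cons.2 ⟨cert2249, (List.forall_mem_cons.2 ⟨cert2250, (List.forall_mem_cons.2 ⟨cert2251, (List.forall_mem_cons.2 ⟨cert2252, (List.forall_mem_cons.2 ⟨cert2253, (List.forall_mem_cons.2 ⟨cert2254, (List.forall_mem_cons.2 ⟨cert2255, (List.forall_mem_cons.2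 ⟨cert2256, (List.forall_mem_cons.2 ⟨cert2257, (List.forall_mem_cons.2 ⟨cert2258, (List.forall_mem_cons.2 ⟨cert2259, (List.forall_mem_cons.2 ⟨cert2260, (List.forall_mem_cons.2 ⟨cert2261, (List.forall_mem_cons.2 ⟨cert2262, (List.forall_mem_cons.2 ⟨cert2263, (List.forall_mem_cons.2 ⟨cert2264, (List.forall_mem_cons.2 ⟨cert2265, (List.forall_mem_cons.2 ⟨cert2266, (List.forall_mem_cons.2 ⟨cert2267, (List.forall_mem_cons.2 ⟨cert2268, (List.forall_mem_cons.2 ⟨cert2269, (List.forall_mem_cons.2 ⟨cert2270, (List.forall_mem_cons.2 ⟨cert2271, (List.forall_mem_cons.2 ⟨cert2272, (List.forall_mem_cons.2 ⟨cert2273, (List.forall_mem_cons.2 ⟨cert2274, (List.forall_mem_cons.2 ⟨cert2275, (List.forall_mem_cons.2 ⟨cert2276, (List.forall_mem_cons.2 ⟨cert2277, (List.forall_mem_cons.2 ⟨cert2278, (List.forall_mem_cons.2 ⟨cert2279, (fun _ h => absurd h List.not_mem_nil)⟩)⟩)⟩)⟩)⟩)⟩)⟩)⟩)⟩)⟩)⟩)⟩)⟩)⟩)⟩)⟩)⟩)⟩)⟩)⟩)⟩)⟩)⟩)⟩)⟩)⟩)⟩)⟩)⟩)⟩)⟩)⟩)⟩)⟩)⟩)⟩)⟩)⟩)⟩)⟩)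

/-- Checked boxes. -/
noncomputable def checkedBoxes57 : List Bx :=
  [b2280, b2281, b2282, b2283, b2284, b2285, b2286, b2287, b2288, b2289, b2290, b2291, b2292, b2293, b2294, b2295, b2296, b2297, b2298, b2299, b2300, b2301, b2302, b2303, b2304, b2305, b2306, b2307, b2308, b2309, b2310, b2311, b2312, b2313, b2314, b2315, b2316, b2317, b2318, b2319]

theorem cert_boxes57 : ∀ x ∈ checkedBoxes57, Cert cfg x ids :=
  (List.forall_mem_cons.2 ⟨cert2280, (List.forall_mem_cons.2 ⟨cert2281, (List.forall_mem_cons.2 ⟨cert2282, (List.forall_mem_cons.2 ⟨cert2283, (List.forall_mem_cons.2 ⟨cert2284, (List.forall_mem_cons.2 ⟨cert2285, (List.forall_mem_cons.2 ⟨cert2286, (List.forall_mem_cons.2 ⟨cert2287, (List.forall_mem_cons.2 ⟨cert2288, (List.forall_mem_cons.2 ⟨cert2289, (List.forall_mem_cons.2 ⟨cert2290, (List.forall_mem_cons.2 ⟨cert2291, (List.forall_mem_cons.2 ⟨cert2292, (List.forall_mem_cons.2 ⟨cert2293, (List.forall_mem_cons.2 ⟨cert2294, (List.forall_mem_cons.2 ⟨cert2295, (List.forall_mem_cons.2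 ⟨cert2296, (List.forall_mem_cons.2 ⟨cert2297, (List.forall_mem_cons.2 ⟨cert2298, (List.forall_mem_cons.2 ⟨cert2299, (List.forall_mem_cons.2 ⟨cert2300, (List.forall_mem_cons.2 ⟨cert2301, (List.forall_mem_cons.2 ⟨cert2302, (List.forall_mem_cons.2 ⟨cert2303, (List.forall_mem_cons.2 ⟨cert2304, (List.forall_mem_cons.2 ⟨cert2305, (List.forall_mem_cons.2 ⟨cert2306, (List.forall_mem_cons.2 ⟨cert2307, (List.forall_mem_cons.2 ⟨cert2308, (List.forall_mem_cons.2 ⟨cert2309, (List.forall_mem_cons.2 ⟨cert2310, (List.forall_mem_cons.2 ⟨cert2311, (List.forall_mem_cons.2 ⟨cert2312, (List.forall_mem_cons.2 ⟨cert2313, (List.forall_mem_cons.2 ⟨cert2314, (List.forall_mem_cons.2 ⟨cert2315, (List.forall_mem_cons.2 ⟨cert2316, (List.forall_mem_cons.2 ⟨cert2317, (List.forall_mem_cons.2 ⟨cert2318, (List.forall_mem_cons.2 ⟨cert2319, (fun _ h => absurd h List.not_mem_nil)⟩)⟩)⟩)⟩)⟩)⟩)⟩)⟩)⟩)⟩)⟩)⟩)⟩)⟩)⟩)⟩)⟩)⟩)⟩)⟩)⟩)⟩)⟩)⟩)⟩)⟩)⟩)⟩)⟩)⟩)⟩)⟩)⟩)⟩)⟩)⟩)⟩)⟩)⟩)⟩)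

/-- Checked boxes. -/
noncomputable def checkedBoxes58 : List Bx :=
  [b2320, b2321, b2322, b2323, b2324, b2325, b2326, b2327, b2328, b2329, b2330, b2331, b2332, b2333, b2334, b2335, b2336, b2337, b2338, b2339, b2340, b2341, b2342, b2343, b2344, b2345, b2346, b2347, b2348, b2349, b2350, b2351, b2352, b2353, b2354, b2355, b2356, b2357, b2358, b2359]

theorem cert_boxes58 : ∀ x ∈ checkedBoxes58, Cert cfg x ids :=
  (List.forall_mem_cons.2 ⟨cert2320, (List.forall_mem_cons.2 ⟨cert2321, (List.forall_mem_cons.2 ⟨cert2322, (List.forall_mem_cons.2 ⟨cert2323, (List.forall_mem_cons.2 ⟨cert2324, (List.forall_mem_cons.2 ⟨cert2325, (List.forall_mem_cons.2 ⟨cert2326, (List.forall_mem_cons.2 ⟨cert2327, (List.forall_mem_cons.2 ⟨cert2328, (List.forall_mem_cons.2 ⟨cert2329, (List.forall_mem_cons.2 ⟨cert2330, (List.forall_mem_cons.2 ⟨cert2331, (List.forall_mem_cons.2 ⟨cert2332, (List.forall_mem_cons.2 ⟨cert2333, (List.forall_mem_cons.2 ⟨cert2334, (List.forall_mem_cons.2 ⟨cert2335, (List.forall_mem_cons.2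 ⟨cert2336, (List.forall_mem_cons.2 ⟨cert2337, (List.forall_mem_cons.2 ⟨cert2338, (List.forall_mem_cons.2 ⟨cert2339, (List.forall_mem_cons.2 ⟨cert2340, (List.forall_mem_cons.2 ⟨cert2341, (List.forall_mem_cons.2 ⟨cert2342, (List.forall_mem_cons.2 ⟨cert2343, (List.forall_mem_cons.2 ⟨cert2344, (List.forall_mem_cons.2 ⟨cert2345, (List.forall_mem_cons.2 ⟨cert2346, (List.forall_mem_cons.2 ⟨cert2347, (List.forall_mem_cons.2 ⟨cert2348, (List.forall_mem_cons.2 ⟨cert2349, (List.forall_mem_cons.2 ⟨cert2350, (List.forall_mem_cons.2 ⟨cert2351, (List.forall_mem_cons.2 ⟨cert2352, (List.forall_mem_cons.2 ⟨cert2353, (List.forall_mem_cons.2 ⟨cert2354, (List.forall_mem_cons.2 ⟨cert2355, (List.forall_mem_cons.2 ⟨cert2356, (List.forall_mem_cons.2 ⟨cert2357, (List.forall_mem_cons.2 ⟨cert2358, (List.forall_mem_cons.2 ⟨cert2359, (fun _ h => absurd h List.not_mem_nil)⟩)⟩)⟩)⟩)⟩)⟩)⟩)⟩)⟩)⟩)⟩)⟩)⟩)⟩)⟩)⟩)⟩)⟩)⟩)⟩)⟩)⟩)⟩)⟩)⟩)⟩)⟩)⟩)⟩)⟩)⟩)⟩)⟩)⟩)⟩)⟩)⟩)⟩)⟩)⟩)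

/-- Checked boxes. -/
noncomputable def checkedBoxes59 : List Bx :=
  [b2360, b2361, b2362, b2363, b2364, b2365, b2366, b2367, b2368, b2369, b2370, b2371, b2372, b2373, b2374, b2375, b2376, b2377, b2378, b2379, b2380, b2381, b2382, b2383, b2384, b2385, b2386, b2387, b2388, b2389, b2390, b2391, b2392, b2393, b2394, b2395, b2396, b2397, b2398, b2399]

theorem cert_boxes59 : ∀ x ∈ checkedBoxes59, Cert cfg x ids :=
  (List.forall_mem_cons.2 ⟨cert2360, (List.forall_mem_cons.2 ⟨cert2361, (List.forall_mem_cons.2 ⟨cert2362, (List.forall_mem_cons.2 ⟨cert2363, (List.forall_mem_cons.2 ⟨cert2364, (List.forall_mem_cons.2 ⟨cert2365, (List.forall_mem_cons.2 ⟨cert2366, (List.forall_mem_cons.2 ⟨cert2367, (List.forall_mem_cons.2 ⟨cert2368, (List.forall_mem_cons.2 ⟨cert2369, (List.forall_mem_cons.2 ⟨cert2370, (List.forall_mem_cons.2 ⟨cert2371, (List.forall_mem_cons.2 ⟨cert2372, (List.forall_mem_cons.2 ⟨cert2373, (List.forall_mem_cons.2 ⟨cert2374, (List.forall_mem_cons.2 ⟨cert2375, (List.forall_mem_cons.2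 ⟨cert2376, (List.forall_mem_cons.2 ⟨cert2377, (List.forall_mem_cons.2 ⟨cert2378, (List.forall_mem_cons.2 ⟨cert2379, (List.forall_mem_cons.2 ⟨cert2380, (List.forall_mem_cons.2 ⟨cert2381, (List.forall_mem_cons.2 ⟨cert2382, (List.forall_mem_cons.2 ⟨cert2383, (List.forall_mem_cons.2 ⟨cert2384, (List.forall_mem_cons.2 ⟨cert2385, (List.forall_mem_cons.2 ⟨cert2386, (List.forall_mem_cons.2 ⟨cert2387, (List.forall_mem_cons.2 ⟨cert2388, (List.forall_mem_cons.2 ⟨cert2389, (List.forall_mem_cons.2 ⟨cert2390, (List.forall_mem_cons.2 ⟨cert2391, (List.forall_mem_cons.2 ⟨cert2392, (List.forall_mem_cons.2 ⟨cert2393, (List.forall_mem_cons.2 ⟨cert2394, (List.forall_mem_cons.2 ⟨cert2395, (List.forall_mem_cons.2 ⟨cert2396, (List.forall_mem_cons.2 ⟨cert2397, (List.forall_mem_cons.2 ⟨cert2398, (List.forall_mem_cons.2 ⟨cert2399, (fun _ h => absurd h List.not_mem_nil)⟩)⟩)⟩)⟩)⟩)⟩)⟩)⟩)⟩)⟩)⟩)⟩)⟩)⟩)⟩)⟩)⟩)⟩)⟩)⟩)⟩)⟩)⟩)⟩)⟩)⟩)⟩)⟩)⟩)⟩)⟩)⟩)⟩)⟩)⟩)⟩)⟩)⟩)⟩)⟩)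

/-- Checked boxes. -/
noncomputable def checkedBoxes60 : List Bx :=
  [b2400, b2401, b2402, b2403, b2404, b2405, b2406, b2407, b2408, b2409, b2410, b2411, b2412, b2413, b2414, b2415, b2416, b2417, b2418, b2419, b2420, b2421, b2422, b2423, b2424, b2425, b2426, b2427, b2428, b2429, b2430, b2431, b2432, b2433, b2434, b2435, b2436, b2437, b2438, b2439]

theorem cert_boxes60 : ∀ x ∈ checkedBoxes60, Cert cfg x ids :=
  (List.forall_mem_cons.2 ⟨cert2400, (List.forall_mem_cons.2 ⟨cert2401, (List.forall_mem_cons.2 ⟨cert2402, (List.forall_mem_cons.2 ⟨cert2403, (List.forall_mem_cons.2 ⟨cert2404, (List.forall_mem_cons.2 ⟨cert2405, (List.forall_mem_cons.2 ⟨cert2406, (List.forall_mem_cons.2 ⟨cert2407, (List.forall_mem_cons.2 ⟨cert2408, (List.forall_mem_cons.2 ⟨cert2409, (List.forall_mem_cons.2 ⟨cert2410, (List.forall_mem_cons.2 ⟨cert2411, (List.forall_mem_cons.2 ⟨cert2412, (List.forall_mem_cons.2 ⟨cert2413, (List.forall_mem_cons.2 ⟨cert2414, (List.forall_mem_cons.2 ⟨cert2415, (List.forall_mem_cons.2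 ⟨cert2416, (List.forall_mem_cons.2 ⟨cert2417, (List.forall_mem_cons.2 ⟨cert2418, (List.forall_mem_cons.2 ⟨cert2419, (List.forall_mem_cons.2 ⟨cert2420, (List.forall_mem_cons.2 ⟨cert2421, (List.forall_mem_cons.2 ⟨cert2422, (List.forall_mem_cons.2 ⟨cert2423, (List.forall_mem_cons.2 ⟨cert2424, (List.forall_mem_cons.2 ⟨cert2425, (List.forall_mem_cons.2 ⟨cert2426, (List.forall_mem_cons.2 ⟨cert2427, (List.forall_mem_cons.2 ⟨cert2428, (List.forall_mem_cons.2 ⟨cert2429, (List.forall_mem_cons.2 ⟨cert2430, (List.forall_mem_cons.2 ⟨cert2431, (List.forall_mem_cons.2 ⟨cert2432, (List.forall_mem_cons.2 ⟨cert2433, (List.forall_mem_cons.2 ⟨cert2434, (List.forall_mem_cons.2 ⟨cert2435, (List.forall_mem_cons.2 ⟨cert2436, (List.forall_mem_cons.2 ⟨cert2437, (List.forall_mem_cons.2 ⟨cert2438, (List.forall_mem_cons.2 ⟨cert2439, (fun _ h => absurd h List.not_mem_nil)⟩)⟩)⟩)⟩)⟩)⟩)⟩)⟩)⟩)⟩)⟩)⟩)⟩)⟩)⟩)⟩)⟩)⟩)⟩)⟩)⟩)⟩)⟩)⟩)⟩)⟩)⟩)⟩)⟩)⟩)⟩)⟩)⟩)⟩)⟩)⟩)⟩)⟩)⟩)⟩)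

/-- Checked boxes. -/
noncomputable def checkedBoxes61 : List Bx :=
  [b2440, b2441, b2442, b2443, b2444, b2445, b2446, b2447, b2448, b2449, b2450, b2451, b2452, b2453, b2454, b2455, b2456, b2457, b2458, b2459, b2460, b2461, b2462, b2463, b2464, b2465, b2466, b2467, b2468, b2469, b2470, b2471, b2472, b2473, b2474, b2475, b2476, b2477, b2478, b2479]

theorem cert_boxes61 : ∀ x ∈ checkedBoxes61, Cert cfg x ids :=
  (List.forall_mem_cons.2 ⟨cert2440, (List.forall_mem_cons.2 ⟨cert2441, (List.forall_mem_cons.2 ⟨cert2442, (List.forall_mem_cons.2 ⟨cert2443, (List.forall_mem_cons.2 ⟨cert2444, (List.forall_mem_cons.2 ⟨cert2445, (List.forall_mem_cons.2 ⟨cert2446, (List.forall_mem_cons.2 ⟨cert2447, (List.forall_mem_cons.2 ⟨cert2448, (List.forall_mem_cons.2 ⟨cert2449, (List.forall_mem_cons.2 ⟨cert2450, (List.forall_mem_cons.2 ⟨cert2451, (List.forall_mem_cons.2 ⟨cert2452, (List.forall_mem_cons.2 ⟨cert2453, (List.forall_mem_cons.2 ⟨cert2454, (List.forall_mem_cons.2 ⟨cert2455, (List.forall_mem_cons.2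 ⟨cert2456, (List.forall_mem_cons.2 ⟨cert2457, (List.forall_mem_cons.2 ⟨cert2458, (List.forall_mem_cons.2 ⟨cert2459, (List.forall_mem_cons.2 ⟨cert2460, (List.forall_mem_cons.2 ⟨cert2461, (List.forall_mem_cons.2 ⟨cert2462, (List.forall_mem_cons.2 ⟨cert2463, (List.forall_mem_cons.2 ⟨cert2464, (List.forall_mem_cons.2 ⟨cert2465, (List.forall_mem_cons.2 ⟨cert2466, (List.forall_mem_cons.2 ⟨cert2467, (List.forall_mem_cons.2 ⟨cert2468, (List.forall_mem_cons.2 ⟨cert2469, (List.forall_mem_cons.2 ⟨cert2470, (List.forall_mem_cons.2 ⟨cert2471, (List.forall_mem_cons.2 ⟨cert2472, (List.forall_mem_cons.2 ⟨cert2473, (List.forall_mem_cons.2 ⟨cert2474, (List.forall_mem_cons.2 ⟨cert2475, (List.forall_mem_cons.2 ⟨cert2476, (List.forall_mem_cons.2 ⟨cert2477, (List.forall_mem_cons.2 ⟨cert2478, (List.forall_mem_cons.2 ⟨cert2479, (fun _ h => absurd h List.not_mem_nil)⟩)⟩)⟩)⟩)⟩)⟩)⟩)⟩)⟩)⟩)⟩)⟩)⟩)⟩)⟩)⟩)⟩)⟩)⟩)⟩)⟩)⟩)⟩)⟩)⟩)⟩)⟩)⟩)⟩)⟩)⟩)⟩)⟩)⟩)⟩)⟩)⟩)⟩)⟩)⟩)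

/-- Checked boxes. -/
noncomputable def checkedBoxes62 : List Bx :=
  [b2480, b2481, b2482, b2483, b2484, b2485, b2486, b2487, b2488, b2489, b2490, b2491, b2492, b2493, b2494, b2495, b2496, b2497, b2498, b2499, b2500, b2501, b2502, b2503, b2504, b2505, b2506, b2507, b2508, b2509, b2510, b2511, b2512, b2513, b2514, b2515, b2516, b2517, b2518, b2519]

theorem cert_boxes62 : ∀ x ∈ checkedBoxes62, Cert cfg x ids :=
  (List.forall_mem_cons.2 ⟨cert2480, (List.forall_mem_cons.2 ⟨cert2481, (List.forall_mem_cons.2 ⟨cert2482, (List.forall_mem_cons.2 ⟨cert2483, (List.forall_mem_cons.2 ⟨cert2484, (List.forall_mem_cons.2 ⟨cert2485, (List.forall_mem_cons.2 ⟨cert2486, (List.forall_mem_cons.2 ⟨cert2487, (List.forall_mem_cons.2 ⟨cert2488, (List.forall_mem_cons.2 ⟨cert2489, (List.forall_mem_cons.2 ⟨cert2490, (List.forall_mem_cons.2 ⟨cert2491, (List.forall_mem_cons.2 ⟨cert2492, (List.forall_mem_cons.2 ⟨cert2493, (List.forall_mem_cons.2 ⟨cert2494, (List.forall_mem_cons.2 ⟨cert2495, (List.forall_mem_cons.2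 ⟨cert2496, (List.forall_mem_cons.2 ⟨cert2497, (List.forall_mem_cons.2 ⟨cert2498, (List.forall_mem_cons.2 ⟨cert2499, (List.forall_mem_cons.2 ⟨cert2500, (List.forall_mem_cons.2 ⟨cert2501, (List.forall_mem_cons.2 ⟨cert2502, (List.forall_mem_cons.2 ⟨cert2503, (List.forall_mem_cons.2 ⟨cert2504, (List.forall_mem_cons.2 ⟨cert2505, (List.forall_mem_cons.2 ⟨cert2506, (List.forall_mem_cons.2 ⟨cert2507, (List.forall_mem_cons.2 ⟨cert2508, (List.forall_mem_cons.2 ⟨cert2509, (List.forall_mem_cons.2 ⟨cert2510, (List.forall_mem_cons.2 ⟨cert2511, (List.forall_mem_cons.2 ⟨cert2512, (List.forall_mem_cons.2 ⟨cert2513, (List.forall_mem_cons.2 ⟨cert2514, (List.forall_mem_cons.2 ⟨cert2515, (List.forall_mem_cons.2 ⟨cert2516, (List.forall_mem_cons.2 ⟨cert2517, (List.forall_mem_cons.2 ⟨cert2518, (List.forall_mem_cons.2 ⟨cert2519, (fun _ h => absurd h List.not_mem_nil)⟩)⟩)⟩)⟩)⟩)⟩)⟩)⟩)⟩)⟩)⟩)⟩)⟩)⟩)⟩)⟩)⟩)⟩)⟩)⟩)⟩)⟩)⟩)⟩)⟩)⟩)⟩)⟩)⟩)⟩)⟩)⟩)⟩)⟩)⟩)⟩)⟩)⟩)⟩)⟩)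

/-- Checked boxes. -/
noncomputable def checkedBoxes63 : List Bx :=
  [b2520, b2521, b2522, b2523, b2524, b2525, b2526, b2527, b2528, b2529, b2530, b2531, b2532, b2533, b2534, b2535, b2536, b2537, b2538, b2539, b2540, b2541, b2542, b2543, b2544, b2545, b2546, b2547, b2548, b2549, b2550, b2551, b2552, b2553, b2554, b2555, b2556, b2557, b2558, b2559]

theorem cert_boxes63 : ∀ x ∈ checkedBoxes63, Cert cfg x ids :=
  (List.forall_mem_cons.2 ⟨cert2520, (List.forall_mem_cons.2 ⟨cert2521, (List.forall_mem_cons.2 ⟨cert2522, (List.forall_mem_cons.2 ⟨cert2523, (List.forall_mem_cons.2 ⟨cert2524, (List.forall_mem_cons.2 ⟨cert2525, (List.forall_mem_cons.2 ⟨cert2526, (List.forall_mem_cons.2 ⟨cert2527, (List.forall_mem_cons.2 ⟨cert2528, (List.forall_mem_cons.2 ⟨cert2529, (List.forall_mem_cons.2 ⟨cert2530, (List.forall_mem_cons.2 ⟨cert2531, (List.forall_mem_cons.2 ⟨cert2532, (List.forall_mem_cons.2 ⟨cert2533, (List.forall_mem_cons.2 ⟨cert2534, (List.forall_mem_cons.2 ⟨cert2535, (List.forall_mem_cons.2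 ⟨cert2536, (List.forall_mem_cons.2 ⟨cert2537, (List.forall_mem_cons.2 ⟨cert2538, (List.forall_mem_cons.2 ⟨cert2539, (List.forall_mem_cons.2 ⟨cert2540, (List.forall_mem_cons.2 ⟨cert2541, (List.forall_mem_cons.2 ⟨cert2542, (List.forall_mem_cons.2 ⟨cert2543, (List.forall_mem_cons.2 ⟨cert2544, (List.forall_mem_cons.2 ⟨cert2545, (List.forall_mem_cons.2 ⟨cert2546, (List.forall_mem_cons.2 ⟨cert2547, (List.forall_mem_cons.2 ⟨cert2548, (List.forall_mem_cons.2 ⟨cert2549, (List.forall_mem_cons.2 ⟨cert2550, (List.forall_mem_cons.2 ⟨cert2551, (List.forall_mem_cons.2 ⟨cert2552, (List.forall_mem_cons.2 ⟨cert2553, (List.forall_mem_cons.2 ⟨cert2554, (List.forall_mem_cons.2 ⟨cert2555, (List.forall_mem_cons.2 ⟨cert2556, (List.forall_mem_cons.2 ⟨cert2557, (List.forall_mem_cons.2 ⟨cert2558, (List.forall_mem_cons.2 ⟨cert2559, (fun _ h => absurd h List.not_mem_nil)⟩)⟩)⟩)⟩)⟩)⟩)⟩)⟩)⟩)⟩)⟩)⟩)⟩)⟩)⟩)⟩)⟩)⟩)⟩)⟩)⟩)⟩)⟩)⟩)⟩)⟩)⟩)⟩)⟩)⟩)⟩)⟩)⟩)⟩)⟩)⟩)⟩)⟩)⟩)⟩)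

/-- Checked boxes. -/
noncomputable def checkedBoxes64 : List Bx :=
  [b2560, b2561, b2562, b2563, b2564, b2565, b2566, b2567, b2568, b2569, b2570, b2571, b2572, b2573, b2574, b2575, b2576, b2577, b2578, b2579, b2580, b2581, b2582, b2583, b2584, b2585, b2586, b2587, b2588, b2589, b2590, b2591, b2592, b2593, b2594, b2595, b2596, b2597, b2598, b2599]

theorem cert_boxes64 : ∀ x ∈ checkedBoxes64, Cert cfg x ids :=
  (List.forall_mem_cons.2 ⟨cert2560, (List.forall_mem_cons.2 ⟨cert2561, (List.forall_mem_cons.2 ⟨cert2562, (List.forall_mem_cons.2 ⟨cert2563, (List.forall_mem_cons.2 ⟨cert2564, (List.forall_mem_cons.2 ⟨cert2565, (List.forall_mem_cons.2 ⟨cert2566, (List.forall_mem_cons.2 ⟨cert2567, (List.forall_mem_cons.2 ⟨cert2568, (List.forall_mem_cons.2 ⟨cert2569, (List.forall_mem_cons.2 ⟨cert2570, (List.forall_mem_cons.2 ⟨cert2571, (List.forall_mem_cons.2 ⟨cert2572, (List.forall_mem_cons.2 ⟨cert2573, (List.forall_mem_cons.2 ⟨cert2574, (List.forall_mem_cons.2 ⟨cert2575, (List.forall_mem_cons.2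 ⟨cert2576, (List.forall_mem_cons.2 ⟨cert2577, (List.forall_mem_cons.2 ⟨cert2578, (List.forall_mem_cons.2 ⟨cert2579, (List.forall_mem_cons.2 ⟨cert2580, (List.forall_mem_cons.2 ⟨cert2581, (List.forall_mem_cons.2 ⟨cert2582, (List.forall_mem_cons.2 ⟨cert2583, (List.forall_mem_cons.2 ⟨cert2584, (List.forall_mem_cons.2 ⟨cert2585, (List.forall_mem_cons.2 ⟨cert2586, (List.forall_mem_cons.2 ⟨cert2587, (List.forall_mem_cons.2 ⟨cert2588, (List.forall_mem_cons.2 ⟨cert2589, (List.forall_mem_cons.2 ⟨cert2590, (List.forall_mem_cons.2 ⟨cert2591, (List.forall_mem_cons.2 ⟨cert2592, (List.forall_mem_cons.2 ⟨cert2593, (List.forall_mem_cons.2 ⟨cert2594, (List.forall_mem_cons.2 ⟨cert2595, (List.forall_mem_cons.2 ⟨cert2596, (List.forall_mem_cons.2 ⟨cert2597, (List.forall_mem_cons.2 ⟨cert2598, (List.forall_mem_cons.2 ⟨cert2599, (fun _ h => absurd h List.not_mem_nil)⟩)⟩)⟩)⟩)⟩)⟩)⟩)⟩)⟩)⟩)⟩)⟩)⟩)⟩)⟩)⟩)⟩)⟩)⟩)⟩)⟩)⟩)⟩)⟩)⟩)⟩)⟩)⟩)⟩)⟩)⟩)⟩)⟩)⟩)⟩)⟩)⟩)⟩)⟩)⟩)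

/-- Checked boxes. -/
noncomputable def checkedBoxes65 : List Bx :=
  [b2600, b2601, b2602, b2603, b2604, b2605, b2606, b2607, b2608, b2609, b2610, b2611, b2612, b2613, b2614, b2615, b2616, b2617, b2618, b2619, b2620, b2621, b2622, b2623, b2624, b2625, b2626, b2627, b2628, b2629, b2630, b2631, b2632, b2633, b2634, b2635, b2636, b2637, b2638, b2639]

theorem cert_boxes65 : ∀ x ∈ checkedBoxes65, Cert cfg x ids :=
  (List.forall_mem_cons.2 ⟨cert2600, (List.forall_mem_cons.2 ⟨cert2601, (List.forall_mem_cons.2 ⟨cert2602, (List.forall_mem_cons.2 ⟨cert2603, (List.forall_mem_cons.2 ⟨cert2604, (List.forall_mem_cons.2 ⟨cert2605, (List.forall_mem_cons.2 ⟨cert2606, (List.forall_mem_cons.2 ⟨cert2607, (List.forall_mem_cons.2 ⟨cert2608, (List.forall_mem_cons.2 ⟨cert2609, (List.forall_mem_cons.2 ⟨cert2610, (List.forall_mem_cons.2 ⟨cert2611, (List.forall_mem_cons.2 ⟨cert2612, (List.forall_mem_cons.2 ⟨cert2613, (List.forall_mem_cons.2 ⟨cert2614, (List.forall_mem_cons.2 ⟨cert2615, (List.forall_mem_cons.2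 ⟨cert2616, (List.forall_mem_cons.2 ⟨cert2617, (List.forall_mem_cons.2 ⟨cert2618, (List.forall_mem_cons.2 ⟨cert2619, (List.forall_mem_cons.2 ⟨cert2620, (List.forall_mem_cons.2 ⟨cert2621, (List.forall_mem_cons.2 ⟨cert2622, (List.forall_mem_cons.2 ⟨cert2623, (List.forall_mem_cons.2 ⟨cert2624, (List.forall_mem_cons.2 ⟨cert2625, (List.forall_mem_cons.2 ⟨cert2626, (List.forall_mem_cons.2 ⟨cert2627, (List.forall_mem_cons.2 ⟨cert2628, (List.forall_mem_cons.2 ⟨cert2629, (List.forall_mem_cons.2 ⟨cert2630, (List.forall_mem_cons.2 ⟨cert2631, (List.forall_mem_cons.2 ⟨cert2632, (List.forall_mem_cons.2 ⟨cert2633, (List.forall_mem_cons.2 ⟨cert2634, (List.forall_mem_cons.2 ⟨cert2635, (List.forall_mem_cons.2 ⟨cert2636, (List.forall_mem_cons.2 ⟨cert2637, (List.forall_mem_cons.2 ⟨cert2638, (List.forall_mem_cons.2 ⟨cert2639, (fun _ h => absurd h List.not_mem_nil)⟩)⟩)⟩)⟩)⟩)⟩)⟩)⟩)⟩)⟩)⟩)⟩)⟩)⟩)⟩)⟩)⟩)⟩)⟩)⟩)⟩)⟩)⟩)⟩)⟩)⟩)⟩)⟩)⟩)⟩)⟩)⟩)⟩)⟩)⟩)⟩)⟩)⟩)⟩)⟩)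

/-- Checked boxes. -/
noncomputable def checkedBoxes66 : List Bx :=
  [b2640, b2641, b2642, b2643, b2644, b2645, b2646, b2647, b2648, b2649, b2650, b2651, b2652, b2653, b2654, b2655, b2656, b2657, b2658, b2659, b2660, b2661, b2662, b2663, b2664, b2665, b2666, b2667, b2668, b2669, b2670, b2671, b2672, b2673, b2674, b2675, b2676, b2677, b2678, b2679]

theorem cert_boxes66 : ∀ x ∈ checkedBoxes66, Cert cfg x ids :=
  (List.forall_mem_cons.2 ⟨cert2640, (List.forall_mem_cons.2 ⟨cert2641, (List.forall_mem_cons.2 ⟨cert2642, (List.forall_mem_cons.2 ⟨cert2643, (List.forall_mem_cons.2 ⟨cert2644, (List.forall_mem_cons.2 ⟨cert2645, (List.forall_mem_cons.2 ⟨cert2646, (List.forall_mem_cons.2 ⟨cert2647, (List.forall_mem_cons.2 ⟨cert2648, (List.forall_mem_cons.2 ⟨cert2649, (List.forall_mem_cons.2 ⟨cert2650, (List.forall_mem_cons.2 ⟨cert2651, (List.forall_mem_cons.2 ⟨cert2652, (List.forall_mem_cons.2 ⟨cert2653, (List.forall_mem_cons.2 ⟨cert2654, (List.forall_mem_cons.2 ⟨cert2655, (List.forall_mem_cons.2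 ⟨cert2656, (List.forall_mem_cons.2 ⟨cert2657, (List.forall_mem_cons.2 ⟨cert2658, (List.forall_mem_cons.2 ⟨cert2659, (List.forall_mem_cons.2 ⟨cert2660, (List.forall_mem_cons.2 ⟨cert2661, (List.forall_mem_cons.2 ⟨cert2662, (List.forall_mem_cons.2 ⟨cert2663, (List.forall_mem_cons.2 ⟨cert2664, (List.forall_mem_cons.2 ⟨cert2665, (List.forall_mem_cons.2 ⟨cert2666, (List.forall_mem_cons.2 ⟨cert2667, (List.forall_mem_cons.2 ⟨cert2668, (List.forall_mem_cons.2 ⟨cert2669, (List.forall_mem_cons.2 ⟨cert2670, (List.forall_mem_cons.2 ⟨cert2671, (List.forall_mem_cons.2 ⟨cert2672, (List.forall_mem_cons.2 ⟨cert2673, (List.forall_mem_cons.2 ⟨cert2674, (List.forall_mem_cons.2 ⟨cert2675, (List.forall_mem_cons.2 ⟨cert2676, (List.forall_mem_cons.2 ⟨cert2677, (List.forall_mem_cons.2 ⟨cert2678, (List.forall_mem_cons.2 ⟨cert2679, (fun _ h => absurd h List.not_mem_nil)⟩)⟩)⟩)⟩)⟩)⟩)⟩)⟩)⟩)⟩)⟩)⟩)⟩)⟩)⟩)⟩)⟩)⟩)⟩)⟩)⟩)⟩)⟩)⟩)⟩)⟩)⟩)⟩)⟩)⟩)⟩)⟩)⟩)⟩)⟩)⟩)⟩)⟩)⟩)⟩)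

/-- Checked boxes. -/
noncomputable def checkedBoxes67 : List Bx :=
  [b2680, b2681, b2682, b2683, b2684, b2685, b2686, b2687, b2688, b2689, b2690, b2691, b2692, b2693, b2694, b2695, b2696, b2697, b2698, b2699, b2700, b2701, b2702, b2703, b2704, b2705, b2706, b2707, b2708, b2709, b2710, b2711, b2712, b2713, b2714, b2715, b2716, b2717, b2718, b2719]

theorem cert_boxes67 : ∀ x ∈ checkedBoxes67, Cert cfg x ids :=
  (List.forall_mem_cons.2 ⟨cert2680, (List.forall_mem_cons.2 ⟨cert2681, (List.forall_mem_cons.2 ⟨cert2682, (List.forall_mem_cons.2 ⟨cert2683, (List.forall_mem_cons.2 ⟨cert2684, (List.forall_mem_cons.2 ⟨cert2685, (List.forall_mem_cons.2 ⟨cert2686, (List.forall_mem_cons.2 ⟨cert2687, (List.forall_mem_cons.2 ⟨cert2688, (List.forall_mem_cons.2 ⟨cert2689, (List.forall_mem_cons.2 ⟨cert2690, (List.forall_mem_cons.2 ⟨cert2691, (List.forall_mem_cons.2 ⟨cert2692, (List.forall_mem_cons.2 ⟨cert2693, (List.forall_mem_cons.2 ⟨cert2694, (List.forall_mem_cons.2 ⟨cert2695, (List.forall_mem_cons.2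 ⟨cert2696, (List.forall_mem_cons.2 ⟨cert2697, (List.forall_mem_cons.2 ⟨cert2698, (List.forall_mem_cons.2 ⟨cert2699, (List.forall_mem_cons.2 ⟨cert2700, (List.forall_mem_cons.2 ⟨cert2701, (List.forall_mem_cons.2 ⟨cert2702, (List.forall_mem_cons.2 ⟨cert2703, (List.forall_mem_cons.2 ⟨cert2704, (List.forall_mem_cons.2 ⟨cert2705, (List.forall_mem_cons.2 ⟨cert2706, (List.forall_mem_cons.2 ⟨cert2707, (List.forall_mem_cons.2 ⟨cert2708, (List.forall_mem_cons.2 ⟨cert2709, (List.forall_mem_cons.2 ⟨cert2710, (List.forall_mem_cons.2 ⟨cert2711, (List.forall_mem_cons.2 ⟨cert2712, (List.forall_mem_cons.2 ⟨cert2713, (List.forall_mem_cons.2 ⟨cert2714, (List.forall_mem_cons.2 ⟨cert2715, (List.forall_mem_cons.2 ⟨cert2716, (List.forall_mem_cons.2 ⟨cert2717, (List.forall_mem_cons.2 ⟨cert2718, (List.forall_mem_cons.2 ⟨cert2719, (fun _ h => absurd h List.not_mem_nil)⟩)⟩)⟩)⟩)⟩)⟩)⟩)⟩)⟩)⟩)⟩)⟩)⟩)⟩)⟩)⟩)⟩)⟩)⟩)⟩)⟩)⟩)⟩)⟩)⟩)⟩)⟩)⟩)⟩)⟩)⟩)⟩)⟩)⟩)⟩)⟩)⟩)⟩)⟩)⟩)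

/-- Checked boxes. -/
noncomputable def checkedBoxes68 : List Bx :=
  [b2720, b2721, b2722, b2723, b2724, b2725, b2726, b2727, b2728, b2729, b2730, b2731, b2732, b2733, b2734, b2735, b2736, b2737, b2738, b2739, b2740, b2741, b2742, b2743, b2744, b2745, b2746, b2747, b2748, b2749, b2750, b2751, b2752, b2753, b2754, b2755, b2756, b2757, b2758, b2759]

theorem cert_boxes68 : ∀ x ∈ checkedBoxes68, Cert cfg x ids :=
  (List.forall_mem_cons.2 ⟨cert2720, (List.forall_mem_cons.2 ⟨cert2721, (List.forall_mem_cons.2 ⟨cert2722, (List.forall_mem_cons.2 ⟨cert2723, (List.forall_mem_cons.2 ⟨cert2724, (List.forall_mem_cons.2 ⟨cert2725, (List.forall_mem_cons.2 ⟨cert2726, (List.forall_mem_cons.2 ⟨cert2727, (List.forall_mem_cons.2 ⟨cert2728, (List.forall_mem_cons.2 ⟨cert2729, (List.forall_mem_cons.2 ⟨cert2730, (List.forall_mem_cons.2 ⟨cert2731, (List.forall_mem_cons.2 ⟨cert2732, (List.forall_mem_cons.2 ⟨cert2733, (List.forall_mem_cons.2 ⟨cert2734, (List.forall_mem_cons.2 ⟨cert2735, (List.forall_mem_cons.2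 ⟨cert2736, (List.forall_mem_cons.2 ⟨cert2737, (List.forall_mem_cons.2 ⟨cert2738, (List.forall_mem_cons.2 ⟨cert2739, (List.forall_mem_cons.2 ⟨cert2740, (List.forall_mem_cons.2 ⟨cert2741, (List.forall_mem_cons.2 ⟨cert2742, (List.forall_mem_cons.2 ⟨cert2743, (List.forall_mem_cons.2 ⟨cert2744, (List.forall_mem_cons.2 ⟨cert2745, (List.forall_mem_cons.2 ⟨cert2746, (List.forall_mem_cons.2 ⟨cert2747, (List.forall_mem_cons.2 ⟨cert2748, (List.forall_mem_cons.2 ⟨cert2749, (List.forall_mem_cons.2 ⟨cert2750, (List.forall_mem_cons.2 ⟨cert2751, (List.forall_mem_cons.2 ⟨cert2752, (List.forall_mem_cons.2 ⟨cert2753, (List.forall_mem_cons.2 ⟨cert2754, (List.forall_mem_cons.2 ⟨cert2755, (List.forall_mem_cons.2 ⟨cert2756, (List.forall_mem_cons.2 ⟨cert2757, (List.forall_mem_cons.2 ⟨cert2758, (List.forall_mem_cons.2 ⟨cert2759, (fun _ h => absurd h List.not_mem_nil)⟩)⟩)⟩)⟩)⟩)⟩)⟩)⟩)⟩)⟩)⟩)⟩)⟩)⟩)⟩)⟩)⟩)⟩)⟩)⟩)⟩)⟩)⟩)⟩)⟩)⟩)⟩)⟩)⟩)⟩)⟩)⟩)⟩)⟩)⟩)⟩)⟩)⟩)⟩)⟩)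

/-- Checked boxes. -/
noncomputable def checkedBoxes69 : List Bx :=
  [b2760, b2761, b2762, b2763, b2764, b2765, b2766, b2767, b2768, b2769, b2770, b2771, b2772, b2773, b2774, b2775, b2776, b2777, b2778, b2779, b2780, b2781, b2782, b2783, b2784, b2785, b2786, b2787, b2788, b2789, b2790, b2791, b2792, b2793, b2794, b2795, b2796, b2797, b2798, b2799]

theorem cert_boxes69 : ∀ x ∈ checkedBoxes69, Cert cfg x ids :=
  (List.forall_mem_cons.2 ⟨cert2760, (List.forall_mem_cons.2 ⟨cert2761, (List.forall_mem_cons.2 ⟨cert2762, (List.forall_mem_cons.2 ⟨cert2763, (List.forall_mem_cons.2 ⟨cert2764, (List.forall_mem_cons.2 ⟨cert2765, (List.forall_mem_cons.2 ⟨cert2766, (List.forall_mem_cons.2 ⟨cert2767, (List.forall_mem_cons.2 ⟨cert2768, (List.forall_mem_cons.2 ⟨cert2769, (List.forall_mem_cons.2 ⟨cert2770, (List.forall_mem_cons.2 ⟨cert2771, (List.forall_mem_cons.2 ⟨cert2772, (List.forall_mem_cons.2 ⟨cert2773, (List.forall_mem_cons.2 ⟨cert2774, (List.forall_mem_cons.2 ⟨cert2775, (List.forall_mem_cons.2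 ⟨cert2776, (List.forall_mem_cons.2 ⟨cert2777, (List.forall_mem_cons.2 ⟨cert2778, (List.forall_mem_cons.2 ⟨cert2779, (List.forall_mem_cons.2 ⟨cert2780, (List.forall_mem_cons.2 ⟨cert2781, (List.forall_mem_cons.2 ⟨cert2782, (List.forall_mem_cons.2 ⟨cert2783, (List.forall_mem_cons.2 ⟨cert2784, (List.forall_mem_cons.2 ⟨cert2785, (List.forall_mem_cons.2 ⟨cert2786, (List.forall_mem_cons.2 ⟨cert2787, (List.forall_mem_cons.2 ⟨cert2788, (List.forall_mem_cons.2 ⟨cert2789, (List.forall_mem_cons.2 ⟨cert2790, (List.forall_mem_cons.2 ⟨cert2791, (List.forall_mem_cons.2 ⟨cert2792, (List.forall_mem_cons.2 ⟨cert2793, (List.forall_mem_cons.2 ⟨cert2794, (List.forall_mem_cons.2 ⟨cert2795, (List.forall_mem_cons.2 ⟨cert2796, (List.forall_mem_cons.2 ⟨cert2797, (List.forall_mem_cons.2 ⟨cert2798, (List.forall_mem_cons.2 ⟨cert2799, (fun _ h => absurd h List.not_mem_nil)⟩)⟩)⟩)⟩)⟩)⟩)⟩)⟩)⟩)⟩)⟩)⟩)⟩)⟩)⟩)⟩)⟩)⟩)⟩)⟩)⟩)⟩)⟩)⟩)⟩)⟩)⟩)⟩)⟩)⟩)⟩)⟩)⟩)⟩)⟩)⟩)⟩)⟩)⟩)⟩)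

/-- Checked boxes. -/
noncomputable def checkedBoxes70 : List Bx :=
  [b2800, b2801, b2802, b2803, b2804, b2805, b2806, b2807, b2808, b2809, b2810, b2811, b2812, b2813, b2814, b2815, b2816, b2817, b2818, b2819, b2820, b2821, b2822, b2823, b2824, b2825, b2826, b2827, b2828, b2829, b2830, b2831, b2832, b2833, b2834, b2835, b2836, b2837, b2838, b2839]

theorem cert_boxes70 : ∀ x ∈ checkedBoxes70, Cert cfg x ids :=
  (List.forall_mem_cons.2 ⟨cert2800, (List.forall_mem_cons.2 ⟨cert2801, (List.forall_mem_cons.2 ⟨cert2802, (List.forall_mem_cons.2 ⟨cert2803, (List.forall_mem_cons.2 ⟨cert2804, (List.forall_mem_cons.2 ⟨cert2805, (List.forall_mem_cons.2 ⟨cert2806, (List.forall_mem_cons.2 ⟨cert2807, (List.forall_mem_cons.2 ⟨cert2808, (List.forall_mem_cons.2 ⟨cert2809, (List.forall_mem_cons.2 ⟨cert2810, (List.forall_mem_cons.2 ⟨cert2811, (List.forall_mem_cons.2 ⟨cert2812, (List.forall_mem_cons.2 ⟨cert2813, (List.forall_mem_cons.2 ⟨cert2814, (List.forall_mem_cons.2 ⟨cert2815, (List.forall_mem_cons.2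 ⟨cert2816, (List.forall_mem_cons.2 ⟨cert2817, (List.forall_mem_cons.2 ⟨cert2818, (List.forall_mem_cons.2 ⟨cert2819, (List.forall_mem_cons.2 ⟨cert2820, (List.forall_mem_cons.2 ⟨cert2821, (List.forall_mem_cons.2 ⟨cert2822, (List.forall_mem_cons.2 ⟨cert2823, (List.forall_mem_cons.2 ⟨cert2824, (List.forall_mem_cons.2 ⟨cert2825, (List.forall_mem_cons.2 ⟨cert2826, (List.forall_mem_cons.2 ⟨cert2827, (List.forall_mem_cons.2 ⟨cert2828, (List.forall_mem_cons.2 ⟨cert2829, (List.forall_mem_cons.2 ⟨cert2830, (List.forall_mem_cons.2 ⟨cert2831, (List.forall_mem_cons.2 ⟨cert2832, (List.forall_mem_cons.2 ⟨cert2833, (List.forall_mem_cons.2 ⟨cert2834, (List.forall_mem_cons.2 ⟨cert2835, (List.forall_mem_cons.2 ⟨cert2836, (List.forall_mem_cons.2 ⟨cert2837, (List.forall_mem_cons.2 ⟨cert2838, (List.forall_mem_cons.2 ⟨cert2839, (fun _ h => absurd h List.not_mem_nil)⟩)⟩)⟩)⟩)⟩)⟩)⟩)⟩)⟩)⟩)⟩)⟩)⟩)⟩)⟩)⟩)⟩)⟩)⟩)⟩)⟩)⟩)⟩)⟩)⟩)⟩)⟩)⟩)⟩)⟩)⟩)⟩)⟩)⟩)⟩)⟩)⟩)⟩)⟩)⟩)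

/-- Checked boxes. -/
noncomputable def checkedBoxes71 : List Bx :=
  [b2840, b2841, b2842, b2843, b2844, b2845, b2846, b2847, b2848, b2849, b2850, b2851, b2852, b2853, b2854, b2855, b2856, b2857, b2858, b2859, b2860, b2861, b2862, b2863, b2864, b2865, b2866, b2867, b2868, b2869, b2870, b2871, b2872, b2873, b2874, b2875, b2876, b2877, b2878, b2879]

theorem cert_boxes71 : ∀ x ∈ checkedBoxes71, Cert cfg x ids :=
  (List.forall_mem_cons.2 ⟨cert2840, (List.forall_mem_cons.2 ⟨cert2841, (List.forall_mem_cons.2 ⟨cert2842, (List.forall_mem_cons.2 ⟨cert2843, (List.forall_mem_cons.2 ⟨cert2844, (List.forall_mem_cons.2 ⟨cert2845, (List.forall_mem_cons.2 ⟨cert2846, (List.forall_mem_cons.2 ⟨cert2847, (List.forall_mem_cons.2 ⟨cert2848, (List.forall_mem_cons.2 ⟨cert2849, (List.forall_mem_cons.2 ⟨cert2850, (List.forall_mem_cons.2 ⟨cert2851, (List.forall_mem_cons.2 ⟨cert2852, (List.forall_mem_cons.2 ⟨cert2853, (List.forall_mem_cons.2 ⟨cert2854, (List.forall_mem_cons.2 ⟨cert2855, (List.forall_mem_cons.2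 ⟨cert2856, (List.forall_mem_cons.2 ⟨cert2857, (List.forall_mem_cons.2 ⟨cert2858, (List.forall_mem_cons.2 ⟨cert2859, (List.forall_mem_cons.2 ⟨cert2860, (List.forall_mem_cons.2 ⟨cert2861, (List.forall_mem_cons.2 ⟨cert2862, (List.forall_mem_cons.2 ⟨cert2863, (List.forall_mem_cons.2 ⟨cert2864, (List.forall_mem_cons.2 ⟨cert2865, (List.forall_mem_cons.2 ⟨cert2866, (List.forall_mem_cons.2 ⟨cert2867, (List.forall_mem_cons.2 ⟨cert2868, (List.forall_mem_cons.2 ⟨cert2869, (List.forall_mem_cons.2 ⟨cert2870, (List.forall_mem_cons.2 ⟨cert2871, (List.forall_mem_cons.2 ⟨cert2872, (List.forall_mem_cons.2 ⟨cert2873, (List.forall_mem_cons.2 ⟨cert2874, (List.forall_mem_cons.2 ⟨cert2875, (List.forall_mem_cons.2 ⟨cert2876, (List.forall_mem_cons.2 ⟨cert2877, (List.forall_mem_cons.2 ⟨cert2878, (List.forall_mem_cons.2 ⟨cert2879, (fun _ h => absurd h List.not_mem_nil)⟩)⟩)⟩)⟩)⟩)⟩)⟩)⟩)⟩)⟩)⟩)⟩)⟩)⟩)⟩)⟩)⟩)⟩)⟩)⟩)⟩)⟩)⟩)⟩)⟩)⟩)⟩)⟩)⟩)⟩)⟩)⟩)⟩)⟩)⟩)⟩)⟩)⟩)⟩)⟩)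

/-- Checked boxes. -/
noncomputable def checkedBoxes72 : List Bx :=
  [b2880, b2881, b2882, b2883, b2884, b2885, b2886, b2887, b2888, b2889, b2890, b2891, b2892, b2893, b2894, b2895, b2896, b2897, b2898, b2899, b2900, b2901, b2902, b2903, b2904, b2905, b2906, b2907, b2908, b2909, b2910, b2911, b2912, b2913, b2914, b2915, b2916, b2917, b2918, b2919]

theorem cert_boxes72 : ∀ x ∈ checkedBoxes72, Cert cfg x ids :=
  (List.forall_mem_cons.2 ⟨cert2880, (List.forall_mem_cons.2 ⟨cert2881, (List.forall_mem_cons.2 ⟨cert2882, (List.forall_mem_cons.2 ⟨cert2883, (List.forall_mem_cons.2 ⟨cert2884, (List.forall_mem_cons.2 ⟨cert2885, (List.forall_mem_cons.2 ⟨cert2886, (List.forall_mem_cons.2 ⟨cert2887, (List.forall_mem_cons.2 ⟨cert2888, (List.forall_mem_cons.2 ⟨cert2889, (List.forall_mem_cons.2 ⟨cert2890, (List.forall_mem_cons.2 ⟨cert2891, (List.forall_mem_cons.2 ⟨cert2892, (List.forall_mem_cons.2 ⟨cert2893, (List.forall_mem_cons.2 ⟨cert2894, (List.forall_mem_cons.2 ⟨cert2895, (List.forall_mem_cons.2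 ⟨cert2896, (List.forall_mem_cons.2 ⟨cert2897, (List.forall_mem_cons.2 ⟨cert2898, (List.forall_mem_cons.2 ⟨cert2899, (List.forall_mem_cons.2 ⟨cert2900, (List.forall_mem_cons.2 ⟨cert2901, (List.forall_mem_cons.2 ⟨cert2902, (List.forall_mem_cons.2 ⟨cert2903, (List.forall_mem_cons.2 ⟨cert2904, (List.forall_mem_cons.2 ⟨cert2905, (List.forall_mem_cons.2 ⟨cert2906, (List.forall_mem_cons.2 ⟨cert2907, (List.forall_mem_cons.2 ⟨cert2908, (List.forall_mem_cons.2 ⟨cert2909, (List.forall_mem_cons.2 ⟨cert2910, (List.forall_mem_cons.2 ⟨cert2911, (List.forall_mem_cons.2 ⟨cert2912, (List.forall_mem_cons.2 ⟨cert2913, (List.forall_mem_cons.2 ⟨cert2914, (List.forall_mem_cons.2 ⟨cert2915, (List.forall_mem_cons.2 ⟨cert2916, (List.forall_mem_cons.2 ⟨cert2917, (List.forall_mem_cons.2 ⟨cert2918, (List.forall_mem_cons.2 ⟨cert2919, (fun _ h => absurd h List.not_mem_nil)⟩)⟩)⟩)⟩)⟩)⟩)⟩)⟩)⟩)⟩)⟩)⟩)⟩)⟩)⟩)⟩)⟩)⟩)⟩)⟩)⟩)⟩)⟩)⟩)⟩)⟩)⟩)⟩)⟩)⟩)⟩)⟩)⟩)⟩)⟩)⟩)⟩)⟩)⟩)⟩)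

/-- Checked boxes. -/
noncomputable def checkedBoxes73 : List Bx :=
  [b2920, b2921, b2922, b2923, b2924, b2925, b2926, b2927, b2928, b2929, b2930, b2931, b2932, b2933, b2934, b2935, b2936, b2937, b2938, b2939, b2940, b2941, b2942, b2943, b2944, b2945, b2946, b2947, b2948, b2949, b2950, b2951, b2952, b2953, b2954, b2955, b2956, b2957, b2958, b2959]

theorem cert_boxes73 : ∀ x ∈ checkedBoxes73, Cert cfg x ids :=
  (List.forall_mem_cons.2 ⟨cert2920, (List.forall_mem_cons.2 ⟨cert2921, (List.forall_mem_cons.2 ⟨cert2922, (List.forall_mem_cons.2 ⟨cert2923, (List.forall_mem_cons.2 ⟨cert2924, (List.forall_mem_cons.2 ⟨cert2925, (List.forall_mem_cons.2 ⟨cert2926, (List.forall_mem_cons.2 ⟨cert2927, (List.forall_mem_cons.2 ⟨cert2928, (List.forall_mem_cons.2 ⟨cert2929, (List.forall_mem_cons.2 ⟨cert2930, (List.forall_mem_cons.2 ⟨cert2931, (List.forall_mem_cons.2 ⟨cert2932, (List.forall_mem_cons.2 ⟨cert2933, (List.forall_mem_cons.2 ⟨cert2934, (List.forall_mem_cons.2 ⟨cert2935, (List.forall_mem_cons.2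 ⟨cert2936, (List.forall_mem_cons.2 ⟨cert2937, (List.forall_mem_cons.2 ⟨cert2938, (List.forall_mem_cons.2 ⟨cert2939, (List.forall_mem_cons.2 ⟨cert2940, (List.forall_mem_cons.2 ⟨cert2941, (List.forall_mem_cons.2 ⟨cert2942, (List.forall_mem_cons.2 ⟨cert2943, (List.forall_mem_cons.2 ⟨cert2944, (List.forall_mem_cons.2 ⟨cert2945, (List.forall_mem_cons.2 ⟨cert2946, (List.forall_mem_cons.2 ⟨cert2947, (List.forall_mem_cons.2 ⟨cert2948, (List.forall_mem_cons.2 ⟨cert2949, (List.forall_mem_cons.2 ⟨cert2950, (List.forall_mem_cons.2 ⟨cert2951, (List.forall_mem_cons.2 ⟨cert2952, (List.forall_mem_cons.2 ⟨cert2953, (List.forall_mem_cons.2 ⟨cert2954, (List.forall_mem_cons.2 ⟨cert2955, (List.forall_mem_cons.2 ⟨cert2956, (List.forall_mem_cons.2 ⟨cert2957, (List.forall_mem_cons.2 ⟨cert2958, (List.forall_mem_cons.2 ⟨cert2959, (fun _ h => absurd h List.not_mem_nil)⟩)⟩)⟩)⟩)⟩)⟩)⟩)⟩)⟩)⟩)⟩)⟩)⟩)⟩)⟩)⟩)⟩)⟩)⟩)⟩)⟩)⟩)⟩)⟩)⟩)⟩)⟩)⟩)⟩)⟩)⟩)⟩)⟩)⟩)⟩)⟩)⟩)⟩)⟩)⟩)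

/-- Checked boxes. -/
noncomputable def checkedBoxes74 : List Bx :=
  [b2960, b2961, b2962, b2963, b2964, b2965, b2966, b2967, b2968, b2969, b2970, b2971, b2972, b2973, b2974, b2975, b2976, b2977, b2978, b2979, b2980, b2981, b2982, b2983, b2984, b2985, b2986, b2987, b2988, b2989, b2990, b2991, b2992, b2993, b2994, b2995, b2996, b2997, b2998, b2999]

theorem cert_boxes74 : ∀ x ∈ checkedBoxes74, Cert cfg x ids :=
  (List.forall_mem_cons.2 ⟨cert2960, (List.forall_mem_cons.2 ⟨cert2961, (List.forall_mem_cons.2 ⟨cert2962, (List.forall_mem_cons.2 ⟨cert2963, (List.forall_mem_cons.2 ⟨cert2964, (List.forall_mem_cons.2 ⟨cert2965, (List.forall_mem_cons.2 ⟨cert2966, (List.forall_mem_cons.2 ⟨cert2967, (List.forall_mem_cons.2 ⟨cert2968, (List.forall_mem_cons.2 ⟨cert2969, (List.forall_mem_cons.2 ⟨cert2970, (List.forall_mem_cons.2 ⟨cert2971, (List.forall_mem_cons.2 ⟨cert2972, (List.forall_mem_cons.2 ⟨cert2973, (List.forall_mem_cons.2 ⟨cert2974, (List.forall_mem_cons.2 ⟨cert2975, (List.forall_mem_cons.2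 ⟨cert2976, (List.forall_mem_cons.2 ⟨cert2977, (List.forall_mem_cons.2 ⟨cert2978, (List.forall_mem_cons.2 ⟨cert2979, (List.forall_mem_cons.2 ⟨cert2980, (List.forall_mem_cons.2 ⟨cert2981, (List.forall_mem_cons.2 ⟨cert2982, (List.forall_mem_cons.2 ⟨cert2983, (List.forall_mem_cons.2 ⟨cert2984, (List.forall_mem_cons.2 ⟨cert2985, (List.forall_mem_cons.2 ⟨cert2986, (List.forall_mem_cons.2 ⟨cert2987, (List.forall_mem_cons.2 ⟨cert2988, (List.forall_mem_cons.2 ⟨cert2989, (List.forall_mem_cons.2 ⟨cert2990, (List.forall_mem_cons.2 ⟨cert2991, (List.forall_mem_cons.2 ⟨cert2992, (List.forall_mem_cons.2 ⟨cert2993, (List.forall_mem_cons.2 ⟨cert2994, (List.forall_mem_cons.2 ⟨cert2995, (List.forall_mem_cons.2 ⟨cert2996, (List.forall_mem_cons.2 ⟨cert2997, (List.forall_mem_cons.2 ⟨cert2998, (List.forall_mem_cons.2 ⟨cert2999, (fun _ h => absurd h List.not_mem_nil)⟩)⟩)⟩)⟩)⟩)⟩)⟩)⟩)⟩)⟩)⟩)⟩)⟩)⟩)⟩)⟩)⟩)⟩)⟩)⟩)⟩)⟩)⟩)⟩)⟩)⟩)⟩)⟩)⟩)⟩)⟩)⟩)⟩)⟩)⟩)⟩)⟩)⟩)⟩)⟩)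

/-- Checked boxes. -/
noncomputable def checkedBoxes75 : List Bx :=
  [b3000, b3001, b3002, b3003, b3004, b3005, b3006, b3007, b3008, b3009, b3010, b3011, b3012, b3013, b3014, b3015, b3016, b3017, b3018, b3019, b3020, b3021, b3022, b3023, b3024, b3025, b3026, b3027, b3028, b3029, b3030, b3031, b3032, b3033, b3034, b3035, b3036, b3037, b3038, b3039]

theorem cert_boxes75 : ∀ x ∈ checkedBoxes75, Cert cfg x ids :=
  (List.forall_mem_cons.2 ⟨cert3000, (List.forall_mem_cons.2 ⟨cert3001, (List.forall_mem_cons.2 ⟨cert3002, (List.forall_mem_cons.2 ⟨cert3003, (List.forall_mem_cons.2 ⟨cert3004, (List.forall_mem_cons.2 ⟨cert3005, (List.forall_mem_cons.2 ⟨cert3006, (List.forall_mem_cons.2 ⟨cert3007, (List.forall_mem_cons.2 ⟨cert3008, (List.forall_mem_cons.2 ⟨cert3009, (List.forall_mem_cons.2 ⟨cert3010, (List.forall_mem_cons.2 ⟨cert3011, (List.forall_mem_cons.2 ⟨cert3012, (List.forall_mem_cons.2 ⟨cert3013, (List.forall_mem_cons.2 ⟨cert3014, (List.forall_mem_cons.2 ⟨cert3015, (List.forall_mem_cons.2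 ⟨cert3016, (List.forall_mem_cons.2 ⟨cert3017, (List.forall_mem_cons.2 ⟨cert3018, (List.forall_mem_cons.2 ⟨cert3019, (List.forall_mem_cons.2 ⟨cert3020, (List.forall_mem_cons.2 ⟨cert3021, (List.forall_mem_cons.2 ⟨cert3022, (List.forall_mem_cons.2 ⟨cert3023, (List.forall_mem_cons.2 ⟨cert3024, (List.forall_mem_cons.2 ⟨cert3025, (List.forall_mem_cons.2 ⟨cert3026, (List.forall_mem_cons.2 ⟨cert3027, (List.forall_mem_cons.2 ⟨cert3028, (List.forall_mem_cons.2 ⟨cert3029, (List.forall_mem_cons.2 ⟨cert3030, (List.forall_mem_cons.2 ⟨cert3031, (List.forall_mem_cons.2 ⟨cert3032, (List.forall_mem_cons.2 ⟨cert3033, (List.forall_mem_cons.2 ⟨cert3034, (List.forall_mem_cons.2 ⟨cert3035, (List.forall_mem_cons.2 ⟨cert3036, (List.forall_mem_cons.2 ⟨cert3037, (List.forall_mem_cons.2 ⟨cert3038, (List.forall_mem_cons.2 ⟨cert3039, (fun _ h => absurd h List.not_mem_nil)⟩)⟩)⟩)⟩)⟩)⟩)⟩)⟩)⟩)⟩)⟩)⟩)⟩)⟩)⟩)⟩)⟩)⟩)⟩)⟩)⟩)⟩)⟩)⟩)⟩)⟩)⟩)⟩)⟩)⟩)⟩)⟩)⟩)⟩)⟩)⟩)⟩)⟩)⟩)⟩)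

/-- Checked boxes. -/
noncomputable def checkedBoxes76 : List Bx :=
  [b3040, b3041, b3042, b3043, b3044, b3045, b3046, b3047, b3048, b3049, b3050, b3051, b3052, b3053, b3054, b3055, b3056, b3057, b3058, b3059, b3060, b3061, b3062, b3063, b3064, b3065, b3066, b3067, b3068, b3069, b3070, b3071, b3072, b3073, b3074, b3075, b3076, b3077, b3078, b3079]

theorem cert_boxes76 : ∀ x ∈ checkedBoxes76, Cert cfg x ids :=
  (List.forall_mem_cons.2 ⟨cert3040, (List.forall_mem_cons.2 ⟨cert3041, (List.forall_mem_cons.2 ⟨cert3042, (List.forall_mem_cons.2 ⟨cert3043, (List.forall_mem_cons.2 ⟨cert3044, (List.forall_mem_cons.2 ⟨cert3045, (List.forall_mem_cons.2 ⟨cert3046, (List.forall_mem_cons.2 ⟨cert3047, (List.forall_mem_cons.2 ⟨cert3048, (List.forall_mem_cons.2 ⟨cert3049, (List.forall_mem_cons.2 ⟨cert3050, (List.forall_mem_cons.2 ⟨cert3051, (List.forall_mem_cons.2 ⟨cert3052, (List.forall_mem_cons.2 ⟨cert3053, (List.forall_mem_cons.2 ⟨cert3054, (List.forall_mem_cons.2 ⟨cert3055, (List.forall_mem_cons.2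 ⟨cert3056, (List.forall_mem_cons.2 ⟨cert3057, (List.forall_mem_cons.2 ⟨cert3058, (List.forall_mem_cons.2 ⟨cert3059, (List.forall_mem_cons.2 ⟨cert3060, (List.forall_mem_cons.2 ⟨cert3061, (List.forall_mem_cons.2 ⟨cert3062, (List.forall_mem_cons.2 ⟨cert3063, (List.forall_mem_cons.2 ⟨cert3064, (List.forall_mem_cons.2 ⟨cert3065, (List.forall_mem_cons.2 ⟨cert3066, (List.forall_mem_cons.2 ⟨cert3067, (List.forall_mem_cons.2 ⟨cert3068, (List.forall_mem_cons.2 ⟨cert3069, (List.forall_mem_cons.2 ⟨cert3070, (List.forall_mem_cons.2 ⟨cert3071, (List.forall_mem_cons.2 ⟨cert3072, (List.forall_mem_cons.2 ⟨cert3073, (List.forall_mem_cons.2 ⟨cert3074, (List.forall_mem_cons.2 ⟨cert3075, (List.forall_mem_cons.2 ⟨cert3076, (List.forall_mem_cons.2 ⟨cert3077, (List.forall_mem_cons.2 ⟨cert3078, (List.forall_mem_cons.2 ⟨cert3079, (fun _ h => absurd h List.not_mem_nil)⟩)⟩)⟩)⟩)⟩)⟩)⟩)⟩)⟩)⟩)⟩)⟩)⟩)⟩)⟩)⟩)⟩)⟩)⟩)⟩)⟩)⟩)⟩)⟩)⟩)⟩)⟩)⟩)⟩)⟩)⟩)⟩)⟩)⟩)⟩)⟩)⟩)⟩)⟩)⟩)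

/-- Checked boxes. -/
noncomputable def checkedBoxes77 : List Bx :=
  [b3080, b3081, b3082, b3083, b3084, b3085, b3086, b3087, b3088, b3089, b3090, b3091, b3092, b3093, b3094, b3095, b3096, b3097, b3098, b3099, b3100, b3101, b3102, b3103, b3104, b3105, b3106, b3107, b3108, b3109, b3110, b3111, b3112, b3113, b3114, b3115, b3116, b3117, b3118, b3119]

theorem cert_boxes77 : ∀ x ∈ checkedBoxes77, Cert cfg x ids :=
  (List.forall_mem_cons.2 ⟨cert3080, (List.forall_mem_cons.2 ⟨cert3081, (List.forall_mem_cons.2 ⟨cert3082, (List.forall_mem_cons.2 ⟨cert3083, (List.forall_mem_cons.2 ⟨cert3084, (List.forall_mem_cons.2 ⟨cert3085, (List.forall_mem_cons.2 ⟨cert3086, (List.forall_mem_cons.2 ⟨cert3087, (List.forall_mem_cons.2 ⟨cert3088, (List.forall_mem_cons.2 ⟨cert3089, (List.forall_mem_cons.2 ⟨cert3090, (List.forall_mem_cons.2 ⟨cert3091, (List.forall_mem_cons.2 ⟨cert3092, (List.forall_mem_cons.2 ⟨cert3093, (List.forall_mem_cons.2 ⟨cert3094, (List.forall_mem_cons.2 ⟨cert3095, (List.forall_mem_cons.2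 ⟨cert3096, (List.forall_mem_cons.2 ⟨cert3097, (List.forall_mem_cons.2 ⟨cert3098, (List.forall_mem_cons.2 ⟨cert3099, (List.forall_mem_cons.2 ⟨cert3100, (List.forall_mem_cons.2 ⟨cert3101, (List.forall_mem_cons.2 ⟨cert3102, (List.forall_mem_cons.2 ⟨cert3103, (List.forall_mem_cons.2 ⟨cert3104, (List.forall_mem_cons.2 ⟨cert3105, (List.forall_mem_cons.2 ⟨cert3106, (List.forall_mem_cons.2 ⟨cert3107, (List.forall_mem_cons.2 ⟨cert3108, (List.forall_mem_cons.2 ⟨cert3109, (List.forall_mem_cons.2 ⟨cert3110, (List.forall_mem_cons.2 ⟨cert3111, (List.forall_mem_cons.2 ⟨cert3112, (List.forall_mem_cons.2 ⟨cert3113, (List.forall_mem_cons.2 ⟨cert3114, (List.forall_mem_cons.2 ⟨cert3115, (List.forall_mem_cons.2 ⟨cert3116, (List.forall_mem_cons.2 ⟨cert3117, (List.forall_mem_cons.2 ⟨cert3118, (List.forall_mem_cons.2 ⟨cert3119, (fun _ h => absurd h List.not_mem_nil)⟩)⟩)⟩)⟩)⟩)⟩)⟩)⟩)⟩)⟩)⟩)⟩)⟩)⟩)⟩)⟩)⟩)⟩)⟩)⟩)⟩)⟩)⟩)⟩)⟩)⟩)⟩)⟩)⟩)⟩)⟩)⟩)⟩)⟩)⟩)⟩)⟩)⟩)⟩)⟩)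

/-- Checked boxes. -/
noncomputable def checkedBoxes78 : List Bx :=
  [b3120, b3121, b3122, b3123, b3124, b3125, b3126, b3127, b3128, b3129, b3130, b3131, b3132, b3133, b3134, b3135, b3136, b3137, b3138, b3139, b3140, b3141, b3142, b3143, b3144, b3145, b3146, b3147, b3148, b3149, b3150, b3151, b3152, b3153, b3154, b3155, b3156, b3157, b3158, b3159]

theorem cert_boxes78 : ∀ x ∈ checkedBoxes78, Cert cfg x ids :=
  (List.forall_mem_cons.2 ⟨cert3120, (List.forall_mem_cons.2 ⟨cert3121, (List.forall_mem_cons.2 ⟨cert3122, (List.forall_mem_cons.2 ⟨cert3123, (List.forall_mem_cons.2 ⟨cert3124, (List.forall_mem_cons.2 ⟨cert3125, (List.forall_mem_cons.2 ⟨cert3126, (List.forall_mem_cons.2 ⟨cert3127, (List.forall_mem_cons.2 ⟨cert3128, (List.forall_mem_cons.2 ⟨cert3129, (List.forall_mem_cons.2 ⟨cert3130, (List.forall_mem_cons.2 ⟨cert3131, (List.forall_mem_cons.2 ⟨cert3132, (List.forall_mem_cons.2 ⟨cert3133, (List.forall_mem_cons.2 ⟨cert3134, (List.forall_mem_cons.2 ⟨cert3135, (List.forall_mem_cons.2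 ⟨cert3136, (List.forall_mem_cons.2 ⟨cert3137, (List.forall_mem_cons.2 ⟨cert3138, (List.forall_mem_cons.2 ⟨cert3139, (List.forall_mem_cons.2 ⟨cert3140, (List.forall_mem_cons.2 ⟨cert3141, (List.forall_mem_cons.2 ⟨cert3142, (List.forall_mem_cons.2 ⟨cert3143, (List.forall_mem_cons.2 ⟨cert3144, (List.forall_mem_cons.2 ⟨cert3145, (List.forall_mem_cons.2 ⟨cert3146, (List.forall_mem_cons.2 ⟨cert3147, (List.forall_mem_cons.2 ⟨cert3148, (List.forall_mem_cons.2 ⟨cert3149, (List.forall_mem_cons.2 ⟨cert3150, (List.forall_mem_cons.2 ⟨cert3151, (List.forall_mem_cons.2 ⟨cert3152, (List.forall_mem_cons.2 ⟨cert3153, (List.forall_mem_cons.2 ⟨cert3154, (List.forall_mem_cons.2 ⟨cert3155, (List.forall_mem_cons.2 ⟨cert3156, (List.forall_mem_cons.2 ⟨cert3157, (List.forall_mem_cons.2 ⟨cert3158, (List.forall_mem_cons.2 ⟨cert3159, (fun _ h => absurd h List.not_mem_nil)⟩)⟩)⟩)⟩)⟩)⟩)⟩)⟩)⟩)⟩)⟩)⟩)⟩)⟩)⟩)⟩)⟩)⟩)⟩)⟩)⟩)⟩)⟩)⟩)⟩)⟩)⟩)⟩)⟩)⟩)⟩)⟩)⟩)⟩)⟩)⟩)⟩)⟩)⟩)⟩)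

/-- Checked boxes. -/
noncomputable def checkedBoxes79 : List Bx :=
  [b3160, b3161, b3162, b3163, b3164, b3165, b3166, b3167, b3168, b3169, b3170, b3171, b3172, b3173, b3174, b3175, b3176, b3177, b3178, b3179, b3180, b3181, b3182, b3183, b3184, b3185, b3186, b3187, b3188, b3189, b3190, b3191, b3192, b3193, b3194, b3195, b3196, b3197, b3198, b3199]

theorem cert_boxes79 : ∀ x ∈ checkedBoxes79, Cert cfg x ids :=
  (List.forall_mem_cons.2 ⟨cert3160, (List.forall_mem_cons.2 ⟨cert3161, (List.forall_mem_cons.2 ⟨cert3162, (List.forall_mem_cons.2 ⟨cert3163, (List.forall_mem_cons.2 ⟨cert3164, (List.forall_mem_cons.2 ⟨cert3165, (List.forall_mem_cons.2 ⟨cert3166, (List.forall_mem_cons.2 ⟨cert3167, (List.forall_mem_cons.2 ⟨cert3168, (List.forall_mem_cons.2 ⟨cert3169, (List.forall_mem_cons.2 ⟨cert3170, (List.forall_mem_cons.2 ⟨cert3171, (List.forall_mem_cons.2 ⟨cert3172, (List.forall_mem_cons.2 ⟨cert3173, (List.forall_mem_cons.2 ⟨cert3174, (List.forall_mem_cons.2 ⟨cert3175, (List.forall_mem_cons.2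 ⟨cert3176, (List.forall_mem_cons.2 ⟨cert3177, (List.forall_mem_cons.2 ⟨cert3178, (List.forall_mem_cons.2 ⟨cert3179, (List.forall_mem_cons.2 ⟨cert3180, (List.forall_mem_cons.2 ⟨cert3181, (List.forall_mem_cons.2 ⟨cert3182, (List.forall_mem_cons.2 ⟨cert3183, (List.forall_mem_cons.2 ⟨cert3184, (List.forall_mem_cons.2 ⟨cert3185, (List.forall_mem_cons.2 ⟨cert3186, (List.forall_mem_cons.2 ⟨cert3187, (List.forall_mem_cons.2 ⟨cert3188, (List.forall_mem_cons.2 ⟨cert3189, (List.forall_mem_cons.2 ⟨cert3190, (List.forall_mem_cons.2 ⟨cert3191, (List.forall_mem_cons.2 ⟨cert3192, (List.forall_mem_cons.2 ⟨cert3193, (List.forall_mem_cons.2 ⟨cert3194, (List.forall_mem_cons.2 ⟨cert3195, (List.forall_mem_cons.2 ⟨cert3196, (List.forall_mem_cons.2 ⟨cert3197, (List.forall_mem_cons.2 ⟨cert3198, (List.forall_mem_cons.2 ⟨cert3199, (fun _ h => absurd h List.not_mem_nil)⟩)⟩)⟩)⟩)⟩)⟩)⟩)⟩)⟩)⟩)⟩)⟩)⟩)⟩)⟩)⟩)⟩)⟩)⟩)⟩)⟩)⟩)⟩)⟩)⟩)⟩)⟩)⟩)⟩)⟩)⟩)⟩)⟩)⟩)⟩)⟩)⟩)⟩)⟩)⟩)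

/-- Checked boxes. -/
noncomputable def checkedBoxes80 : List Bx :=
  [b3200, b3201, b3202, b3203, b3204, b3205, b3206, b3207, b3208, b3209, b3210, b3211, b3212, b3213, b3214, b3215, b3216, b3217, b3218, b3219, b3220, b3221, b3222, b3223, b3224, b3225, b3226, b3227, b3228, b3229, b3230, b3231, b3232, b3233, b3234, b3235, b3236, b3237, b3238, b3239]

theorem cert_boxes80 : ∀ x ∈ checkedBoxes80, Cert cfg x ids :=
  (List.forall_mem_cons.2 ⟨cert3200, (List.forall_mem_cons.2 ⟨cert3201, (List.forall_mem_cons.2 ⟨cert3202, (List.forall_mem_cons.2 ⟨cert3203, (List.forall_mem_cons.2 ⟨cert3204, (List.forall_mem_cons.2 ⟨cert3205, (List.forall_mem_cons.2 ⟨cert3206, (List.forall_mem_cons.2 ⟨cert3207, (List.forall_mem_cons.2 ⟨cert3208, (List.forall_mem_cons.2 ⟨cert3209, (List.forall_mem_cons.2 ⟨cert3210, (List.forall_mem_cons.2 ⟨cert3211, (List.forall_mem_cons.2 ⟨cert3212, (List.forall_mem_cons.2 ⟨cert3213, (List.forall_mem_cons.2 ⟨cert3214, (List.forall_mem_cons.2 ⟨cert3215, (List.forall_mem_cons.2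 ⟨cert3216, (List.forall_mem_cons.2 ⟨cert3217, (List.forall_mem_cons.2 ⟨cert3218, (List.forall_mem_cons.2 ⟨cert3219, (List.forall_mem_cons.2 ⟨cert3220, (List.forall_mem_cons.2 ⟨cert3221, (List.forall_mem_cons.2 ⟨cert3222, (List.forall_mem_cons.2 ⟨cert3223, (List.forall_mem_cons.2 ⟨cert3224, (List.forall_mem_cons.2 ⟨cert3225, (List.forall_mem_cons.2 ⟨cert3226, (List.forall_mem_cons.2 ⟨cert3227, (List.forall_mem_cons.2 ⟨cert3228, (List.forall_mem_cons.2 ⟨cert3229, (List.forall_mem_cons.2 ⟨cert3230, (List.forall_mem_cons.2 ⟨cert3231, (List.forall_mem_cons.2 ⟨cert3232, (List.forall_mem_cons.2 ⟨cert3233, (List.forall_mem_cons.2 ⟨cert3234, (List.forall_mem_cons.2 ⟨cert3235, (List.forall_mem_cons.2 ⟨cert3236, (List.forall_mem_cons.2 ⟨cert3237, (List.forall_mem_cons.2 ⟨cert3238, (List.forall_mem_cons.2 ⟨cert3239, (fun _ h => absurd h List.not_mem_nil)⟩)⟩)⟩)⟩)⟩)⟩)⟩)⟩)⟩)⟩)⟩)⟩)⟩)⟩)⟩)⟩)⟩)⟩)⟩)⟩)⟩)⟩)⟩)⟩)⟩)⟩)⟩)⟩)⟩)⟩)⟩)⟩)⟩)⟩)⟩)⟩)⟩)⟩)⟩)⟩)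

/-- Checked boxes. -/
noncomputable def checkedBoxes81 : List Bx :=
  [b3240, b3241, b3242, b3243, b3244, b3245, b3246, b3247, b3248, b3249, b3250, b3251, b3252, b3253, b3254, b3255, b3256, b3257, b3258, b3259, b3260, b3261, b3262, b3263, b3264, b3265, b3266, b3267, b3268, b3269, b3270, b3271, b3272, b3273, b3274, b3275, b3276, b3277, b3278, b3279]

theorem cert_boxes81 : ∀ x ∈ checkedBoxes81, Cert cfg x ids :=
  (List.forall_mem_cons.2 ⟨cert3240, (List.forall_mem_cons.2 ⟨cert3241, (List.forall_mem_cons.2 ⟨cert3242, (List.forall_mem_cons.2 ⟨cert3243, (List.forall_mem_cons.2 ⟨cert3244, (List.forall_mem_cons.2 ⟨cert3245, (List.forall_mem_cons.2 ⟨cert3246, (List.forall_mem_cons.2 ⟨cert3247, (List.forall_mem_cons.2 ⟨cert3248, (List.forall_mem_cons.2 ⟨cert3249, (List.forall_mem_cons.2 ⟨cert3250, (List.forall_mem_cons.2 ⟨cert3251, (List.forall_mem_cons.2 ⟨cert3252, (List.forall_mem_cons.2 ⟨cert3253, (List.forall_mem_cons.2 ⟨cert3254, (List.forall_mem_cons.2 ⟨cert3255, (List.forall_mem_cons.2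 ⟨cert3256, (List.forall_mem_cons.2 ⟨cert3257, (List.forall_mem_cons.2 ⟨cert3258, (List.forall_mem_cons.2 ⟨cert3259, (List.forall_mem_cons.2 ⟨cert3260, (List.forall_mem_cons.2 ⟨cert3261, (List.forall_mem_cons.2 ⟨cert3262, (List.forall_mem_cons.2 ⟨cert3263, (List.forall_mem_cons.2 ⟨cert3264, (List.forall_mem_cons.2 ⟨cert3265, (List.forall_mem_cons.2 ⟨cert3266, (List.forall_mem_cons.2 ⟨cert3267, (List.forall_mem_cons.2 ⟨cert3268, (List.forall_mem_cons.2 ⟨cert3269, (List.forall_mem_cons.2 ⟨cert3270, (List.forall_mem_cons.2 ⟨cert3271, (List.forall_mem_cons.2 ⟨cert3272, (List.forall_mem_cons.2 ⟨cert3273, (List.forall_mem_cons.2 ⟨cert3274, (List.forall_mem_cons.2 ⟨cert3275, (List.forall_mem_cons.2 ⟨cert3276, (List.forall_mem_cons.2 ⟨cert3277, (List.forall_mem_cons.2 ⟨cert3278, (List.forall_mem_cons.2 ⟨cert3279, (fun _ h => absurd h List.not_mem_nil)⟩)⟩)⟩)⟩)⟩)⟩)⟩)⟩)⟩)⟩)⟩)⟩)⟩)⟩)⟩)⟩)⟩)⟩)⟩)⟩)⟩)⟩)⟩)⟩)⟩)⟩)⟩)⟩)⟩)⟩)⟩)⟩)⟩)⟩)⟩)⟩)⟩)⟩)⟩)⟩)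

/-- Checked boxes. -/
noncomputable def checkedBoxes82 : List Bx :=
  [b3280, b3281, b3282, b3283, b3284, b3285, b3286, b3287, b3288, b3289, b3290, b3291, b3292, b3293, b3294, b3295, b3296, b3297, b3298, b3299, b3300, b3301, b3302, b3303, b3304, b3305, b3306, b3307, b3308, b3309, b3310, b3311, b3312, b3313, b3314, b3315, b3316, b3317, b3318, b3319]

theorem cert_boxes82 : ∀ x ∈ checkedBoxes82, Cert cfg x ids :=
  (List.forall_mem_cons.2 ⟨cert3280, (List.forall_mem_cons.2 ⟨cert3281, (List.forall_mem_cons.2 ⟨cert3282, (List.forall_mem_cons.2 ⟨cert3283, (List.forall_mem_cons.2 ⟨cert3284, (List.forall_mem_cons.2 ⟨cert3285, (List.forall_mem_cons.2 ⟨cert3286, (List.forall_mem_cons.2 ⟨cert3287, (List.forall_mem_cons.2 ⟨cert3288, (List.forall_mem_cons.2 ⟨cert3289, (List.forall_mem_cons.2 ⟨cert3290, (List.forall_mem_cons.2 ⟨cert3291, (List.forall_mem_cons.2 ⟨cert3292, (List.forall_mem_cons.2 ⟨cert3293, (List.forall_mem_cons.2 ⟨cert3294, (List.forall_mem_cons.2 ⟨cert3295, (List.forall_mem_cons.2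 ⟨cert3296, (List.forall_mem_cons.2 ⟨cert3297, (List.forall_mem_cons.2 ⟨cert3298, (List.forall_mem_cons.2 ⟨cert3299, (List.forall_mem_cons.2 ⟨cert3300, (List.forall_mem_cons.2 ⟨cert3301, (List.forall_mem_cons.2 ⟨cert3302, (List.forall_mem_cons.2 ⟨cert3303, (List.forall_mem_cons.2 ⟨cert3304, (List.forall_mem_cons.2 ⟨cert3305, (List.forall_mem_cons.2 ⟨cert3306, (List.forall_mem_cons.2 ⟨cert3307, (List.forall_mem_cons.2 ⟨cert3308, (List.forall_mem_cons.2 ⟨cert3309, (List.forall_mem_cons.2 ⟨cert3310, (List.forall_mem_cons.2 ⟨cert3311, (List.forall_mem_cons.2 ⟨cert3312, (List.forall_mem_cons.2 ⟨cert3313, (List.forall_mem_cons.2 ⟨cert3314, (List.forall_mem_cons.2 ⟨cert3315, (List.forall_mem_cons.2 ⟨cert3316, (List.forall_mem_cons.2 ⟨cert3317, (List.forall_mem_cons.2 ⟨cert3318, (List.forall_mem_cons.2 ⟨cert3319, (fun _ h => absurd h List.not_mem_nil)⟩)⟩)⟩)⟩)⟩)⟩)⟩)⟩)⟩)⟩)⟩)⟩)⟩)⟩)⟩)⟩)⟩)⟩)⟩)⟩)⟩)⟩)⟩)⟩)⟩)⟩)⟩)⟩)⟩)⟩)⟩)⟩)⟩)⟩)⟩)⟩)⟩)⟩)⟩)⟩)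

/-- Checked boxes. -/
noncomputable def checkedBoxes83 : List Bx :=
  [b3320, b3321, b3322, b3323, b3324, b3325, b3326, b3327, b3328, b3329, b3330, b3331, b3332, b3333, b3334, b3335, b3336, b3337, b3338, b3339, b3340, b3341, b3342, b3343, b3344, b3345, b3346, b3347, b3348, b3349, b3350, b3351, b3352, b3353, b3354, b3355, b3356, b3357, b3358, b3359]

theorem cert_boxes83 : ∀ x ∈ checkedBoxes83, Cert cfg x ids :=
  (List.forall_mem_cons.2 ⟨cert3320, (List.forall_mem_cons.2 ⟨cert3321, (List.forall_mem_cons.2 ⟨cert3322, (List.forall_mem_cons.2 ⟨cert3323, (List.forall_mem_cons.2 ⟨cert3324, (List.forall_mem_cons.2 ⟨cert3325, (List.forall_mem_cons.2 ⟨cert3326, (List.forall_mem_cons.2 ⟨cert3327, (List.forall_mem_cons.2 ⟨cert3328, (List.forall_mem_cons.2 ⟨cert3329, (List.forall_mem_cons.2 ⟨cert3330, (List.forall_mem_cons.2 ⟨cert3331, (List.forall_mem_cons.2 ⟨cert3332, (List.forall_mem_cons.2 ⟨cert3333, (List.forall_mem_cons.2 ⟨cert3334, (List.forall_mem_cons.2 ⟨cert3335, (List.forall_mem_cons.2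 ⟨cert3336, (List.forall_mem_cons.2 ⟨cert3337, (List.forall_mem_cons.2 ⟨cert3338, (List.forall_mem_cons.2 ⟨cert3339, (List.forall_mem_cons.2 ⟨cert3340, (List.forall_mem_cons.2 ⟨cert3341, (List.forall_mem_cons.2 ⟨cert3342, (List.forall_mem_cons.2 ⟨cert3343, (List.forall_mem_cons.2 ⟨cert3344, (List.forall_mem_cons.2 ⟨cert3345, (List.forall_mem_cons.2 ⟨cert3346, (List.forall_mem_cons.2 ⟨cert3347, (List.forall_mem_cons.2 ⟨cert3348, (List.forall_mem_cons.2 ⟨cert3349, (List.forall_mem_cons.2 ⟨cert3350, (List.forall_mem_cons.2 ⟨cert3351, (List.forall_mem_cons.2 ⟨cert3352, (List.forall_mem_cons.2 ⟨cert3353, (List.forall_mem_cons.2 ⟨cert3354, (List.forall_mem_cons.2 ⟨cert3355, (List.forall_mem_cons.2 ⟨cert3356, (List.forall_mem_cons.2 ⟨cert3357, (List.forall_mem_cons.2 ⟨cert3358, (List.forall_mem_cons.2 ⟨cert3359, (fun _ h => absurd h List.not_mem_nil)⟩)⟩)⟩)⟩)⟩)⟩)⟩)⟩)⟩)⟩)⟩)⟩)⟩)⟩)⟩)⟩)⟩)⟩)⟩)⟩)⟩)⟩)⟩)⟩)⟩)⟩)⟩)⟩)⟩)⟩)⟩)⟩)⟩)⟩)⟩)⟩)⟩)⟩)⟩)⟩)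

/-- Checked boxes. -/
noncomputable def checkedBoxes84 : List Bx :=
  [b3360, b3361, b3362, b3363, b3364, b3365, b3366, b3367, b3368, b3369, b3370, b3371, b3372, b3373, b3374, b3375, b3376, b3377, b3378, b3379, b3380, b3381, b3382, b3383, b3384, b3385, b3386, b3387, b3388, b3389, b3390, b3391, b3392, b3393, b3394, b3395, b3396, b3397, b3398, b3399]

theorem cert_boxes84 : ∀ x ∈ checkedBoxes84, Cert cfg x ids :=
  (List.forall_mem_cons.2 ⟨cert3360, (List.forall_mem_cons.2 ⟨cert3361, (List.forall_mem_cons.2 ⟨cert3362, (List.forall_mem_cons.2 ⟨cert3363, (List.forall_mem_cons.2 ⟨cert3364, (List.forall_mem_cons.2 ⟨cert3365, (List.forall_mem_cons.2 ⟨cert3366, (List.forall_mem_cons.2 ⟨cert3367, (List.forall_mem_cons.2 ⟨cert3368, (List.forall_mem_cons.2 ⟨cert3369, (List.forall_mem_cons.2 ⟨cert3370, (List.forall_mem_cons.2 ⟨cert3371, (List.forall_mem_cons.2 ⟨cert3372, (List.forall_mem_cons.2 ⟨cert3373, (List.forall_mem_cons.2 ⟨cert3374, (List.forall_mem_cons.2 ⟨cert3375, (List.forall_mem_cons.2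 ⟨cert3376, (List.forall_mem_cons.2 ⟨cert3377, (List.forall_mem_cons.2 ⟨cert3378, (List.forall_mem_cons.2 ⟨cert3379, (List.forall_mem_cons.2 ⟨cert3380, (List.forall_mem_cons.2 ⟨cert3381, (List.forall_mem_cons.2 ⟨cert3382, (List.forall_mem_cons.2 ⟨cert3383, (List.forall_mem_cons.2 ⟨cert3384, (List.forall_mem_cons.2 ⟨cert3385, (List.forall_mem_cons.2 ⟨cert3386, (List.forall_mem_cons.2 ⟨cert3387, (List.forall_mem_cons.2 ⟨cert3388, (List.forall_mem_cons.2 ⟨cert3389, (List.forall_mem_cons.2 ⟨cert3390, (List.forall_mem_cons.2 ⟨cert3391, (List.forall_mem_cons.2 ⟨cert3392, (List.forall_mem_cons.2 ⟨cert3393, (List.forall_mem_cons.2 ⟨cert3394, (List.forall_mem_cons.2 ⟨cert3395, (List.forall_mem_cons.2 ⟨cert3396, (List.forall_mem_cons.2 ⟨cert3397, (List.forall_mem_cons.2 ⟨cert3398, (List.forall_mem_cons.2 ⟨cert3399, (fun _ h => absurd h List.not_mem_nil)⟩)⟩)⟩)⟩)⟩)⟩)⟩)⟩)⟩)⟩)⟩)⟩)⟩)⟩)⟩)⟩)⟩)⟩)⟩)⟩)⟩)⟩)⟩)⟩)⟩)⟩)⟩)⟩)⟩)⟩)⟩)⟩)⟩)⟩)⟩)⟩)⟩)⟩)⟩)⟩)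

/-- Checked boxes. -/
noncomputable def checkedBoxes85 : List Bx :=
  [b3400, b3401, b3402, b3403, b3404, b3405, b3406, b3407, b3408, b3409, b3410, b3411, b3412, b3413, b3414, b3415, b3416, b3417, b3418, b3419, b3420, b3421, b3422, b3423, b3424, b3425, b3426, b3427, b3428, b3429, b3430, b3431, b3432, b3433, b3434, b3435, b3436, b3437, b3438, b3439]

theorem cert_boxes85 : ∀ x ∈ checkedBoxes85, Cert cfg x ids :=
  (List.forall_mem_cons.2 ⟨cert3400, (List.forall_mem_cons.2 ⟨cert3401, (List.forall_mem_cons.2 ⟨cert3402, (List.forall_mem_cons.2 ⟨cert3403, (List.forall_mem_cons.2 ⟨cert3404, (List.forall_mem_cons.2 ⟨cert3405, (List.forall_mem_cons.2 ⟨cert3406, (List.forall_mem_cons.2 ⟨cert3407, (List.forall_mem_cons.2 ⟨cert3408, (List.forall_mem_cons.2 ⟨cert3409, (List.forall_mem_cons.2 ⟨cert3410, (List.forall_mem_cons.2 ⟨cert3411, (List.forall_mem_cons.2 ⟨cert3412, (List.forall_mem_cons.2 ⟨cert3413, (List.forall_mem_cons.2 ⟨cert3414, (List.forall_mem_cons.2 ⟨cert3415, (List.forall_mem_cons.2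 ⟨cert3416, (List.forall_mem_cons.2 ⟨cert3417, (List.forall_mem_cons.2 ⟨cert3418, (List.forall_mem_cons.2 ⟨cert3419, (List.forall_mem_cons.2 ⟨cert3420, (List.forall_mem_cons.2 ⟨cert3421, (List.forall_mem_cons.2 ⟨cert3422, (List.forall_mem_cons.2 ⟨cert3423, (List.forall_mem_cons.2 ⟨cert3424, (List.forall_mem_cons.2 ⟨cert3425, (List.forall_mem_cons.2 ⟨cert3426, (List.forall_mem_cons.2 ⟨cert3427, (List.forall_mem_cons.2 ⟨cert3428, (List.forall_mem_cons.2 ⟨cert3429, (List.forall_mem_cons.2 ⟨cert3430, (List.forall_mem_cons.2 ⟨cert3431, (List.forall_mem_cons.2 ⟨cert3432, (List.forall_mem_cons.2 ⟨cert3433, (List.forall_mem_cons.2 ⟨cert3434, (List.forall_mem_cons.2 ⟨cert3435, (List.forall_mem_cons.2 ⟨cert3436, (List.forall_mem_cons.2 ⟨cert3437, (List.forall_mem_cons.2 ⟨cert3438, (List.forall_mem_cons.2 ⟨cert3439, (fun _ h => absurd h List.not_mem_nil)⟩)⟩)⟩)⟩)⟩)⟩)⟩)⟩)⟩)⟩)⟩)⟩)⟩)⟩)⟩)⟩)⟩)⟩)⟩)⟩)⟩)⟩)⟩)⟩)⟩)⟩)⟩)⟩)⟩)⟩)⟩)⟩)⟩)⟩)⟩)⟩)⟩)⟩)⟩)⟩)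

/-- Checked boxes. -/
noncomputable def checkedBoxes86 : List Bx :=
  [b3440, b3441, b3442, b3443, b3444, b3445, b3446, b3447, b3448, b3449, b3450, b3451, b3452, b3453, b3454, b3455, b3456, b3457, b3458, b3459, b3460, b3461, b3462, b3463, b3464, b3465, b3466, b3467, b3468, b3469, b3470, b3471, b3472, b3473, b3474, b3475, b3476, b3477, b3478, b3479]

theorem cert_boxes86 : ∀ x ∈ checkedBoxes86, Cert cfg x ids :=
  (List.forall_mem_cons.2 ⟨cert3440, (List.forall_mem_cons.2 ⟨cert3441, (List.forall_mem_cons.2 ⟨cert3442, (List.forall_mem_cons.2 ⟨cert3443, (List.forall_mem_cons.2 ⟨cert3444, (List.forall_mem_cons.2 ⟨cert3445, (List.forall_mem_cons.2 ⟨cert3446, (List.forall_mem_cons.2 ⟨cert3447, (List.forall_mem_cons.2 ⟨cert3448, (List.forall_mem_cons.2 ⟨cert3449, (List.forall_mem_cons.2 ⟨cert3450, (List.forall_mem_cons.2 ⟨cert3451, (List.forall_mem_cons.2 ⟨cert3452, (List.forall_mem_cons.2 ⟨cert3453, (List.forall_mem_cons.2 ⟨cert3454, (List.forall_mem_cons.2 ⟨cert3455, (List.forall_mem_cons.2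 ⟨cert3456, (List.forall_mem_cons.2 ⟨cert3457, (List.forall_mem_cons.2 ⟨cert3458, (List.forall_mem_cons.2 ⟨cert3459, (List.forall_mem_cons.2 ⟨cert3460, (List.forall_mem_cons.2 ⟨cert3461, (List.forall_mem_cons.2 ⟨cert3462, (List.forall_mem_cons.2 ⟨cert3463, (List.forall_mem_cons.2 ⟨cert3464, (List.forall_mem_cons.2 ⟨cert3465, (List.forall_mem_cons.2 ⟨cert3466, (List.forall_mem_cons.2 ⟨cert3467, (List.forall_mem_cons.2 ⟨cert3468, (List.forall_mem_cons.2 ⟨cert3469, (List.forall_mem_cons.2 ⟨cert3470, (List.forall_mem_cons.2 ⟨cert3471, (List.forall_mem_cons.2 ⟨cert3472, (List.forall_mem_cons.2 ⟨cert3473, (List.forall_mem_cons.2 ⟨cert3474, (List.forall_mem_cons.2 ⟨cert3475, (List.forall_mem_cons.2 ⟨cert3476, (List.forall_mem_cons.2 ⟨cert3477, (List.forall_mem_cons.2 ⟨cert3478, (List.forall_mem_cons.2 ⟨cert3479, (fun _ h => absurd h List.not_mem_nil)⟩)⟩)⟩)⟩)⟩)⟩)⟩)⟩)⟩)⟩)⟩)⟩)⟩)⟩)⟩)⟩)⟩)⟩)⟩)⟩)⟩)⟩)⟩)⟩)⟩)⟩)⟩)⟩)⟩)⟩)⟩)⟩)⟩)⟩)⟩)⟩)⟩)⟩)⟩)⟩)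

/-- Checked boxes. -/
noncomputable def checkedBoxes87 : List Bx :=
  [b3480, b3481, b3482, b3483, b3484, b3485, b3486, b3487, b3488, b3489, b3490, b3491, b3492, b3493, b3494, b3495, b3496, b3497, b3498, b3499, b3500, b3501, b3502, b3503, b3504, b3505, b3506, b3507, b3508, b3509, b3510, b3511, b3512, b3513, b3514, b3515, b3516, b3517, b3518, b3519]

theorem cert_boxes87 : ∀ x ∈ checkedBoxes87, Cert cfg x ids :=
  (List.forall_mem_cons.2 ⟨cert3480, (List.forall_mem_cons.2 ⟨cert3481, (List.forall_mem_cons.2 ⟨cert3482, (List.forall_mem_cons.2 ⟨cert3483, (List.forall_mem_cons.2 ⟨cert3484, (List.forall_mem_cons.2 ⟨cert3485, (List.forall_mem_cons.2 ⟨cert3486, (List.forall_mem_cons.2 ⟨cert3487, (List.forall_mem_cons.2 ⟨cert3488, (List.forall_mem_cons.2 ⟨cert3489, (List.forall_mem_cons.2 ⟨cert3490, (List.forall_mem_cons.2 ⟨cert3491, (List.forall_mem_cons.2 ⟨cert3492, (List.forall_mem_cons.2 ⟨cert3493, (List.forall_mem_cons.2 ⟨cert3494, (List.forall_mem_cons.2 ⟨cert3495, (List.forall_mem_cons.2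 ⟨cert3496, (List.forall_mem_cons.2 ⟨cert3497, (List.forall_mem_cons.2 ⟨cert3498, (List.forall_mem_cons.2 ⟨cert3499, (List.forall_mem_cons.2 ⟨cert3500, (List.forall_mem_cons.2 ⟨cert3501, (List.forall_mem_cons.2 ⟨cert3502, (List.forall_mem_cons.2 ⟨cert3503, (List.forall_mem_cons.2 ⟨cert3504, (List.forall_mem_cons.2 ⟨cert3505, (List.forall_mem_cons.2 ⟨cert3506, (List.forall_mem_cons.2 ⟨cert3507, (List.forall_mem_cons.2 ⟨cert3508, (List.forall_mem_cons.2 ⟨cert3509, (List.forall_mem_cons.2 ⟨cert3510, (List.forall_mem_cons.2 ⟨cert3511, (List.forall_mem_cons.2 ⟨cert3512, (List.forall_mem_cons.2 ⟨cert3513, (List.forall_mem_cons.2 ⟨cert3514, (List.forall_mem_cons.2 ⟨cert3515, (List.forall_mem_cons.2 ⟨cert3516, (List.forall_mem_cons.2 ⟨cert3517, (List.forall_mem_cons.2 ⟨cert3518, (List.forall_mem_cons.2 ⟨cert3519, (fun _ h => absurd h List.not_mem_nil)⟩)⟩)⟩)⟩)⟩)⟩)⟩)⟩)⟩)⟩)⟩)⟩)⟩)⟩)⟩)⟩)⟩)⟩)⟩)⟩)⟩)⟩)⟩)⟩)⟩)⟩)⟩)⟩)⟩)⟩)⟩)⟩)⟩)⟩)⟩)⟩)⟩)⟩)⟩)⟩)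

/-- Checked boxes. -/
noncomputable def checkedBoxes88 : List Bx :=
  [b3520, b3521, b3522, b3523, b3524, b3525, b3526, b3527, b3528, b3529, b3530, b3531, b3532, b3533, b3534, b3535, b3536, b3537, b3538, b3539, b3540, b3541, b3542, b3543, b3544, b3545, b3546, b3547, b3548, b3549, b3550, b3551, b3552, b3553, b3554, b3555, b3556, b3557, b3558, b3559]

theorem cert_boxes88 : ∀ x ∈ checkedBoxes88, Cert cfg x ids :=
  (List.forall_mem_cons.2 ⟨cert3520, (List.forall_mem_cons.2 ⟨cert3521, (List.forall_mem_cons.2 ⟨cert3522, (List.forall_mem_cons.2 ⟨cert3523, (List.forall_mem_cons.2 ⟨cert3524, (List.forall_mem_cons.2 ⟨cert3525, (List.forall_mem_cons.2 ⟨cert3526, (List.forall_mem_cons.2 ⟨cert3527, (List.forall_mem_cons.2 ⟨cert3528, (List.forall_mem_cons.2 ⟨cert3529, (List.forall_mem_cons.2 ⟨cert3530, (List.forall_mem_cons.2 ⟨cert3531, (List.forall_mem_cons.2 ⟨cert3532, (List.forall_mem_cons.2 ⟨cert3533, (List.forall_mem_cons.2 ⟨cert3534, (List.forall_mem_cons.2 ⟨cert3535, (List.forall_mem_cons.2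 ⟨cert3536, (List.forall_mem_cons.2 ⟨cert3537, (List.forall_mem_cons.2 ⟨cert3538, (List.forall_mem_cons.2 ⟨cert3539, (List.forall_mem_cons.2 ⟨cert3540, (List.forall_mem_cons.2 ⟨cert3541, (List.forall_mem_cons.2 ⟨cert3542, (List.forall_mem_cons.2 ⟨cert3543, (List.forall_mem_cons.2 ⟨cert3544, (List.forall_mem_cons.2 ⟨cert3545, (List.forall_mem_cons.2 ⟨cert3546, (List.forall_mem_cons.2 ⟨cert3547, (List.forall_mem_cons.2 ⟨cert3548, (List.forall_mem_cons.2 ⟨cert3549, (List.forall_mem_cons.2 ⟨cert3550, (List.forall_mem_cons.2 ⟨cert3551, (List.forall_mem_cons.2 ⟨cert3552, (List.forall_mem_cons.2 ⟨cert3553, (List.forall_mem_cons.2 ⟨cert3554, (List.forall_mem_cons.2 ⟨cert3555, (List.forall_mem_cons.2 ⟨cert3556, (List.forall_mem_cons.2 ⟨cert3557, (List.forall_mem_cons.2 ⟨cert3558, (List.forall_mem_cons.2 ⟨cert3559, (fun _ h => absurd h List.not_mem_nil)⟩)⟩)⟩)⟩)⟩)⟩)⟩)⟩)⟩)⟩)⟩)⟩)⟩)⟩)⟩)⟩)⟩)⟩)⟩)⟩)⟩)⟩)⟩)⟩)⟩)⟩)⟩)⟩)⟩)⟩)⟩)⟩)⟩)⟩)⟩)⟩)⟩)⟩)⟩)⟩)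

/-- Checked boxes. -/
noncomputable def checkedBoxes89 : List Bx :=
  [b3560, b3561, b3562, b3563, b3564, b3565, b3566, b3567, b3568, b3569, b3570, b3571, b3572, b3573, b3574, b3575, b3576, b3577, b3578, b3579, b3580, b3581, b3582, b3583, b3584, b3585, b3586, b3587, b3588, b3589, b3590, b3591, b3592, b3593, b3594, b3595, b3596, b3597, b3598, b3599]

theorem cert_boxes89 : ∀ x ∈ checkedBoxes89, Cert cfg x ids :=
  (List.forall_mem_cons.2 ⟨cert3560, (List.forall_mem_cons.2 ⟨cert3561, (List.forall_mem_cons.2 ⟨cert3562, (List.forall_mem_cons.2 ⟨cert3563, (List.forall_mem_cons.2 ⟨cert3564, (List.forall_mem_cons.2 ⟨cert3565, (List.forall_mem_cons.2 ⟨cert3566, (List.forall_mem_cons.2 ⟨cert3567, (List.forall_mem_cons.2 ⟨cert3568, (List.forall_mem_cons.2 ⟨cert3569, (List.forall_mem_cons.2 ⟨cert3570, (List.forall_mem_cons.2 ⟨cert3571, (List.forall_mem_cons.2 ⟨cert3572, (List.forall_mem_cons.2 ⟨cert3573, (List.forall_mem_cons.2 ⟨cert3574, (List.forall_mem_cons.2 ⟨cert3575, (List.forall_mem_cons.2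 ⟨cert3576, (List.forall_mem_cons.2 ⟨cert3577, (List.forall_mem_cons.2 ⟨cert3578, (List.forall_mem_cons.2 ⟨cert3579, (List.forall_mem_cons.2 ⟨cert3580, (List.forall_mem_cons.2 ⟨cert3581, (List.forall_mem_cons.2 ⟨cert3582, (List.forall_mem_cons.2 ⟨cert3583, (List.forall_mem_cons.2 ⟨cert3584, (List.forall_mem_cons.2 ⟨cert3585, (List.forall_mem_cons.2 ⟨cert3586, (List.forall_mem_cons.2 ⟨cert3587, (List.forall_mem_cons.2 ⟨cert3588, (List.forall_mem_cons.2 ⟨cert3589, (List.forall_mem_cons.2 ⟨cert3590, (List.forall_mem_cons.2 ⟨cert3591, (List.forall_mem_cons.2 ⟨cert3592, (List.forall_mem_cons.2 ⟨cert3593, (List.forall_mem_cons.2 ⟨cert3594, (List.forall_mem_cons.2 ⟨cert3595, (List.forall_mem_cons.2 ⟨cert3596, (List.forall_mem_cons.2 ⟨cert3597, (List.forall_mem_cons.2 ⟨cert3598, (List.forall_mem_cons.2 ⟨cert3599, (fun _ h => absurd h List.not_mem_nil)⟩)⟩)⟩)⟩)⟩)⟩)⟩)⟩)⟩)⟩)⟩)⟩)⟩)⟩)⟩)⟩)⟩)⟩)⟩)⟩)⟩)⟩)⟩)⟩)⟩)⟩)⟩)⟩)⟩)⟩)⟩)⟩)⟩)⟩)⟩)⟩)⟩)⟩)⟩)⟩)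

/-- Checked boxes. -/
noncomputable def checkedBoxes90 : List Bx :=
  [b3600, b3601, b3602, b3603, b3604, b3605, b3606, b3607, b3608, b3609, b3610, b3611, b3612, b3613, b3614, b3615, b3616, b3617, b3618, b3619, b3620, b3621, b3622, b3623, b3624, b3625, b3626, b3627, b3628, b3629, b3630, b3631, b3632, b3633, b3634, b3635, b3636, b3637, b3638, b3639]

theorem cert_boxes90 : ∀ x ∈ checkedBoxes90, Cert cfg x ids :=
  (List.forall_mem_cons.2 ⟨cert3600, (List.forall_mem_cons.2 ⟨cert3601, (List.forall_mem_cons.2 ⟨cert3602, (List.forall_mem_cons.2 ⟨cert3603, (List.forall_mem_cons.2 ⟨cert3604, (List.forall_mem_cons.2 ⟨cert3605, (List.forall_mem_cons.2 ⟨cert3606, (List.forall_mem_cons.2 ⟨cert3607, (List.forall_mem_cons.2 ⟨cert3608, (List.forall_mem_cons.2 ⟨cert3609, (List.forall_mem_cons.2 ⟨cert3610, (List.forall_mem_cons.2 ⟨cert3611, (List.forall_mem_cons.2 ⟨cert3612, (List.forall_mem_cons.2 ⟨cert3613, (List.forall_mem_cons.2 ⟨cert3614, (List.forall_mem_cons.2 ⟨cert3615, (List.forall_mem_cons.2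 ⟨cert3616, (List.forall_mem_cons.2 ⟨cert3617, (List.forall_mem_cons.2 ⟨cert3618, (List.forall_mem_cons.2 ⟨cert3619, (List.forall_mem_cons.2 ⟨cert3620, (List.forall_mem_cons.2 ⟨cert3621, (List.forall_mem_cons.2 ⟨cert3622, (List.forall_mem_cons.2 ⟨cert3623, (List.forall_mem_cons.2 ⟨cert3624, (List.forall_mem_cons.2 ⟨cert3625, (List.forall_mem_cons.2 ⟨cert3626, (List.forall_mem_cons.2 ⟨cert3627, (List.forall_mem_cons.2 ⟨cert3628, (List.forall_mem_cons.2 ⟨cert3629, (List.forall_mem_cons.2 ⟨cert3630, (List.forall_mem_cons.2 ⟨cert3631, (List.forall_mem_cons.2 ⟨cert3632, (List.forall_mem_cons.2 ⟨cert3633, (List.forall_mem_cons.2 ⟨cert3634, (List.forall_mem_cons.2 ⟨cert3635, (List.forall_mem_cons.2 ⟨cert3636, (List.forall_mem_cons.2 ⟨cert3637, (List.forall_mem_cons.2 ⟨cert3638, (List.forall_mem_cons.2 ⟨cert3639, (fun _ h => absurd h List.not_mem_nil)⟩)⟩)⟩)⟩)⟩)⟩)⟩)⟩)⟩)⟩)⟩)⟩)⟩)⟩)⟩)⟩)⟩)⟩)⟩)⟩)⟩)⟩)⟩)⟩)⟩)⟩)⟩)⟩)⟩)⟩)⟩)⟩)⟩)⟩)⟩)⟩)⟩)⟩)⟩)⟩)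

/-- Checked boxes. -/
noncomputable def checkedBoxes91 : List Bx :=
  [b3640, b3641, b3642, b3643, b3644, b3645, b3646, b3647, b3648, b3649, b3650, b3651, b3652, b3653, b3654, b3655, b3656, b3657, b3658, b3659, b3660, b3661, b3662, b3663, b3664, b3665, b3666, b3667, b3668, b3669, b3670, b3671, b3672, b3673, b3674, b3675, b3676, b3677, b3678, b3679]

theorem cert_boxes91 : ∀ x ∈ checkedBoxes91, Cert cfg x ids :=
  (List.forall_mem_cons.2 ⟨cert3640, (List.forall_mem_cons.2 ⟨cert3641, (List.forall_mem_cons.2 ⟨cert3642, (List.forall_mem_cons.2 ⟨cert3643, (List.forall_mem_cons.2 ⟨cert3644, (List.forall_mem_cons.2 ⟨cert3645, (List.forall_mem_cons.2 ⟨cert3646, (List.forall_mem_cons.2 ⟨cert3647, (List.forall_mem_cons.2 ⟨cert3648, (List.forall_mem_cons.2 ⟨cert3649, (List.forall_mem_cons.2 ⟨cert3650, (List.forall_mem_cons.2 ⟨cert3651, (List.forall_mem_cons.2 ⟨cert3652, (List.forall_mem_cons.2 ⟨cert3653, (List.forall_mem_cons.2 ⟨cert3654, (List.forall_mem_cons.2 ⟨cert3655, (List.forall_mem_cons.2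 ⟨cert3656, (List.forall_mem_cons.2 ⟨cert3657, (List.forall_mem_cons.2 ⟨cert3658, (List.forall_mem_cons.2 ⟨cert3659, (List.forall_mem_cons.2 ⟨cert3660, (List.forall_mem_cons.2 ⟨cert3661, (List.forall_mem_cons.2 ⟨cert3662, (List.forall_mem_cons.2 ⟨cert3663, (List.forall_mem_cons.2 ⟨cert3664, (List.forall_mem_cons.2 ⟨cert3665, (List.forall_mem_cons.2 ⟨cert3666, (List.forall_mem_cons.2 ⟨cert3667, (List.forall_mem_cons.2 ⟨cert3668, (List.forall_mem_cons.2 ⟨cert3669, (List.forall_mem_cons.2 ⟨cert3670, (List.forall_mem_cons.2 ⟨cert3671, (List.forall_mem_cons.2 ⟨cert3672, (List.forall_mem_cons.2 ⟨cert3673, (List.forall_mem_cons.2 ⟨cert3674, (List.forall_mem_cons.2 ⟨cert3675, (List.forall_mem_cons.2 ⟨cert3676, (List.forall_mem_cons.2 ⟨cert3677, (List.forall_mem_cons.2 ⟨cert3678, (List.forall_mem_cons.2 ⟨cert3679, (fun _ h => absurd h List.not_mem_nil)⟩)⟩)⟩)⟩)⟩)⟩)⟩)⟩)⟩)⟩)⟩)⟩)⟩)⟩)⟩)⟩)⟩)⟩)⟩)⟩)⟩)⟩)⟩)⟩)⟩)⟩)⟩)⟩)⟩)⟩)⟩)⟩)⟩)⟩)⟩)⟩)⟩)⟩)⟩)⟩)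

/-- Checked boxes. -/
noncomputable def checkedBoxes92 : List Bx :=
  [b3680, b3681, b3682, b3683, b3684, b3685, b3686, b3687, b3688, b3689, b3690, b3691, b3692, b3693, b3694, b3695, b3696, b3697, b3698, b3699, b3700, b3701, b3702, b3703, b3704, b3705, b3706, b3707, b3708, b3709, b3710, b3711, b3712, b3713, b3714, b3715, b3716, b3717, b3718, b3719]

theorem cert_boxes92 : ∀ x ∈ checkedBoxes92, Cert cfg x ids :=
  (List.forall_mem_cons.2 ⟨cert3680, (List.forall_mem_cons.2 ⟨cert3681, (List.forall_mem_cons.2 ⟨cert3682, (List.forall_mem_cons.2 ⟨cert3683, (List.forall_mem_cons.2 ⟨cert3684, (List.forall_mem_cons.2 ⟨cert3685, (List.forall_mem_cons.2 ⟨cert3686, (List.forall_mem_cons.2 ⟨cert3687, (List.forall_mem_cons.2 ⟨cert3688, (List.forall_mem_cons.2 ⟨cert3689, (List.forall_mem_cons.2 ⟨cert3690, (List.forall_mem_cons.2 ⟨cert3691, (List.forall_mem_cons.2 ⟨cert3692, (List.forall_mem_cons.2 ⟨cert3693, (List.forall_mem_cons.2 ⟨cert3694, (List.forall_mem_cons.2 ⟨cert3695, (List.forall_mem_cons.2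 ⟨cert3696, (List.forall_mem_cons.2 ⟨cert3697, (List.forall_mem_cons.2 ⟨cert3698, (List.forall_mem_cons.2 ⟨cert3699, (List.forall_mem_cons.2 ⟨cert3700, (List.forall_mem_cons.2 ⟨cert3701, (List.forall_mem_cons.2 ⟨cert3702, (List.forall_mem_cons.2 ⟨cert3703, (List.forall_mem_cons.2 ⟨cert3704, (List.forall_mem_cons.2 ⟨cert3705, (List.forall_mem_cons.2 ⟨cert3706, (List.forall_mem_cons.2 ⟨cert3707, (List.forall_mem_cons.2 ⟨cert3708, (List.forall_mem_cons.2 ⟨cert3709, (List.forall_mem_cons.2 ⟨cert3710, (List.forall_mem_cons.2 ⟨cert3711, (List.forall_mem_cons.2 ⟨cert3712, (List.forall_mem_cons.2 ⟨cert3713, (List.forall_mem_cons.2 ⟨cert3714, (List.forall_mem_cons.2 ⟨cert3715, (List.forall_mem_cons.2 ⟨cert3716, (List.forall_mem_cons.2 ⟨cert3717, (List.forall_mem_cons.2 ⟨cert3718, (List.forall_mem_cons.2 ⟨cert3719, (fun _ h => absurd h List.not_mem_nil)⟩)⟩)⟩)⟩)⟩)⟩)⟩)⟩)⟩)⟩)⟩)⟩)⟩)⟩)⟩)⟩)⟩)⟩)⟩)⟩)⟩)⟩)⟩)⟩)⟩)⟩)⟩)⟩)⟩)⟩)⟩)⟩)⟩)⟩)⟩)⟩)⟩)⟩)⟩)⟩)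

/-- Checked boxes. -/
noncomputable def checkedBoxes93 : List Bx :=
  [b3720, b3721, b3722, b3723, b3724, b3725, b3726, b3727, b3728, b3729, b3730, b3731, b3732, b3733, b3734, b3735, b3736, b3737, b3738, b3739, b3740, b3741, b3742, b3743, b3744, b3745, b3746, b3747, b3748, b3749, b3750, b3751, b3752, b3753, b3754, b3755, b3756, b3757, b3758, b3759]

theorem cert_boxes93 : ∀ x ∈ checkedBoxes93, Cert cfg x ids :=
  (List.forall_mem_cons.2 ⟨cert3720, (List.forall_mem_cons.2 ⟨cert3721, (List.forall_mem_cons.2 ⟨cert3722, (List.forall_mem_cons.2 ⟨cert3723, (List.forall_mem_cons.2 ⟨cert3724, (List.forall_mem_cons.2 ⟨cert3725, (List.forall_mem_cons.2 ⟨cert3726, (List.forall_mem_cons.2 ⟨cert3727, (List.forall_mem_cons.2 ⟨cert3728, (List.forall_mem_cons.2 ⟨cert3729, (List.forall_mem_cons.2 ⟨cert3730, (List.forall_mem_cons.2 ⟨cert3731, (List.forall_mem_cons.2 ⟨cert3732, (List.forall_mem_cons.2 ⟨cert3733, (List.forall_mem_cons.2 ⟨cert3734, (List.forall_mem_cons.2 ⟨cert3735, (List.forall_mem_cons.2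 ⟨cert3736, (List.forall_mem_cons.2 ⟨cert3737, (List.forall_mem_cons.2 ⟨cert3738, (List.forall_mem_cons.2 ⟨cert3739, (List.forall_mem_cons.2 ⟨cert3740, (List.forall_mem_cons.2 ⟨cert3741, (List.forall_mem_cons.2 ⟨cert3742, (List.forall_mem_cons.2 ⟨cert3743, (List.forall_mem_cons.2 ⟨cert3744, (List.forall_mem_cons.2 ⟨cert3745, (List.forall_mem_cons.2 ⟨cert3746, (List.forall_mem_cons.2 ⟨cert3747, (List.forall_mem_cons.2 ⟨cert3748, (List.forall_mem_cons.2 ⟨cert3749, (List.forall_mem_cons.2 ⟨cert3750, (List.forall_mem_cons.2 ⟨cert3751, (List.forall_mem_cons.2 ⟨cert3752, (List.forall_mem_cons.2 ⟨cert3753, (List.forall_mem_cons.2 ⟨cert3754, (List.forall_mem_cons.2 ⟨cert3755, (List.forall_mem_cons.2 ⟨cert3756, (List.forall_mem_cons.2 ⟨cert3757, (List.forall_mem_cons.2 ⟨cert3758, (List.forall_mem_cons.2 ⟨cert3759, (fun _ h => absurd h List.not_mem_nil)⟩)⟩)⟩)⟩)⟩)⟩)⟩)⟩)⟩)⟩)⟩)⟩)⟩)⟩)⟩)⟩)⟩)⟩)⟩)⟩)⟩)⟩)⟩)⟩)⟩)⟩)⟩)⟩)⟩)⟩)⟩)⟩)⟩)⟩)⟩)⟩)⟩)⟩)⟩)⟩)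

/-- Checked boxes. -/
noncomputable def checkedBoxes94 : List Bx :=
  [b3760, b3761, b3762, b3763, b3764, b3765, b3766, b3767, b3768, b3769, b3770, b3771, b3772, b3773, b3774, b3775, b3776, b3777, b3778, b3779, b3780, b3781, b3782, b3783, b3784, b3785, b3786, b3787, b3788, b3789, b3790, b3791, b3792, b3793, b3794, b3795, b3796, b3797, b3798, b3799]

theorem cert_boxes94 : ∀ x ∈ checkedBoxes94, Cert cfg x ids :=
  (List.forall_mem_cons.2 ⟨cert3760, (List.forall_mem_cons.2 ⟨cert3761, (List.forall_mem_cons.2 ⟨cert3762, (List.forall_mem_cons.2 ⟨cert3763, (List.forall_mem_cons.2 ⟨cert3764, (List.forall_mem_cons.2 ⟨cert3765, (List.forall_mem_cons.2 ⟨cert3766, (List.forall_mem_cons.2 ⟨cert3767, (List.forall_mem_cons.2 ⟨cert3768, (List.forall_mem_cons.2 ⟨cert3769, (List.forall_mem_cons.2 ⟨cert3770, (List.forall_mem_cons.2 ⟨cert3771, (List.forall_mem_cons.2 ⟨cert3772, (List.forall_mem_cons.2 ⟨cert3773, (List.forall_mem_cons.2 ⟨cert3774, (List.forall_mem_cons.2 ⟨cert3775, (List.forall_mem_cons.2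 ⟨cert3776, (List.forall_mem_cons.2 ⟨cert3777, (List.forall_mem_cons.2 ⟨cert3778, (List.forall_mem_cons.2 ⟨cert3779, (List.forall_mem_cons.2 ⟨cert3780, (List.forall_mem_cons.2 ⟨cert3781, (List.forall_mem_cons.2 ⟨cert3782, (List.forall_mem_cons.2 ⟨cert3783, (List.forall_mem_cons.2 ⟨cert3784, (List.forall_mem_cons.2 ⟨cert3785, (List.forall_mem_cons.2 ⟨cert3786, (List.forall_mem_cons.2 ⟨cert3787, (List.forall_mem_cons.2 ⟨cert3788, (List.forall_mem_cons.2 ⟨cert3789, (List.forall_mem_cons.2 ⟨cert3790, (List.forall_mem_cons.2 ⟨cert3791, (List.forall_mem_cons.2 ⟨cert3792, (List.forall_mem_cons.2 ⟨cert3793, (List.forall_mem_cons.2 ⟨cert3794, (List.forall_mem_cons.2 ⟨cert3795, (List.forall_mem_cons.2 ⟨cert3796, (List.forall_mem_cons.2 ⟨cert3797, (List.forall_mem_cons.2 ⟨cert3798, (List.forall_mem_cons.2 ⟨cert3799, (fun _ h => absurd h List.not_mem_nil)⟩)⟩)⟩)⟩)⟩)⟩)⟩)⟩)⟩)⟩)⟩)⟩)⟩)⟩)⟩)⟩)⟩)⟩)⟩)⟩)⟩)⟩)⟩)⟩)⟩)⟩)⟩)⟩)⟩)⟩)⟩)⟩)⟩)⟩)⟩)⟩)⟩)⟩)⟩)⟩)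

/-- Checked boxes. -/
noncomputable def checkedBoxes95 : List Bx :=
  [b3800, b3801, b3802, b3803, b3804, b3805, b3806, b3807, b3808, b3809, b3810, b3811, b3812, b3813, b3814, b3815, b3816, b3817, b3818, b3819, b3820, b3821, b3822, b3823, b3824, b3825, b3826, b3827, b3828, b3829, b3830, b3831, b3832, b3833, b3834, b3835, b3836, b3837, b3838, b3839]

theorem cert_boxes95 : ∀ x ∈ checkedBoxes95, Cert cfg x ids :=
  (List.forall_mem_cons.2 ⟨cert3800, (List.forall_mem_cons.2 ⟨cert3801, (List.forall_mem_cons.2 ⟨cert3802, (List.forall_mem_cons.2 ⟨cert3803, (List.forall_mem_cons.2 ⟨cert3804, (List.forall_mem_cons.2 ⟨cert3805, (List.forall_mem_cons.2 ⟨cert3806, (List.forall_mem_cons.2 ⟨cert3807, (List.forall_mem_cons.2 ⟨cert3808, (List.forall_mem_cons.2 ⟨cert3809, (List.forall_mem_cons.2 ⟨cert3810, (List.forall_mem_cons.2 ⟨cert3811, (List.forall_mem_cons.2 ⟨cert3812, (List.forall_mem_cons.2 ⟨cert3813, (List.forall_mem_cons.2 ⟨cert3814, (List.forall_mem_cons.2 ⟨cert3815, (List.forall_mem_cons.2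 ⟨cert3816, (List.forall_mem_cons.2 ⟨cert3817, (List.forall_mem_cons.2 ⟨cert3818, (List.forall_mem_cons.2 ⟨cert3819, (List.forall_mem_cons.2 ⟨cert3820, (List.forall_mem_cons.2 ⟨cert3821, (List.forall_mem_cons.2 ⟨cert3822, (List.forall_mem_cons.2 ⟨cert3823, (List.forall_mem_cons.2 ⟨cert3824, (List.forall_mem_cons.2 ⟨cert3825, (List.forall_mem_cons.2 ⟨cert3826, (List.forall_mem_cons.2 ⟨cert3827, (List.forall_mem_cons.2 ⟨cert3828, (List.forall_mem_cons.2 ⟨cert3829, (List.forall_mem_cons.2 ⟨cert3830, (List.forall_mem_cons.2 ⟨cert3831, (List.forall_mem_cons.2 ⟨cert3832, (List.forall_mem_cons.2 ⟨cert3833, (List.forall_mem_cons.2 ⟨cert3834, (List.forall_mem_cons.2 ⟨cert3835, (List.forall_mem_cons.2 ⟨cert3836, (List.forall_mem_cons.2 ⟨cert3837, (List.forall_mem_cons.2 ⟨cert3838, (List.forall_mem_cons.2 ⟨cert3839, (fun _ h => absurd h List.not_mem_nil)⟩)⟩)⟩)⟩)⟩)⟩)⟩)⟩)⟩)⟩)⟩)⟩)⟩)⟩)⟩)⟩)⟩)⟩)⟩)⟩)⟩)⟩)⟩)⟩)⟩)⟩)⟩)⟩)⟩)⟩)⟩)⟩)⟩)⟩)⟩)⟩)⟩)⟩)⟩)⟩)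

/-- Checked boxes. -/
noncomputable def checkedBoxes96 : List Bx :=
  [b3840, b3841, b3842, b3843, b3844, b3845, b3846, b3847, b3848, b3849, b3850, b3851, b3852, b3853, b3854, b3855, b3856, b3857, b3858, b3859, b3860, b3861, b3862, b3863, b3864, b3865, b3866, b3867, b3868, b3869, b3870, b3871, b3872, b3873, b3874, b3875, b3876, b3877, b3878, b3879]

theorem cert_boxes96 : ∀ x ∈ checkedBoxes96, Cert cfg x ids :=
  (List.forall_mem_cons.2 ⟨cert3840, (List.forall_mem_cons.2 ⟨cert3841, (List.forall_mem_cons.2 ⟨cert3842, (List.forall_mem_cons.2 ⟨cert3843, (List.forall_mem_cons.2 ⟨cert3844, (List.forall_mem_cons.2 ⟨cert3845, (List.forall_mem_cons.2 ⟨cert3846, (List.forall_mem_cons.2 ⟨cert3847, (List.forall_mem_cons.2 ⟨cert3848, (List.forall_mem_cons.2 ⟨cert3849, (List.forall_mem_cons.2 ⟨cert3850, (List.forall_mem_cons.2 ⟨cert3851, (List.forall_mem_cons.2 ⟨cert3852, (List.forall_mem_cons.2 ⟨cert3853, (List.forall_mem_cons.2 ⟨cert3854, (List.forall_mem_cons.2 ⟨cert3855, (List.forall_mem_cons.2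 ⟨cert3856, (List.forall_mem_cons.2 ⟨cert3857, (List.forall_mem_cons.2 ⟨cert3858, (List.forall_mem_cons.2 ⟨cert3859, (List.forall_mem_cons.2 ⟨cert3860, (List.forall_mem_cons.2 ⟨cert3861, (List.forall_mem_cons.2 ⟨cert3862, (List.forall_mem_cons.2 ⟨cert3863, (List.forall_mem_cons.2 ⟨cert3864, (List.forall_mem_cons.2 ⟨cert3865, (List.forall_mem_cons.2 ⟨cert3866, (List.forall_mem_cons.2 ⟨cert3867, (List.forall_mem_cons.2 ⟨cert3868, (List.forall_mem_cons.2 ⟨cert3869, (List.forall_mem_cons.2 ⟨cert3870, (List.forall_mem_cons.2 ⟨cert3871, (List.forall_mem_cons.2 ⟨cert3872, (List.forall_mem_cons.2 ⟨cert3873, (List.forall_mem_cons.2 ⟨cert3874, (List.forall_mem_cons.2 ⟨cert3875, (List.forall_mem_cons.2 ⟨cert3876, (List.forall_mem_cons.2 ⟨cert3877, (List.forall_mem_cons.2 ⟨cert3878, (List.forall_mem_cons.2 ⟨cert3879, (fun _ h => absurd h List.not_mem_nil)⟩)⟩)⟩)⟩)⟩)⟩)⟩)⟩)⟩)⟩)⟩)⟩)⟩)⟩)⟩)⟩)⟩)⟩)⟩)⟩)⟩)⟩)⟩)⟩)⟩)⟩)⟩)⟩)⟩)⟩)⟩)⟩)⟩)⟩)⟩)⟩)⟩)⟩)⟩)⟩)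

/-- Checked boxes. -/
noncomputable def checkedBoxes97 : List Bx :=
  [b3880, b3881, b3882, b3883, b3884, b3885, b3886, b3887, b3888, b3889, b3890, b3891, b3892, b3893, b3894, b3895, b3896, b3897, b3898, b3899, b3900, b3901, b3902, b3903, b3904, b3905, b3906, b3907, b3908, b3909, b3910, b3911, b3912, b3913, b3914, b3915, b3916, b3917, b3918, b3919]

theorem cert_boxes97 : ∀ x ∈ checkedBoxes97, Cert cfg x ids :=
  (List.forall_mem_cons.2 ⟨cert3880, (List.forall_mem_cons.2 ⟨cert3881, (List.forall_mem_cons.2 ⟨cert3882, (List.forall_mem_cons.2 ⟨cert3883, (List.forall_mem_cons.2 ⟨cert3884, (List.forall_mem_cons.2 ⟨cert3885, (List.forall_mem_cons.2 ⟨cert3886, (List.forall_mem_cons.2 ⟨cert3887, (List.forall_mem_cons.2 ⟨cert3888, (List.forall_mem_cons.2 ⟨cert3889, (List.forall_mem_cons.2 ⟨cert3890, (List.forall_mem_cons.2 ⟨cert3891, (List.forall_mem_cons.2 ⟨cert3892, (List.forall_mem_cons.2 ⟨cert3893, (List.forall_mem_cons.2 ⟨cert3894, (List.forall_mem_cons.2 ⟨cert3895, (List.forall_mem_cons.2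 ⟨cert3896, (List.forall_mem_cons.2 ⟨cert3897, (List.forall_mem_cons.2 ⟨cert3898, (List.forall_mem_cons.2 ⟨cert3899, (List.forall_mem_cons.2 ⟨cert3900, (List.forall_mem_cons.2 ⟨cert3901, (List.forall_mem_cons.2 ⟨cert3902, (List.forall_mem_cons.2 ⟨cert3903, (List.forall_mem_cons.2 ⟨cert3904, (List.forall_mem_cons.2 ⟨cert3905, (List.forall_mem_cons.2 ⟨cert3906, (List.forall_mem_cons.2 ⟨cert3907, (List.forall_mem_cons.2 ⟨cert3908, (List.forall_mem_cons.2 ⟨cert3909, (List.forall_mem_cons.2 ⟨cert3910, (List.forall_mem_cons.2 ⟨cert3911, (List.forall_mem_cons.2 ⟨cert3912, (List.forall_mem_cons.2 ⟨cert3913, (List.forall_mem_cons.2 ⟨cert3914, (List.forall_mem_cons.2 ⟨cert3915, (List.forall_mem_cons.2 ⟨cert3916, (List.forall_mem_cons.2 ⟨cert3917, (List.forall_mem_cons.2 ⟨cert3918, (List.forall_mem_cons.2 ⟨cert3919, (fun _ h => absurd h List.not_mem_nil)⟩)⟩)⟩)⟩)⟩)⟩)⟩)⟩)⟩)⟩)⟩)⟩)⟩)⟩)⟩)⟩)⟩)⟩)⟩)⟩)⟩)⟩)⟩)⟩)⟩)⟩)⟩)⟩)⟩)⟩)⟩)⟩)⟩)⟩)⟩)⟩)⟩)⟩)⟩)⟩)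

/-- Checked boxes. -/
noncomputable def checkedBoxes98 : List Bx :=
  [b3920, b3921, b3922, b3923, b3924, b3925, b3926, b3927, b3928, b3929, b3930, b3931, b3932, b3933, b3934, b3935, b3936, b3937, b3938, b3939, b3940, b3941, b3942, b3943, b3944, b3945, b3946, b3947, b3948, b3949, b3950, b3951, b3952, b3953, b3954, b3955, b3956, b3957, b3958, b3959]

theorem cert_boxes98 : ∀ x ∈ checkedBoxes98, Cert cfg x ids :=
  (List.forall_mem_cons.2 ⟨cert3920, (List.forall_mem_cons.2 ⟨cert3921, (List.forall_mem_cons.2 ⟨cert3922, (List.forall_mem_cons.2 ⟨cert3923, (List.forall_mem_cons.2 ⟨cert3924, (List.forall_mem_cons.2 ⟨cert3925, (List.forall_mem_cons.2 ⟨cert3926, (List.forall_mem_cons.2 ⟨cert3927, (List.forall_mem_cons.2 ⟨cert3928, (List.forall_mem_cons.2 ⟨cert3929, (List.forall_mem_cons.2 ⟨cert3930, (List.forall_mem_cons.2 ⟨cert3931, (List.forall_mem_cons.2 ⟨cert3932, (List.forall_mem_cons.2 ⟨cert3933, (List.forall_mem_cons.2 ⟨cert3934, (List.forall_mem_cons.2 ⟨cert3935, (List.forall_mem_cons.2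 ⟨cert3936, (List.forall_mem_cons.2 ⟨cert3937, (List.forall_mem_cons.2 ⟨cert3938, (List.forall_mem_cons.2 ⟨cert3939, (List.forall_mem_cons.2 ⟨cert3940, (List.forall_mem_cons.2 ⟨cert3941, (List.forall_mem_cons.2 ⟨cert3942, (List.forall_mem_cons.2 ⟨cert3943, (List.forall_mem_cons.2 ⟨cert3944, (List.forall_mem_cons.2 ⟨cert3945, (List.forall_mem_cons.2 ⟨cert3946, (List.forall_mem_cons.2 ⟨cert3947, (List.forall_mem_cons.2 ⟨cert3948, (List.forall_mem_cons.2 ⟨cert3949, (List.forall_mem_cons.2 ⟨cert3950, (List.forall_mem_cons.2 ⟨cert3951, (List.forall_mem_cons.2 ⟨cert3952, (List.forall_mem_cons.2 ⟨cert3953, (List.forall_mem_cons.2 ⟨cert3954, (List.forall_mem_cons.2 ⟨cert3955, (List.forall_mem_cons.2 ⟨cert3956, (List.forall_mem_cons.2 ⟨cert3957, (List.forall_mem_cons.2 ⟨cert3958, (List.forall_mem_cons.2 ⟨cert3959, (fun _ h => absurd h List.not_mem_nil)⟩)⟩)⟩)⟩)⟩)⟩)⟩)⟩)⟩)⟩)⟩)⟩)⟩)⟩)⟩)⟩)⟩)⟩)⟩)⟩)⟩)⟩)⟩)⟩)⟩)⟩)⟩)⟩)⟩)⟩)⟩)⟩)⟩)⟩)⟩)⟩)⟩)⟩)⟩)⟩)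

/-- Checked boxes. -/
noncomputable def checkedBoxes99 : List Bx :=
  [b3960, b3961, b3962, b3963, b3964, b3965, b3966, b3967, b3968, b3969, b3970, b3971, b3972, b3973, b3974, b3975, b3976, b3977, b3978, b3979, b3980, b3981, b3982, b3983, b3984, b3985, b3986, b3987, b3988, b3989, b3990, b3991, b3992, b3993, b3994, b3995, b3996, b3997, b3998, b3999]

theorem cert_boxes99 : ∀ x ∈ checkedBoxes99, Cert cfg x ids :=
  (List.forall_mem_cons.2 ⟨cert3960, (List.forall_mem_cons.2 ⟨cert3961, (List.forall_mem_cons.2 ⟨cert3962, (List.forall_mem_cons.2 ⟨cert3963, (List.forall_mem_cons.2 ⟨cert3964, (List.forall_mem_cons.2 ⟨cert3965, (List.forall_mem_cons.2 ⟨cert3966, (List.forall_mem_cons.2 ⟨cert3967, (List.forall_mem_cons.2 ⟨cert3968, (List.forall_mem_cons.2 ⟨cert3969, (List.forall_mem_cons.2 ⟨cert3970, (List.forall_mem_cons.2 ⟨cert3971, (List.forall_mem_cons.2 ⟨cert3972, (List.forall_mem_cons.2 ⟨cert3973, (List.forall_mem_cons.2 ⟨cert3974, (List.forall_mem_cons.2 ⟨cert3975, (List.forall_mem_cons.2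 ⟨cert3976, (List.forall_mem_cons.2 ⟨cert3977, (List.forall_mem_cons.2 ⟨cert3978, (List.forall_mem_cons.2 ⟨cert3979, (List.forall_mem_cons.2 ⟨cert3980, (List.forall_mem_cons.2 ⟨cert3981, (List.forall_mem_cons.2 ⟨cert3982, (List.forall_mem_cons.2 ⟨cert3983, (List.forall_mem_cons.2 ⟨cert3984, (List.forall_mem_cons.2 ⟨cert3985, (List.forall_mem_cons.2 ⟨cert3986, (List.forall_mem_cons.2 ⟨cert3987, (List.forall_mem_cons.2 ⟨cert3988, (List.forall_mem_cons.2 ⟨cert3989, (List.forall_mem_cons.2 ⟨cert3990, (List.forall_mem_cons.2 ⟨cert3991, (List.forall_mem_cons.2 ⟨cert3992, (List.forall_mem_cons.2 ⟨cert3993, (List.forall_mem_cons.2 ⟨cert3994, (List.forall_mem_cons.2 ⟨cert3995, (List.forall_mem_cons.2 ⟨cert3996, (List.forall_mem_cons.2 ⟨cert3997, (List.forall_mem_cons.2 ⟨cert3998, (List.forall_mem_cons.2 ⟨cert3999, (fun _ h => absurd h List.not_mem_nil)⟩)⟩)⟩)⟩)⟩)⟩)⟩)⟩)⟩)⟩)⟩)⟩)⟩)⟩)⟩)⟩)⟩)⟩)⟩)⟩)⟩)⟩)⟩)⟩)⟩)⟩)⟩)⟩)⟩)⟩)⟩)⟩)⟩)⟩)⟩)⟩)⟩)⟩)⟩)⟩)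

/-- Checked boxes. -/
noncomputable def checkedBoxes100 : List Bx :=
  [b4000, b4001, b4002, b4003, b4004, b4005, b4006, b4007, b4008, b4009, b4010, b4011, b4012, b4013, b4014, b4015, b4016, b4017, b4018, b4019, b4020, b4021, b4022, b4023, b4024, b4025, b4026, b4027, b4028, b4029, b4030, b4031, b4032, b4033, b4034, b4035, b4036, b4037, b4038, b4039]

theorem cert_boxes100 : ∀ x ∈ checkedBoxes100, Cert cfg x ids :=
  (List.forall_mem_cons.2 ⟨cert4000, (List.forall_mem_cons.2 ⟨cert4001, (List.forall_mem_cons.2 ⟨cert4002, (List.forall_mem_cons.2 ⟨cert4003, (List.forall_mem_cons.2 ⟨cert4004, (List.forall_mem_cons.2 ⟨cert4005, (List.forall_mem_cons.2 ⟨cert4006, (List.forall_mem_cons.2 ⟨cert4007, (List.forall_mem_cons.2 ⟨cert4008, (List.forall_mem_cons.2 ⟨cert4009, (List.forall_mem_cons.2 ⟨cert4010, (List.forall_mem_cons.2 ⟨cert4011, (List.forall_mem_cons.2 ⟨cert4012, (List.forall_mem_cons.2 ⟨cert4013, (List.forall_mem_cons.2 ⟨cert4014, (List.forall_mem_cons.2 ⟨cert4015, (List.forall_mem_cons.2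 ⟨cert4016, (List.forall_mem_cons.2 ⟨cert4017, (List.forall_mem_cons.2 ⟨cert4018, (List.forall_mem_cons.2 ⟨cert4019, (List.forall_mem_cons.2 ⟨cert4020, (List.forall_mem_cons.2 ⟨cert4021, (List.forall_mem_cons.2 ⟨cert4022, (List.forall_mem_cons.2 ⟨cert4023, (List.forall_mem_cons.2 ⟨cert4024, (List.forall_mem_cons.2 ⟨cert4025, (List.forall_mem_cons.2 ⟨cert4026, (List.forall_mem_cons.2 ⟨cert4027, (List.forall_mem_cons.2 ⟨cert4028, (List.forall_mem_cons.2 ⟨cert4029, (List.forall_mem_cons.2 ⟨cert4030, (List.forall_mem_cons.2 ⟨cert4031, (List.forall_mem_cons.2 ⟨cert4032, (List.forall_mem_cons.2 ⟨cert4033, (List.forall_mem_cons.2 ⟨cert4034, (List.forall_mem_cons.2 ⟨cert4035, (List.forall_mem_cons.2 ⟨cert4036, (List.forall_mem_cons.2 ⟨cert4037, (List.forall_mem_cons.2 ⟨cert4038, (List.forall_mem_cons.2 ⟨cert4039, (fun _ h => absurd h List.not_mem_nil)⟩)⟩)⟩)⟩)⟩)⟩)⟩)⟩)⟩)⟩)⟩)⟩)⟩)⟩)⟩)⟩)⟩)⟩)⟩)⟩)⟩)⟩)⟩)⟩)⟩)⟩)⟩)⟩)⟩)⟩)⟩)⟩)⟩)⟩)⟩)⟩)⟩)⟩)⟩)⟩)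

/-- Checked boxes. -/
noncomputable def checkedBoxes101 : List Bx :=
  [b4040, b4041, b4042, b4043, b4044, b4045, b4046, b4047, b4048, b4049, b4050, b4051, b4052, b4053, b4054, b4055, b4056, b4057, b4058, b4059, b4060, b4061, b4062, b4063, b4064, b4065, b4066, b4067, b4068, b4069, b4070, b4071, b4072, b4073, b4074, b4075, b4076, b4077, b4078, b4079]

theorem cert_boxes101 : ∀ x ∈ checkedBoxes101, Cert cfg x ids :=
  (List.forall_mem_cons.2 ⟨cert4040, (List.forall_mem_cons.2 ⟨cert4041, (List.forall_mem_cons.2 ⟨cert4042, (List.forall_mem_cons.2 ⟨cert4043, (List.forall_mem_cons.2 ⟨cert4044, (List.forall_mem_cons.2 ⟨cert4045, (List.forall_mem_cons.2 ⟨cert4046, (List.forall_mem_cons.2 ⟨cert4047, (List.forall_mem_cons.2 ⟨cert4048, (List.forall_mem_cons.2 ⟨cert4049, (List.forall_mem_cons.2 ⟨cert4050, (List.forall_mem_cons.2 ⟨cert4051, (List.forall_mem_cons.2 ⟨cert4052, (List.forall_mem_cons.2 ⟨cert4053, (List.forall_mem_cons.2 ⟨cert4054, (List.forall_mem_cons.2 ⟨cert4055, (List.forall_mem_cons.2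 ⟨cert4056, (List.forall_mem_cons.2 ⟨cert4057, (List.forall_mem_cons.2 ⟨cert4058, (List.forall_mem_cons.2 ⟨cert4059, (List.forall_mem_cons.2 ⟨cert4060, (List.forall_mem_cons.2 ⟨cert4061, (List.forall_mem_cons.2 ⟨cert4062, (List.forall_mem_cons.2 ⟨cert4063, (List.forall_mem_cons.2 ⟨cert4064, (List.forall_mem_cons.2 ⟨cert4065, (List.forall_mem_cons.2 ⟨cert4066, (List.forall_mem_cons.2 ⟨cert4067, (List.forall_mem_cons.2 ⟨cert4068, (List.forall_mem_cons.2 ⟨cert4069, (List.forall_mem_cons.2 ⟨cert4070, (List.forall_mem_cons.2 ⟨cert4071, (List.forall_mem_cons.2 ⟨cert4072, (List.forall_mem_cons.2 ⟨cert4073, (List.forall_mem_cons.2 ⟨cert4074, (List.forall_mem_cons.2 ⟨cert4075, (List.forall_mem_cons.2 ⟨cert4076, (List.forall_mem_cons.2 ⟨cert4077, (List.forall_mem_cons.2 ⟨cert4078, (List.forall_mem_cons.2 ⟨cert4079, (fun _ h => absurd h List.not_mem_nil)⟩)⟩)⟩)⟩)⟩)⟩)⟩)⟩)⟩)⟩)⟩)⟩)⟩)⟩)⟩)⟩)⟩)⟩)⟩)⟩)⟩)⟩)⟩)⟩)⟩)⟩)⟩)⟩)⟩)⟩)⟩)⟩)⟩)⟩)⟩)⟩)⟩)⟩)⟩)⟩)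

/-- Checked boxes. -/
noncomputable def checkedBoxes102 : List Bx :=
  [b4080, b4081, b4082, b4083, b4084, b4085, b4086, b4087, b4088, b4089, b4090, b4091, b4092, b4093, b4094, b4095, b4096, b4097, b4098, b4099, b4100, b4101, b4102, b4103, b4104, b4105, b4106, b4107, b4108, b4109, b4110, b4111, b4112, b4113, b4114, b4115, b4116, b4117, b4118, b4119]

theorem cert_boxes102 : ∀ x ∈ checkedBoxes102, Cert cfg x ids :=
  (List.forall_mem_cons.2 ⟨cert4080, (List.forall_mem_cons.2 ⟨cert4081, (List.forall_mem_cons.2 ⟨cert4082, (List.forall_mem_cons.2 ⟨cert4083, (List.forall_mem_cons.2 ⟨cert4084, (List.forall_mem_cons.2 ⟨cert4085, (List.forall_mem_cons.2 ⟨cert4086, (List.forall_mem_cons.2 ⟨cert4087, (List.forall_mem_cons.2 ⟨cert4088, (List.forall_mem_cons.2 ⟨cert4089, (List.forall_mem_cons.2 ⟨cert4090, (List.forall_mem_cons.2 ⟨cert4091, (List.forall_mem_cons.2 ⟨cert4092, (List.forall_mem_cons.2 ⟨cert4093, (List.forall_mem_cons.2 ⟨cert4094, (List.forall_mem_cons.2 ⟨cert4095, (List.forall_mem_cons.2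 ⟨cert4096, (List.forall_mem_cons.2 ⟨cert4097, (List.forall_mem_cons.2 ⟨cert4098, (List.forall_mem_cons.2 ⟨cert4099, (List.forall_mem_cons.2 ⟨cert4100, (List.forall_mem_cons.2 ⟨cert4101, (List.forall_mem_cons.2 ⟨cert4102, (List.forall_mem_cons.2 ⟨cert4103, (List.forall_mem_cons.2 ⟨cert4104, (List.forall_mem_cons.2 ⟨cert4105, (List.forall_mem_cons.2 ⟨cert4106, (List.forall_mem_cons.2 ⟨cert4107, (List.forall_mem_cons.2 ⟨cert4108, (List.forall_mem_cons.2 ⟨cert4109, (List.forall_mem_cons.2 ⟨cert4110, (List.forall_mem_cons.2 ⟨cert4111, (List.forall_mem_cons.2 ⟨cert4112, (List.forall_mem_cons.2 ⟨cert4113, (List.forall_mem_cons.2 ⟨cert4114, (List.forall_mem_cons.2 ⟨cert4115, (List.forall_mem_cons.2 ⟨cert4116, (List.forall_mem_cons.2 ⟨cert4117, (List.forall_mem_cons.2 ⟨cert4118, (List.forall_mem_cons.2 ⟨cert4119, (fun _ h => absurd h List.not_mem_nil)⟩)⟩)⟩)⟩)⟩)⟩)⟩)⟩)⟩)⟩)⟩)⟩)⟩)⟩)⟩)⟩)⟩)⟩)⟩)⟩)⟩)⟩)⟩)⟩)⟩)⟩)⟩)⟩)⟩)⟩)⟩)⟩)⟩)⟩)⟩)⟩)⟩)⟩)⟩)⟩)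

/-- Checked boxes. -/
noncomputable def checkedBoxes103 : List Bx :=
  [b4120, b4121, b4122, b4123, b4124, b4125, b4126, b4127, b4128, b4129, b4130, b4131, b4132, b4133, b4134, b4135, b4136, b4137, b4138, b4139, b4140, b4141, b4142, b4143, b4144, b4145, b4146, b4147, b4148, b4149, b4150, b4151, b4152, b4153, b4154, b4155, b4156, b4157, b4158, b4159]

theorem cert_boxes103 : ∀ x ∈ checkedBoxes103, Cert cfg x ids :=
  (List.forall_mem_cons.2 ⟨cert4120, (List.forall_mem_cons.2 ⟨cert4121, (List.forall_mem_cons.2 ⟨cert4122, (List.forall_mem_cons.2 ⟨cert4123, (List.forall_mem_cons.2 ⟨cert4124, (List.forall_mem_cons.2 ⟨cert4125, (List.forall_mem_cons.2 ⟨cert4126, (List.forall_mem_cons.2 ⟨cert4127, (List.forall_mem_cons.2 ⟨cert4128, (List.forall_mem_cons.2 ⟨cert4129, (List.forall_mem_cons.2 ⟨cert4130, (List.forall_mem_cons.2 ⟨cert4131, (List.forall_mem_cons.2 ⟨cert4132, (List.forall_mem_cons.2 ⟨cert4133, (List.forall_mem_cons.2 ⟨cert4134, (List.forall_mem_cons.2 ⟨cert4135, (List.forall_mem_cons.2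 ⟨cert4136, (List.forall_mem_cons.2 ⟨cert4137, (List.forall_mem_cons.2 ⟨cert4138, (List.forall_mem_cons.2 ⟨cert4139, (List.forall_mem_cons.2 ⟨cert4140, (List.forall_mem_cons.2 ⟨cert4141, (List.forall_mem_cons.2 ⟨cert4142, (List.forall_mem_cons.2 ⟨cert4143, (List.forall_mem_cons.2 ⟨cert4144, (List.forall_mem_cons.2 ⟨cert4145, (List.forall_mem_cons.2 ⟨cert4146, (List.forall_mem_cons.2 ⟨cert4147, (List.forall_mem_cons.2 ⟨cert4148, (List.forall_mem_cons.2 ⟨cert4149, (List.forall_mem_cons.2 ⟨cert4150, (List.forall_mem_cons.2 ⟨cert4151, (List.forall_mem_cons.2 ⟨cert4152, (List.forall_mem_cons.2 ⟨cert4153, (List.forall_mem_cons.2 ⟨cert4154, (List.forall_mem_cons.2 ⟨cert4155, (List.forall_mem_cons.2 ⟨cert4156, (List.forall_mem_cons.2 ⟨cert4157, (List.forall_mem_cons.2 ⟨cert4158, (List.forall_mem_cons.2 ⟨cert4159, (fun _ h => absurd h List.not_mem_nil)⟩)⟩)⟩)⟩)⟩)⟩)⟩)⟩)⟩)⟩)⟩)⟩)⟩)⟩)⟩)⟩)⟩)⟩)⟩)⟩)⟩)⟩)⟩)⟩)⟩)⟩)⟩)⟩)⟩)⟩)⟩)⟩)⟩)⟩)⟩)⟩)⟩)⟩)⟩)⟩)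

/-- Checked boxes. -/
noncomputable def checkedBoxes104 : List Bx :=
  [b4160, b4161, b4162, b4163, b4164, b4165, b4166, b4167, b4168, b4169, b4170, b4171, b4172, b4173, b4174, b4175, b4176, b4177, b4178, b4179, b4180, b4181, b4182, b4183, b4184, b4185, b4186, b4187, b4188, b4189, b4190, b4191, b4192, b4193, b4194, b4195, b4196, b4197, b4198, b4199]

theorem cert_boxes104 : ∀ x ∈ checkedBoxes104, Cert cfg x ids :=
  (List.forall_mem_cons.2 ⟨cert4160, (List.forall_mem_cons.2 ⟨cert4161, (List.forall_mem_cons.2 ⟨cert4162, (List.forall_mem_cons.2 ⟨cert4163, (List.forall_mem_cons.2 ⟨cert4164, (List.forall_mem_cons.2 ⟨cert4165, (List.forall_mem_cons.2 ⟨cert4166, (List.forall_mem_cons.2 ⟨cert4167, (List.forall_mem_cons.2 ⟨cert4168, (List.forall_mem_cons.2 ⟨cert4169, (List.forall_mem_cons.2 ⟨cert4170, (List.forall_mem_cons.2 ⟨cert4171, (List.forall_mem_cons.2 ⟨cert4172, (List.forall_mem_cons.2 ⟨cert4173, (List.forall_mem_cons.2 ⟨cert4174, (List.forall_mem_cons.2 ⟨cert4175, (List.forall_mem_cons.2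 ⟨cert4176, (List.forall_mem_cons.2 ⟨cert4177, (List.forall_mem_cons.2 ⟨cert4178, (List.forall_mem_cons.2 ⟨cert4179, (List.forall_mem_cons.2 ⟨cert4180, (List.forall_mem_cons.2 ⟨cert4181, (List.forall_mem_cons.2 ⟨cert4182, (List.forall_mem_cons.2 ⟨cert4183, (List.forall_mem_cons.2 ⟨cert4184, (List.forall_mem_cons.2 ⟨cert4185, (List.forall_mem_cons.2 ⟨cert4186, (List.forall_mem_cons.2 ⟨cert4187, (List.forall_mem_cons.2 ⟨cert4188, (List.forall_mem_cons.2 ⟨cert4189, (List.forall_mem_cons.2 ⟨cert4190, (List.forall_mem_cons.2 ⟨cert4191, (List.forall_mem_cons.2 ⟨cert4192, (List.forall_mem_cons.2 ⟨cert4193, (List.forall_mem_cons.2 ⟨cert4194, (List.forall_mem_cons.2 ⟨cert4195, (List.forall_mem_cons.2 ⟨cert4196, (List.forall_mem_cons.2 ⟨cert4197, (List.forall_mem_cons.2 ⟨cert4198, (List.forall_mem_cons.2 ⟨cert4199, (fun _ h => absurd h List.not_mem_nil)⟩)⟩)⟩)⟩)⟩)⟩)⟩)⟩)⟩)⟩)⟩)⟩)⟩)⟩)⟩)⟩)⟩)⟩)⟩)⟩)⟩)⟩)⟩)⟩)⟩)⟩)⟩)⟩)⟩)⟩)⟩)⟩)⟩)⟩)⟩)⟩)⟩)⟩)⟩)⟩)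

/-- Checked boxes. -/
noncomputable def checkedBoxes105 : List Bx :=
  [b4200, b4201, b4202, b4203, b4204, b4205, b4206, b4207, b4208, b4209, b4210, b4211, b4212, b4213, b4214, b4215, b4216, b4217, b4218, b4219, b4220, b4221, b4222, b4223, b4224, b4225, b4226, b4227, b4228, b4229, b4230, b4231, b4232, b4233, b4234, b4235, b4236, b4237, b4238, b4239]

theorem cert_boxes105 : ∀ x ∈ checkedBoxes105, Cert cfg x ids :=
  (List.forall_mem_cons.2 ⟨cert4200, (List.forall_mem_cons.2 ⟨cert4201, (List.forall_mem_cons.2 ⟨cert4202, (List.forall_mem_cons.2 ⟨cert4203, (List.forall_mem_cons.2 ⟨cert4204, (List.forall_mem_cons.2 ⟨cert4205, (List.forall_mem_cons.2 ⟨cert4206, (List.forall_mem_cons.2 ⟨cert4207, (List.forall_mem_cons.2 ⟨cert4208, (List.forall_mem_cons.2 ⟨cert4209, (List.forall_mem_cons.2 ⟨cert4210, (List.forall_mem_cons.2 ⟨cert4211, (List.forall_mem_cons.2 ⟨cert4212, (List.forall_mem_cons.2 ⟨cert4213, (List.forall_mem_cons.2 ⟨cert4214, (List.forall_mem_cons.2 ⟨cert4215, (List.forall_mem_cons.2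 ⟨cert4216, (List.forall_mem_cons.2 ⟨cert4217, (List.forall_mem_cons.2 ⟨cert4218, (List.forall_mem_cons.2 ⟨cert4219, (List.forall_mem_cons.2 ⟨cert4220, (List.forall_mem_cons.2 ⟨cert4221, (List.forall_mem_cons.2 ⟨cert4222, (List.forall_mem_cons.2 ⟨cert4223, (List.forall_mem_cons.2 ⟨cert4224, (List.forall_mem_cons.2 ⟨cert4225, (List.forall_mem_cons.2 ⟨cert4226, (List.forall_mem_cons.2 ⟨cert4227, (List.forall_mem_cons.2 ⟨cert4228, (List.forall_mem_cons.2 ⟨cert4229, (List.forall_mem_cons.2 ⟨cert4230, (List.forall_mem_cons.2 ⟨cert4231, (List.forall_mem_cons.2 ⟨cert4232, (List.forall_mem_cons.2 ⟨cert4233, (List.forall_mem_cons.2 ⟨cert4234, (List.forall_mem_cons.2 ⟨cert4235, (List.forall_mem_cons.2 ⟨cert4236, (List.forall_mem_cons.2 ⟨cert4237, (List.forall_mem_cons.2 ⟨cert4238, (List.forall_mem_cons.2 ⟨cert4239, (fun _ h => absurd h List.not_mem_nil)⟩)⟩)⟩)⟩)⟩)⟩)⟩)⟩)⟩)⟩)⟩)⟩)⟩)⟩)⟩)⟩)⟩)⟩)⟩)⟩)⟩)⟩)⟩)⟩)⟩)⟩)⟩)⟩)⟩)⟩)⟩)⟩)⟩)⟩)⟩)⟩)⟩)⟩)⟩)⟩)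

/-- Checked boxes. -/
noncomputable def checkedBoxes106 : List Bx :=
  [b4240, b4241, b4242, b4243, b4244, b4245, b4246, b4247, b4248, b4249]

theorem cert_boxes106 : ∀ x ∈ checkedBoxes106, Cert cfg x ids :=
  (List.forall_mem_cons.2 ⟨cert4240, (List.forall_mem_cons.2 ⟨cert4241, (List.forall_mem_cons.2 ⟨cert4242, (List.forall_mem_cons.2 ⟨cert4243, (List.forall_mem_cons.2 ⟨cert4244, (List.forall_mem_cons.2 ⟨cert4245, (List.forall_mem_cons.2 ⟨cert4246, (List.forall_mem_cons.2 ⟨cert4247, (List.forall_mem_cons.2 ⟨cert4248, (List.forall_mem_cons.2 ⟨cert4249, (fun _ h => absurd h List.not_mem_nil)⟩)⟩)⟩)⟩)⟩)⟩)⟩)⟩)⟩)⟩)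

/-- All checked boxes, in groups. -/
noncomputable def boxGroups : List (List Bx) :=
  [checkedBoxes0, checkedBoxes1, checkedBoxes2, checkedBoxes3, checkedBoxes4, checkedBoxes5, checkedBoxes6, checkedBoxes7, checkedBoxes8, checkedBoxes9, checkedBoxes10, checkedBoxes11, checkedBoxes12, checkedBoxes13, checkedBoxes14, checkedBoxes15, checkedBoxes16, checkedBoxes17, checkedBoxes18, checkedBoxes19, checkedBoxes20, checkedBoxes21, checkedBoxes22, checkedBoxes23, checkedBoxes24, checkedBoxes25, checkedBoxes26, checkedBoxes27, checkedBoxes28, checkedBoxes29, checkedBoxes30, checkedBoxes31, checkedBoxes32, checkedBoxes33, checkedBoxes34, checkedBoxes35, checkedBoxes36, checkedBoxes37, checkedBoxes38, checkedBoxes39, checkedBoxes40, checkedBoxes41, checkedBoxes42, checkedBoxes43, checkedBoxes44, checkedBoxes45, checkedBoxes46, checkedBoxes47, checkedBoxes48, checkedBoxes49, checkedBoxes50, checkedBoxes51, checkedBoxes52, checkedBoxes53, checkedBoxes54, checkedBoxes55, checkedBoxes56, checkedBoxes57,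 checkedBoxes58, checkedBoxes59, checkedBoxes60, checkedBoxes61, checkedBoxes62, checkedBoxes63, checkedBoxes64, checkedBoxes65, checkedBoxes66, checkedBoxes67, checkedBoxes68, checkedBoxes69, checkedBoxes70, checkedBoxes71, checkedBoxes72, checkedBoxes73, checkedBoxes74, checkedBoxes75, checkedBoxes76, checkedBoxes77, checkedBoxes78, checkedBoxes79, checkedBoxes80, checkedBoxes81, checkedBoxes82, checkedBoxes83, checkedBoxes84, checkedBoxes85, checkedBoxes86, checkedBoxes87, checkedBoxes88, checkedBoxes89, checkedBoxes90, checkedBoxes91, checkedBoxes92, checkedBoxes93, checkedBoxes94, checkedBoxes95, checkedBoxes96, checkedBoxes97, checkedBoxes98, checkedBoxes99, checkedBoxes100, checkedBoxes101, checkedBoxes102, checkedBoxes103, checkedBoxes104, checkedBoxes105, checkedBoxes106]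

/-- A block of groups. -/
noncomputable def groupBlock0 : List (List Bx) :=
  [checkedBoxes0, checkedBoxes1, checkedBoxes2, checkedBoxes3, checkedBoxes4, checkedBoxes5, checkedBoxes6, checkedBoxes7, checkedBoxes8, checkedBoxes9, checkedBoxes10, checkedBoxes11, checkedBoxes12, checkedBoxes13, checkedBoxes14, checkedBoxes15, checkedBoxes16, checkedBoxes17, checkedBoxes18, checkedBoxes19, checkedBoxes20, checkedBoxes21, checkedBoxes22, checkedBoxes23, checkedBoxes24, checkedBoxes25, checkedBoxes26, checkedBoxes27, checkedBoxes28, checkedBoxes29]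

theorem cert_block0 : ∀ L ∈ groupBlock0, ∀ x ∈ L, Cert cfg x ids :=
  (List.forall_mem_cons.2 ⟨cert_boxes0, (List.forall_mem_cons.2 ⟨cert_boxes1, (List.forall_mem_cons.2 ⟨cert_boxes2, (List.forall_mem_cons.2 ⟨cert_boxes3, (List.forall_mem_cons.2 ⟨cert_boxes4, (List.forall_mem_cons.2 ⟨cert_boxes5, (List.forall_mem_cons.2 ⟨cert_boxes6, (List.forall_mem_cons.2 ⟨cert_boxes7, (List.forall_mem_cons.2 ⟨cert_boxes8, (List.forall_mem_cons.2 ⟨cert_boxes9, (List.forall_mem_cons.2 ⟨cert_boxes10, (List.forall_mem_cons.2 ⟨cert_boxes11, (List.forall_mem_cons.2 ⟨cert_boxes12, (List.forall_mem_cons.2 ⟨cert_boxes13, (List.forall_mem_cons.2 ⟨cert_boxes14, (List.forall_mem_cons.2 ⟨cert_boxes15, (List.forall_mem_cons.2 ⟨cert_boxes16, (List.forall_mem_cons.2 ⟨cert_boxes17, (List.forall_mem_cons.2 ⟨cert_boxes18, (List.forall_mem_cons.2 ⟨cert_boxes19, (List.forall_mem_cons.2 ⟨cert_boxes20, (List.forall_mem_cons.2 ⟨cert_boxes21, (List.forall_mem_cons.2 ⟨cert_boxes22, (List.forall_mem_cons.2 ⟨cert_boxes23,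 (List.forall_mem_cons.2 ⟨cert_boxes24, (List.forall_mem_cons.2 ⟨cert_boxes25, (List.forall_mem_cons.2 ⟨cert_boxes26, (List.forall_mem_cons.2 ⟨cert_boxes27, (List.forall_mem_cons.2 ⟨cert_boxes28, (List.forall_mem_cons.2 ⟨cert_boxes29, (fun _ h => absurd h List.not_mem_nil)⟩)⟩)⟩)⟩)⟩)⟩)⟩)⟩)⟩)⟩)⟩)⟩)⟩)⟩)⟩)⟩)⟩)⟩)⟩)⟩)⟩)⟩)⟩)⟩)⟩)⟩)⟩)⟩)⟩)⟩)

/-- A block of groups. -/
noncomputable def groupBlock30 : List (List Bx) :=
  [checkedBoxes30, checkedBoxes31, checkedBoxes32, checkedBoxes33, checkedBoxes34, checkedBoxes35, checkedBoxes36, checkedBoxes37, checkedBoxes38, checkedBoxes39, checkedBoxes40, checkedBoxes41, checkedBoxes42, checkedBoxes43, checkedBoxes44, checkedBoxes45, checkedBoxes46, checkedBoxes47, checkedBoxes48, checkedBoxes49, checkedBoxes50, checkedBoxes51, checkedBoxes52, checkedBoxes53, checkedBoxes54, checkedBoxes55, checkedBoxes56, checkedBoxes57, checkedBoxes58, checkedBoxes59]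

theorem cert_block30 : ∀ L ∈ groupBlock30, ∀ x ∈ L, Cert cfg x ids :=
  (List.forall_mem_cons.2 ⟨cert_boxes30, (List.forall_mem_cons.2 ⟨cert_boxes31, (List.forall_mem_cons.2 ⟨cert_boxes32, (List.forall_mem_cons.2 ⟨cert_boxes33, (List.forall_mem_cons.2 ⟨cert_boxes34, (List.forall_mem_cons.2 ⟨cert_boxes35, (List.forall_mem_cons.2 ⟨cert_boxes36, (List.forall_mem_cons.2 ⟨cert_boxes37, (List.forall_mem_cons.2 ⟨cert_boxes38, (List.forall_mem_cons.2 ⟨cert_boxes39, (List.forall_mem_cons.2 ⟨cert_boxes40, (List.forall_mem_cons.2 ⟨cert_boxes41, (List.forall_mem_cons.2 ⟨cert_boxes42, (List.forall_mem_cons.2 ⟨cert_boxes43, (List.forall_mem_cons.2 ⟨cert_boxes44, (List.forall_mem_cons.2 ⟨cert_boxes45, (List.forall_mem_cons.2 ⟨cert_boxes46, (List.forall_mem_cons.2 ⟨cert_boxes47, (List.forall_mem_cons.2 ⟨cert_boxes48, (List.forall_mem_cons.2 ⟨cert_boxes49, (List.forall_mem_cons.2 ⟨cert_boxes50, (List.forall_mem_cons.2 ⟨cert_boxes51, (List.forall_mem_cons.2 ⟨cert_boxes52, (List.forall_mem_cons.2 ⟨cert_boxes53,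 (List.forall_mem_cons.2 ⟨cert_boxes54, (List.forall_mem_cons.2 ⟨cert_boxes55, (List.forall_mem_cons.2 ⟨cert_boxes56, (List.forall_mem_cons.2 ⟨cert_boxes57, (List.forall_mem_cons.2 ⟨cert_boxes58, (List.forall_mem_cons.2 ⟨cert_boxes59, (fun _ h => absurd h List.not_mem_nil)⟩)⟩)⟩)⟩)⟩)⟩)⟩)⟩)⟩)⟩)⟩)⟩)⟩)⟩)⟩)⟩)⟩)⟩)⟩)⟩)⟩)⟩)⟩)⟩)⟩)⟩)⟩)⟩)⟩)⟩)

/-- A block of groups. -/
noncomputable def groupBlock60 : List (List Bx) :=
  [checkedBoxes60, checkedBoxes61, checkedBoxes62, checkedBoxes63, checkedBoxes64, checkedBoxes65, checkedBoxes66, checkedBoxes67, checkedBoxes68, checkedBoxes69, checkedBoxes70, checkedBoxes71, checkedBoxes72, checkedBoxes73, checkedBoxes74, checkedBoxes75, checkedBoxes76, checkedBoxes77, checkedBoxes78, checkedBoxes79, checkedBoxes80, checkedBoxes81, checkedBoxes82, checkedBoxes83, checkedBoxes84, checkedBoxes85, checkedBoxes86, checkedBoxes87, checkedBoxes88, checkedBoxes89]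

theorem cert_block60 : ∀ L ∈ groupBlock60, ∀ x ∈ L, Cert cfg x ids :=
  (List.forall_mem_cons.2 ⟨cert_boxes60, (List.forall_mem_cons.2 ⟨cert_boxes61, (List.forall_mem_cons.2 ⟨cert_boxes62, (List.forall_mem_cons.2 ⟨cert_boxes63, (List.forall_mem_cons.2 ⟨cert_boxes64, (List.forall_mem_cons.2 ⟨cert_boxes65, (List.forall_mem_cons.2 ⟨cert_boxes66, (List.forall_mem_cons.2 ⟨cert_boxes67, (List.forall_mem_cons.2 ⟨cert_boxes68, (List.forall_mem_cons.2 ⟨cert_boxes69, (List.forall_mem_cons.2 ⟨cert_boxes70, (List.forall_mem_cons.2 ⟨cert_boxes71, (List.forall_mem_cons.2 ⟨cert_boxes72, (List.forall_mem_cons.2 ⟨cert_boxes73, (List.forall_mem_cons.2 ⟨cert_boxes74, (List.forall_mem_cons.2 ⟨cert_boxes75, (List.forall_mem_cons.2 ⟨cert_boxes76, (List.forall_mem_cons.2 ⟨cert_boxes77, (List.forall_mem_cons.2 ⟨cert_boxes78, (List.forall_mem_cons.2 ⟨cert_boxes79, (List.forall_mem_cons.2 ⟨cert_boxes80, (List.forall_mem_cons.2 ⟨cert_boxes81, (List.forall_mem_cons.2 ⟨cert_boxes82, (List.forall_mem_cons.2 ⟨cert_boxes83,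 (List.forall_mem_cons.2 ⟨cert_boxes84, (List.forall_mem_cons.2 ⟨cert_boxes85, (List.forall_mem_cons.2 ⟨cert_boxes86, (List.forall_mem_cons.2 ⟨cert_boxes87, (List.forall_mem_cons.2 ⟨cert_boxes88, (List.forall_mem_cons.2 ⟨cert_boxes89, (fun _ h => absurd h List.not_mem_nil)⟩)⟩)⟩)⟩)⟩)⟩)⟩)⟩)⟩)⟩)⟩)⟩)⟩)⟩)⟩)⟩)⟩)⟩)⟩)⟩)⟩)⟩)⟩)⟩)⟩)⟩)⟩)⟩)⟩)⟩)

/-- A block of groups. -/
noncomputable def groupBlock90 : List (List Bx) :=
  [checkedBoxes90, checkedBoxes91, checkedBoxes92, checkedBoxes93, checkedBoxes94, checkedBoxes95, checkedBoxes96, checkedBoxes97, checkedBoxes98, checkedBoxes99, checkedBoxes100, checkedBoxes101, checkedBoxes102, checkedBoxes103, checkedBoxes104, checkedBoxes105, checkedBoxes106]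

theorem cert_block90 : ∀ L ∈ groupBlock90, ∀ x ∈ L, Cert cfg x ids :=
  (List.forall_mem_cons.2 ⟨cert_boxes90, (List.forall_mem_cons.2 ⟨cert_boxes91, (List.forall_mem_cons.2 ⟨cert_boxes92, (List.forall_mem_cons.2 ⟨cert_boxes93, (List.forall_mem_cons.2 ⟨cert_boxes94, (List.forall_mem_cons.2 ⟨cert_boxes95, (List.forall_mem_cons.2 ⟨cert_boxes96, (List.forall_mem_cons.2 ⟨cert_boxes97, (List.forall_mem_cons.2 ⟨cert_boxes98, (List.forall_mem_cons.2 ⟨cert_boxes99, (List.forall_mem_cons.2 ⟨cert_boxes100, (List.forall_mem_cons.2 ⟨cert_boxes101, (List.forall_mem_cons.2 ⟨cert_boxes102, (List.forall_mem_cons.2 ⟨cert_boxes103, (List.forall_mem_cons.2 ⟨cert_boxes104, (List.forall_mem_cons.2 ⟨cert_boxes105, (List.forall_mem_cons.2 ⟨cert_boxes106, (fun _ h => absurd h List.not_mem_nil)⟩)⟩)⟩)⟩)⟩)⟩)⟩)⟩)⟩)⟩)⟩)⟩)⟩)⟩)⟩)⟩)⟩)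

theorem cert_groups : ∀ L ∈ boxGroups, ∀ x ∈ L, Cert cfg x ids :=
  fun L h => ((List.forall_mem_append.2 ⟨cert_block0, (List.forall_mem_append.2 ⟨cert_block30, (List.forall_mem_append.2 ⟨cert_block60, cert_block90⟩)⟩)⟩) : ∀ L ∈ groupBlock0 ++ (groupBlock30 ++ (groupBlock60 ++ (groupBlock90))), ∀ x ∈ L, Cert cfg x ids) L h

theorem shape_ok : takeBoxes shape (root cfg.D) boxGroups.flatten = some [] := by decide +kernel

theorem nonneg : Nonneg cfg :=
  nonneg_of_cert cfg_ok (cert_of_takeBoxes_all shape_ok fun x hx => by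
    obtain ⟨L, hL, hx'⟩ := List.mem_flatten.1 hx
    have h := cert_groups L hL x hx'
    rw [cfg_len]
    exact h)

end Vale.Agent.P154.Anti.Reg4
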