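import Vale.Agent.P154.Anti.PairBound
import Vale.Agent.P154.Anti.Reg4.Data
import Vale.Agent.P154.Anti.Reg4.Vectors

/-!
# Three states on the quaternary tree: node inequalities

The integer vectors are multiples of the scalar inequalities at the parameter `-1 / 2`.
-/

namespace Vale.Agent.P154.Anti.Reg4

open Box Vale.Agent.P154.Tree

theorem basis_ok : basisOk cfg = true := by decide +kernel

theorem basis_eq : cfg.basis = twinBasis E ⟨-1, 2⟩ := by decide +kernel

theorem checked : twinCheck 1000000000 4 cfg.vecs ineqs = true := by decide +kernel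

/-- The exponents together with two more. -/
noncomputable def expos (j : Fin 12) : Fin 3 → ℝ :=
  Fin.append (fun i => expo3 (E i)) ![expo3 ⟨20, 5, 5⟩, expo3 ⟨25, 5, 0⟩] j

/-- The pointwise inequalities once the integer vectors are nonnegative. -/
theorem point (hT : Nonneg cfg) : ∀ v ∈ padded, PW 3 (((-1 / 2 : ℚ)) : ℝ) expos
    (fun j => (v.c j : ℝ)) (fun j => (v.b j : ℝ) * (4 : ℝ)) v.k := by
  intro v' hv'
  obtain ⟨v, hv, rfl⟩ := List.mem_map.1 hv'
  have h := pw_of_twinCheck hT basis_ok E ⟨-1, 2⟩ (M := 1000000000) (d := 4) (by norm_num)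
    basis_eq checked v hv
  have e : (((-1 : ℤ) : ℝ) / ((2 : ℤ) : ℝ)) = (((-1 / 2 : ℚ)) : ℝ) := by norm_num
  rw [e] at h
  have h4 : ((4 : ℚ) : ℝ) = 4 := by norm_num
  rw [h4] at h
  exact pw_pad (m := 2) (A' := expos) (fun j => Fin.append_left _ _ j) h

end Vale.Agent.P154.Anti.Reg4
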