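import Vale.Agent.P154.Anti.SmallHalf
import Vale.Agent.P154.Anti.Reg4.Scalar
import Vale.Agent.P154.Anti.Reg4.Point
import Vale.Agent.P154.Anti.Reg4.Boxes

/-!
# Three states on the quaternary tree

The antiferromagnetic chain does not reconstruct at or below the Kesten-Stigum bound on the
regular tree with four children, where the critical parameter is the extreme value `-1 / 2`.
-/

namespace Vale.Agent.P154.Anti.Reg4

open Filter Topology Box Vale.Agent.P154.Tree

theorem expo_scale (a b c : ℕ) (h : a + b + c = 6) :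
    expo3 ⟨5 * a, 5 * b, 5 * c⟩ = expo3 ⟨a, b, c⟩ := by
  funext i
  rw [expo3_apply (N := 30) (by simp only; omega), expo3_apply (N := 6) (by simp only; omega)]
  fin_cases i <;> simp [N3.fn] <;> ring

theorem expos_simplex (j : Fin 12) : (∀ i, 0 ≤ expos j i) ∧ ∑ i, expos j i = 1 := by
  have h30 : (30 : ℕ) ≠ 0 := by norm_num
  have hE : ∀ i, (E i).n0 + (E i).n1 + (E i).n2 = 30 := by decide
  refine Fin.addCases (m := 10) (n := 2) (fun i => ?_) (fun i => ?_) j
  · simpa [expos] using expo3_simplex h30 (hE i)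
  · fin_cases i
    · exact expo3_simplex (n := ⟨20, 5, 5⟩) h30 rfl
    · exact expo3_simplex (n := ⟨25, 5, 0⟩) h30 rfl

/-- Nonreconstruction at every antiferromagnetic parameter up to the Kesten-Stigum bound once
the integer vectors are nonnegative. -/
theorem tendsto_adv_four_of_nonneg (hT : Nonneg cfg) {mu : ℝ} (hmu : mu ≤ 0)
    (hks : (4 : ℝ) * mu ^ 2 ≤ 1) : Tendsto (adv 3 (regLaw 4) mu) atTop (𝓝 0) := by
  have hcast : (((-1 / 2 : ℚ)) : ℝ) = -(1 / 2) := by norm_num
  have hadm : Adm 3 (-(1 / 2) : ℝ) := adm_three le_rfl (by norm_num)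
  have e9 : expos 9 = expo3 ⟨10, 10, 10⟩ := rfl
  have eS : expos 5 = expo3 ⟨15, 15, 0⟩ := rfl
  have eT : expos 10 = expo3 ⟨20, 5, 5⟩ := rfl
  have eP : expos 11 = expo3 ⟨25, 5, 0⟩ := rfl
  have h3 : ∀ i : Fin 3, (1 / 3 : ℝ) ≤ expos 9 i := fun i => by
    rw [e9, expo3_apply (N := 30) (by simp only)]
    fin_cases i <;> norm_num [N3.fn]
  have hsmall : SmallExcl expos (fun y => 1 - (1 - y) ^ 4) 9
      (((1 / 40 : ℚ)) : ℝ) (-(1 / 2)) 4 :=
    SmallHalf.smallExcl_regular_four 9 5 10 11 (e9.trans (expo_scale 2 2 2 rfl))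
      (eS.trans (expo_scale 3 3 0 rfl)) (eT.trans (expo_scale 4 1 1 rfl))
      (eP.trans (expo_scale 5 1 0 rfl)) (by norm_num)
  have hpw := point hT
  rw [hcast] at hpw
  have hlim := tendsto_adv_regular_of_tree (q := 3) (m := 4) (r := 9) (by norm_num) (by norm_num)
    hadm (fun j => (expos_simplex j).1) (fun j => (expos_simplex j).2) padded
    (by simpa using hpw)
    (fun u u0 u1 => sqDev_le_phi_shrink (expos_simplex 9).1 (expos_simplex 9).2
      (by norm_num : (0 : ℝ) < 1 / 3)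
      (h3 0) (h3 1) le_rfl le_rfl (by norm_num : (-(1 / 2) : ℝ) < 0) u0 u1)
    scalarTree scalar (by simpa [SmallExcl] using hsmall)
  refine tendsto_adv_of_abs_le (isLaw_regLaw 4) hadm
    (mul_nonneg_of_nonpos_of_nonpos hmu (by norm_num)) ?_ hlim
  rw [← sq_le_sq]
  nlinarith

/-- Nonreconstruction on the quaternary tree up to the Kesten-Stigum bound. -/
theorem tendsto_adv_four {mu : ℝ} (hmu : mu ≤ 0) (hks : (4 : ℝ) * mu ^ 2 ≤ 1) :
    Tendsto (adv 3 (regLaw 4) mu) atTop (𝓝 0) :=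
  tendsto_adv_four_of_nonneg nonneg hmu hks

/-- The critical antiferromagnetic parameter of the quaternary tree. -/
theorem tendsto_adv_four_crit {lam : ℝ} (h : lam < 0) (hd : ((4 : ℕ) : ℝ) * lam ^ 2 = 1) :
    Tendsto (adv 3 (regLaw 4) lam) atTop (𝓝 0) :=
  tendsto_adv_four h.le (le_of_eq (by exact_mod_cast hd))

end Vale.Agent.P154.Anti.Reg4
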